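import Vale.Agent.P338.R2.H968.Basic

/-!
Loops over rulers and copying of blocks.
-/

namespace Vale.Agent.P338.R2.H968

open Vale.Agent.P338.R2.H898 Prog

/-- The zipper with contents `xs` and the head at `p`. -/
def zipAt {α : Type} (xs : List α) (p : ℕ) : Zip α := ⟨(xs.take p).reverse, xs.drop p⟩

theorem zipAt_zero {α : Type} (xs : List α) : zipAt xs 0 = ⟨[], xs⟩ := by simp [zipAt]

theorem zipAt_length {α : Type} (xs : List α) : zipAt xs xs.length = ⟨xs.reverse, []⟩ := by
  simp [zipAt]

theorem zipAt_peek {α : Type} (xs : List α) (p : ℕ) : (zipAt xs p).peek = xs[p]? := by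
  simp [zipAt, Zip.peek, List.head?_drop]

theorem zipAt_right {α : Type} {d : α} {xs : List α} {p : ℕ} (h : p < xs.length) :
    (Op.right : Op α).app d (zipAt xs p) = zipAt xs (p + 1) := by
  simp only [zipAt]
  rw [List.drop_eq_getElem_cons h, app_right_cons]
  congr 1
  rw [List.take_succ_eq_append_getElem h, List.reverse_append]
  rfl

theorem zipAt_rew {α : Type} {d : α} (xs : List α) (p : ℕ) :
    (Op.rew : Op α).app d (zipAt xs p) = ⟨[], xs⟩ := by
  simp [zipAt]

variable {M F α : Type} [DecidableEq F] {d : α}

theorem upd_self (z : F → Zip α) (f : F) (x : Zip α) (h : z f = x) :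
    Function.update z f x = z := by
  subst h; exact Function.update_eq_self f z

/-- Run `p` once for every cell of the ruler `r`. -/
def forR (r : F) (p : Prog M F α) : Prog M F α :=
  .seq (.loop (fun _ x => (x r).isSome) (.seq p (act r .right))) (act r .rew)

theorem run_forR {r : F} {p : Prog M F α} {R : List α} {m : M} (Z : ℕ → F → Zip α) (t : ℕ)
    (hr : ∀ i, Z i r = ⟨[], R⟩)
    (h : ∀ i < R.length, Run d p ⟨m, Function.update (Z i) r (zipAt R i)⟩ t
      ⟨m, Function.update (Z (i + 1)) r (zipAt R i)⟩) :
    Run d (forR r p) ⟨m, Z 0⟩ (R.length * (t + 2) + 2) ⟨m, Z R.length⟩ := by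
  have h1 := Run.loop_const (d := d) (c := fun _ x => (x r).isSome)
    (p := .seq p (act r .right)) R.length
    (fun i => (⟨m, Function.update (Z i) r (zipAt R i)⟩ : Store M F α)) (t + 1)
    (fun i hi => by simp [Store.reads, zipAt_peek, hi])
    (by simp [Store.reads, zipAt_peek])
    (fun i hi => by
      have h2 := run_act (d := d) r (.right : Op α)
        (⟨m, Function.update (Z (i + 1)) r (zipAt R i)⟩ : Store M F α)
      simp only [Function.update_self, Function.update_idem, zipAt_right hi] at h2
      exact Run.seq (h i hi) h2)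
  have h2 := run_act (d := d) r (.rew : Op α)
    (⟨m, Function.update (Z R.length) r (zipAt R R.length)⟩ : Store M F α)
  simp only [Function.update_self, Function.update_idem, zipAt_rew] at h2
  have h3 := Run.seq h1 h2
  simp only [zipAt_zero] at h3
  rw [upd_self _ _ _ (hr 0), upd_self _ _ _ (hr R.length)] at h3
  exact h3.mono (by ring_nf; omega)

/-- Copy one symbol from `f` to `g`. -/
def copy1 (e : α) (f g : F) : Prog M F α :=
  .seq (.prim fun m x => (m, some (g, .write ((x f).getD e)))) (.seq (act g .right) (act f .right))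

theorem run_copy1 {e : α} {f g : F} (hfg : f ≠ g) {a : α} {u x v : List α} {m : M}
    {z : F → Zip α} (hf : z f = ⟨u, a :: x⟩) (hg : z g = ⟨v, []⟩) :
    Run d (copy1 e f g) ⟨m, z⟩ 3
      ⟨m, Function.update (Function.update z f ⟨a :: u, x⟩) g ⟨a :: v, []⟩⟩ := by
  have h1 : Run d (.prim fun m x => (m, some (g, .write ((x f).getD e))) : Prog M F α) ⟨m, z⟩ 1
      ⟨m, Function.update z g ⟨v, [a]⟩⟩ := by
    apply Run.prim'
    simp [appAct, Store.reads, hf, hg]
  have h2 := run_act (d := d) g (.right : Op α) (⟨m, Function.update z g ⟨v, [a]⟩⟩ : Store M F α)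
  simp only [Function.update_self, Function.update_idem, app_right_cons] at h2
  have h3 := run_act (d := d) f (.right : Op α)
    (⟨m, Function.update z g ⟨a :: v, []⟩⟩ : Store M F α)
  simp only [Function.update_of_ne hfg, hf, app_right_cons] at h3
  rw [Function.update_comm hfg.symm] at h3
  exact Run.seq h1 (Run.seq h2 h3)

/-- Copy a block of length `|r|` from `f` to `g`. -/
def copyN (e : α) (f g r : F) : Prog M F α := forR r (copy1 e f g)

theorem run_copyN {e : α} {f g r : F} (hfg : f ≠ g) (hfr : f ≠ r) (hgr : g ≠ r)
    {x u y v R : List α} {m : M} {z : F → Zip α} (hlen : x.length = R.length)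
    (hf : z f = ⟨u, x ++ y⟩) (hg : z g = ⟨v, []⟩) (hr : z r = ⟨[], R⟩) :
    Run d (copyN e f g r) ⟨m, z⟩ (R.length * 5 + 2)
      ⟨m, Function.update (Function.update z f ⟨x.reverse ++ u, y⟩) g ⟨x.reverse ++ v, []⟩⟩ := by
  have h1 := run_forR (d := d) (r := r) (p := copy1 e f g) (R := R) (m := m)
    (fun i => Function.update (Function.update z f ⟨(x.take i).reverse ++ u, x.drop i ++ y⟩) g
      ⟨(x.take i).reverse ++ v, []⟩) 3
    (fun i => by
      rw [Function.update_of_ne hgr.symm, Function.update_of_ne hfr.symm, hr])
    (fun i hi => by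
      rw [← hlen] at hi
      have h2 := run_copy1 (d := d) (e := e) hfg (a := x[i]) (u := (x.take i).reverse ++ u)
        (x := x.drop (i + 1) ++ y) (v := (x.take i).reverse ++ v) (m := m)
        (z := Function.update (Function.update (Function.update z f
          ⟨(x.take i).reverse ++ u, x.drop i ++ y⟩) g
          ⟨(x.take i).reverse ++ v, []⟩) r (zipAt R i))
        (by
          rw [Function.update_of_ne hfr, Function.update_of_ne hfg, Function.update_self,
            List.drop_eq_getElem_cons hi]
          rfl)
        (by rw [Function.update_of_ne hgr, Function.update_self])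
      have e1 : ∀ w : List α, x[i] :: ((x.take i).reverse ++ w) =
          (x.take (i + 1)).reverse ++ w := by
        intro w
        rw [List.take_succ_eq_append_getElem hi, List.reverse_append]
        rfl
      rw [e1, e1] at h2
      convert h2 using 2
      funext k
      simp only [Function.update_apply]
      split_ifs <;> simp_all)
  simp only [List.take_zero, List.reverse_nil, List.nil_append, List.drop_zero] at h1
  rw [upd_self z f _ hf, upd_self z g _ hg, ← hlen, List.take_length, List.drop_length,
    List.nil_append, hlen] at h1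
  exact h1.mono (by omega)

end Vale.Agent.P338.R2.H968
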