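import Vale.Agent.P338.R2.H968.Call
import Vale.Agent.P338.R2.H968.Ruler
import Vale.Agent.P338.R2.H525.Spec

/-!
Calling the machine `A` on padded operands.
-/

namespace Vale.Agent.P338.R2.H968

open Vale.Agent.P338.R2.H898 Prog
open Vale.Agent.P338.R2.H525 (padTo mulBits zeros)

theorem bin_eq_bits (k z : ℕ) : bin k z = H778.bits k z := by
  induction k generalizing z with
  | zero => simp [bin, H778.bits]
  | succ k ih =>
    rw [H778.bits, ← ih, bin, List.ofFn_succ_last, bin]
    congr 1
    · congr 1
      funext i
      rw [Nat.testBit_div_two]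
      congr 1
      simp
      omega
    · simp [Nat.testBit_zero]

theorem val_eq_val (x : List Bool) : val x = H778.val x := rfl

theorem mulBits_eq (n : ℕ) (x y : List Bool) :
    mulBits n x y = bin (2 * n) (val (padTo n x) * val (padTo n y)) := by
  rw [bin_eq_bits]
  rfl

theorem padTo_length {n : ℕ} {x : List Bool} (h : x.length ≤ n) : (padTo n x).length = n := by
  simp [padTo, zeros]
  omega

theorem finite_words (n : ℕ) : {x : List Bool | x.length = n}.Finite :=
  List.finite_length_eq Bool n

theorem mulTime_bdd (A : MTM) (n : ℕ) :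
    BddAbove {t | ∃ x y : List Bool, x.length = n ∧ y.length = n ∧ t = A.time (mulWord x y)} := by
  have h : {t | ∃ x y : List Bool, x.length = n ∧ y.length = n ∧ t = A.time (mulWord x y)} =
      (fun p : List Bool × List Bool => A.time (mulWord p.1 p.2)) ''
        ({x : List Bool | x.length = n} ×ˢ {x : List Bool | x.length = n}) := by
    ext t
    constructor
    · rintro ⟨x, y, hx, hy, rfl⟩
      exact ⟨(x, y), ⟨hx, hy⟩, rfl⟩
    · rintro ⟨⟨x, y⟩, ⟨hx, hy⟩, rfl⟩
      exact ⟨x, y, hx, hy, rfl⟩
  rw [h]
  exact (((finite_words n).prod (finite_words n)).image _).bddAbove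

theorem time_le_mulTime (A : MTM) {n : ℕ} {x y : List Bool} (hx : x.length = n)
    (hy : y.length = n) : A.time (mulWord x y) ≤ mulTime A n :=
  le_csSup (mulTime_bdd A n) ⟨x, y, hx, hy, rfl⟩

variable {M F α : Type} [DecidableEq F] {d : α}

theorem run_act' {f : F} {o : Op α} {m : M} {z : F → Zip α} {v : Zip α}
    (h : o.app d (z f) = v) : Run d (act f o) ⟨m, z⟩ 1 ⟨m, Function.update z f v⟩ := by
  subst h
  exact run_act f o _

/-- Move right on `f`, with the symbol `o` appended at the end. -/
def padStep (o : α) (f : F) : Prog M F α :=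
  .seq (.ite (fun _ x => (x f).isSome) skip (act f (.write o))) (act f .right)

theorem run_padStep_cons {o a : α} {f : F} {l r : List α} {m : M} {z : F → Zip α}
    (h : z f = ⟨l, a :: r⟩) :
    Run d (padStep o f) ⟨m, z⟩ 3 ⟨m, Function.update z f ⟨a :: l, r⟩⟩ := by
  have h2 := Run.iteT (d := d) (c := fun _ x => (x f).isSome) (q := act f (.write o))
    (s := (⟨m, z⟩ : Store M F α)) (by simp [Store.reads, h]) (run_skip _)
  exact Run.seq h2 (run_act' (by rw [h]; rfl))

theorem run_padStep_nil {o : α} {f : F} {l : List α} {m : M} {z : F → Zip α}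
    (h : z f = ⟨l, []⟩) :
    Run d (padStep o f) ⟨m, z⟩ 3 ⟨m, Function.update z f ⟨o :: l, []⟩⟩ := by
  have h2 := Run.iteF (d := d) (c := fun _ x => (x f).isSome) (p := skip)
    (s := (⟨m, z⟩ : Store M F α)) (by simp [Store.reads, h])
    (run_act' (f := f) (o := .write o) (v := ⟨l, [o]⟩) (by rw [h]; rfl))
  have h3 := run_act' (d := d) (f := f) (o := .right) (v := ⟨o :: l, []⟩) (m := m)
    (z := Function.update z f ⟨l, [o]⟩) (by rw [Function.update_self]; rfl)
  rw [Function.update_idem] at h3
  exact Run.seq h2 h3

/-- Pad the file `f` (at rest) to the length of the ruler `r` with the symbol `o`. -/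
def padF (o : α) (f r : F) : Prog M F α := .seq (forR r (padStep o f)) (act f .rew)

theorem run_padF {o : α} {f r : F} (hfr : f ≠ r) {x R : List α} {m : M} {z : F → Zip α}
    (hlen : x.length ≤ R.length) (hf : z f = ⟨[], x⟩) (hr : z r = ⟨[], R⟩) :
    Run d (padF o f r) ⟨m, z⟩ (R.length * 5 + 3)
      ⟨m, Function.update z f ⟨[], x ++ List.replicate (R.length - x.length) o⟩⟩ := by
  obtain ⟨y, hy⟩ : ∃ y, y = x ++ List.replicate (R.length - x.length) o := ⟨_, rfl⟩
  have hyl : y.length = R.length := by simp [hy]; omega
  have hstep : ∀ i (hi : i < R.length) (z' : F → Zip α), z' f = ⟨(y.take i).reverse, x.drop i⟩ →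
      Run d (padStep o f) ⟨m, z'⟩ 3
        ⟨m, Function.update z' f ⟨(y.take (i + 1)).reverse, x.drop (i + 1)⟩⟩ := by
    intro i hi z' hz'
    have hiy : i < y.length := by omega
    have e1 : (y.take (i + 1)).reverse = y[i] :: (y.take i).reverse := by
      rw [List.take_succ_eq_append_getElem hiy, List.reverse_append]
      rfl
    rw [e1]
    by_cases hix : i < x.length
    · have e3 : y[i] = x[i] := by simp [hy, List.getElem_append_left hix]
      rw [e3]
      exact run_padStep_cons (by rw [hz', List.drop_eq_getElem_cons hix])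
    · have e2 : x.drop i = [] := List.drop_eq_nil_of_le (by omega)
      have e2' : x.drop (i + 1) = [] := List.drop_eq_nil_of_le (by omega)
      have e3 : y[i] = o := by
        simp [hy, List.getElem_append_right (Nat.le_of_not_lt hix)]
      rw [e3, e2']
      exact run_padStep_nil (by rw [hz', e2])
  have h1 := run_forR (d := d) (r := r) (p := padStep o f) (R := R) (m := m)
    (fun i => Function.update z f ⟨(y.take i).reverse, x.drop i⟩) 3
    (fun i => by rw [Function.update_of_ne hfr.symm, hr])
    (fun i hi => by
      have h2 := hstep i hi (Function.update (Function.update z f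
        ⟨(y.take i).reverse, x.drop i⟩) r (zipAt R i))
        (by rw [Function.update_of_ne hfr, Function.update_self])
      convert h2 using 2
      rw [Function.update_comm hfr, Function.update_comm hfr, Function.update_idem])
  simp only [List.take_zero, List.reverse_nil, List.drop_zero] at h1
  rw [upd_self z f _ hf, ← hyl, List.take_length, List.drop_eq_nil_of_le (by omega)] at h1
  have h2 := run_act' (d := d) (f := f) (o := .rew) (v := ⟨[], y⟩) (m := m)
    (z := Function.update z f ⟨y.reverse, []⟩) (by rw [Function.update_self]; simp)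
  rw [Function.update_idem] at h2
  rw [← hy, ← hyl]
  exact (Run.seq h1 h2).mono (by omega)

variable {A : MTM}

namespace CallEnv

variable (E : CallEnv A M F α d)

/-- Pad the operands, call `A`, and empty the operand files. -/
noncomputable def mulP (nr : F) : Prog M F α :=
  seqL [padF (E.bit false) (E.file (.inr .opX)) nr, padF (E.bit false) (E.file (.inr .opY)) nr,
    E.call, act (E.file (.inr .opX)) .rew, act (E.file (.inr .opX)) .trunc,
    act (E.file (.inr .opY)) .rew, act (E.file (.inr .opY)) .trunc]

/-- **Multiplication of padded operands.** -/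
theorem run_mulP (hA : Multiplies A) {nr : F} (hnr : ∀ i, E.file i ≠ nr) {NR : List α}
    (hN : 1 ≤ NR.length) {x y : List Bool} (hx : x.length ≤ NR.length)
    (hy : y.length ≤ NR.length) {u : List α} (m : M) (z : F → Zip α)
    (htp : ∀ i, z (E.file (.inl i)) = Zip.nil)
    (hX : z (E.file (.inr .opX)) = ⟨[], x.map E.bit⟩)
    (hY : z (E.file (.inr .opY)) = ⟨[], y.map E.bit⟩)
    (hK : z (E.file (.inr .clk)) = ⟨u, []⟩)
    (hR : z (E.file (.inr .res)) = Zip.nil) (hNR : z nr = ⟨[], NR⟩) :
    ∃ T ≤ mulTime A NR.length,
      Run d (E.mulP nr) ⟨m, z⟩ ((callC A + 30) * (T + NR.length))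
        ⟨E.put (mem0 A) m, Function.update (Function.update (Function.update (Function.update z
          (E.file (.inr .opX)) Zip.nil) (E.file (.inr .opY)) Zip.nil)
          (E.file (.inr .res)) ⟨[], (mulBits NR.length x y).map E.bit⟩)
          (E.file (.inr .clk)) ⟨List.replicate T E.mark ++ u, []⟩⟩ := by
  have hinj : ∀ {i j : A.Tape ⊕ CFile}, i ≠ j → E.file i ≠ E.file j := fun h h' =>
    h (E.file_inj h')
  set n := NR.length with hn
  have hpx : (padTo n x).map E.bit = x.map E.bit ++
      List.replicate (n - (x.map E.bit).length) (E.bit false) := by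
    simp [padTo, zeros]
  have hpy : (padTo n y).map E.bit = y.map E.bit ++
      List.replicate (n - (y.map E.bit).length) (E.bit false) := by
    simp [padTo, zeros]
  have h1 := run_padF (d := d) (o := E.bit false) (f := E.file (.inr .opX)) (r := nr)
    (hnr _) (x := x.map E.bit) (R := NR) (m := m) (z := z) (by simpa using hx) hX hNR
  rw [← hn, ← hpx] at h1
  have h2 := run_padF (d := d) (o := E.bit false) (f := E.file (.inr .opY)) (r := nr)
    (hnr _) (x := y.map E.bit) (R := NR) (m := m)
    (z := Function.update z (E.file (.inr .opX)) ⟨[], (padTo n x).map E.bit⟩)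
    (by simpa using hy) (by rw [Function.update_of_ne (hinj (by simp)), hY])
    (by rw [Function.update_of_ne (Ne.symm (hnr _)), hNR])
  rw [← hn, ← hpy] at h2
  have h3 := E.run_call hA hN (padTo_length hx) (padTo_length hy) (u := u) m
    (Function.update (Function.update z (E.file (.inr .opX)) ⟨[], (padTo n x).map E.bit⟩)
      (E.file (.inr .opY)) ⟨[], (padTo n y).map E.bit⟩)
    (fun i => by
      rw [Function.update_of_ne (hinj (by simp)), Function.update_of_ne (hinj (by simp)), htp])
    (by rw [Function.update_of_ne (hinj (by simp)), Function.update_self])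
    (by rw [Function.update_self])
    (by
      rw [Function.update_of_ne (hinj (by simp)), Function.update_of_ne (hinj (by simp)), hK])
    (by
      rw [Function.update_of_ne (hinj (by simp)), Function.update_of_ne (hinj (by simp)), hR])
  rw [← mulBits_eq] at h3
  refine ⟨A.time (mulWord (padTo n x) (padTo n y)),
    time_le_mulTime A (padTo_length hx) (padTo_length hy), ?_⟩
  set T := A.time (mulWord (padTo n x) (padTo n y)) with hT
  have h4 : ∀ (f : F) (m : M) (z : F → Zip α) (v : List α), z f = ⟨[], v⟩ →
      Run d (act f .rew) ⟨m, z⟩ 1 ⟨m, z⟩ := by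
    intro f m z v h
    have := run_act' (d := d) (f := f) (o := .rew) (v := ⟨[], v⟩) (m := m) (z := z)
      (by rw [h]; simp)
    rwa [upd_self z f _ h] at this
  have h5 : ∀ (f : F) (m : M) (z : F → Zip α) (v : List α), z f = ⟨[], v⟩ →
      Run d (act f .trunc) ⟨m, z⟩ 1 ⟨m, Function.update z f Zip.nil⟩ := by
    intro f m z v h
    exact run_act' (by rw [h]; rfl)
  refine Run.seq' h1 (Run.seq h2 (Run.seq h3 (Run.seq
    (h4 _ _ _ ((padTo n x).map E.bit) ?_) (Run.seq (h5 _ _ _ ((padTo n x).map E.bit) ?_)
    (Run.seq (h4 _ _ _ ((padTo n y).map E.bit) ?_)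
    (Run.seq (t' := 1) (h5 _ _ _ ((padTo n y).map E.bit) ?_) ?_)))))) ?_
  · rw [Function.update_of_ne (hinj (by simp)), Function.update_of_ne (hinj (by simp)),
      Function.update_of_ne (hinj (by simp)), Function.update_self]
  · rw [Function.update_of_ne (hinj (by simp)), Function.update_of_ne (hinj (by simp)),
      Function.update_of_ne (hinj (by simp)), Function.update_self]
  · rw [Function.update_of_ne (hinj (by simp)), Function.update_of_ne (hinj (by simp)),
      Function.update_of_ne (hinj (by simp)), Function.update_self]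
  · rw [Function.update_of_ne (hinj (by simp)), Function.update_of_ne (hinj (by simp)),
      Function.update_of_ne (hinj (by simp)), Function.update_self]
  · have e : Function.update (Function.update (Function.update (Function.update
        (Function.update (Function.update z (E.file (.inr .opX)) ⟨[], (padTo n x).map E.bit⟩)
        (E.file (.inr .opY)) ⟨[], (padTo n y).map E.bit⟩)
        (E.file (.inr .res)) ⟨[], (mulBits n x y).map E.bit⟩)
        (E.file (.inr .clk)) ⟨List.replicate T E.mark ++ u, []⟩)
        (E.file (.inr .opX)) Zip.nil) (E.file (.inr .opY)) Zip.nil =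
        Function.update (Function.update (Function.update (Function.update z
          (E.file (.inr .opX)) Zip.nil) (E.file (.inr .opY)) Zip.nil)
          (E.file (.inr .res)) ⟨[], (mulBits n x y).map E.bit⟩)
          (E.file (.inr .clk)) ⟨List.replicate T E.mark ++ u, []⟩ := by
      have n1 : E.file (.inr .opX) ≠ E.file (.inr .opY) := hinj (by simp)
      have n2 : E.file (.inr .opX) ≠ E.file (.inr .res) := hinj (by simp)
      have n3 : E.file (.inr .opX) ≠ E.file (.inr .clk) := hinj (by simp)
      have n4 : E.file (.inr .opY) ≠ E.file (.inr .res) := hinj (by simp)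
      have n5 : E.file (.inr .opY) ≠ E.file (.inr .clk) := hinj (by simp)
      have n6 : E.file (.inr .res) ≠ E.file (.inr .clk) := hinj (by simp)
      funext k
      simp only [Function.update_apply]
      split_ifs <;> simp_all
    rw [e]
    exact run_skip _
  · nlinarith [Nat.zero_le T]

end CallEnv

end Vale.Agent.P338.R2.H968
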