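import Vale.Agent.P338.R2.H898.Machine
import Vale.Agent.P338.R2.H968.PadCall

/-!
P338, stage 3: the schoolbook multiplication on a multitape Turing machine, in quadratic time.
-/

namespace Vale.Agent.P338.R2.H968.School

open Vale.Agent.P338.R2.H898 Prog

/-- The files. -/
inductive SF
  | I | Y | X | N | R | O
  deriving DecidableEq

instance : Fintype SF := ⟨{.I, .Y, .X, .N, .R, .O}, by
  intro x
  cases x <;> simp⟩

/-- The contents of the files. -/
def st (I Y X N R O : Zip Letter) : SF → Zip Letter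
  | .I => I
  | .Y => Y
  | .X => X
  | .N => N
  | .R => R
  | .O => O

section upd

variable {I Y X N R O v : Zip Letter}

@[simp] theorem upd_I : Function.update (st I Y X N R O) .I v = st v Y X N R O := by
  funext j; cases j <;> rfl

@[simp] theorem upd_Y : Function.update (st I Y X N R O) .Y v = st I v X N R O := by
  funext j; cases j <;> rfl

@[simp] theorem upd_X : Function.update (st I Y X N R O) .X v = st I Y v N R O := by
  funext j; cases j <;> rfl

@[simp] theorem upd_N : Function.update (st I Y X N R O) .N v = st I Y X v R O := by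
  funext j; cases j <;> rfl

@[simp] theorem upd_R : Function.update (st I Y X N R O) .R v = st I Y X N v O := by
  funext j; cases j <;> rfl

@[simp] theorem upd_O : Function.update (st I Y X N R O) .O v = st I Y X N R v := by
  funext j; cases j <;> rfl

end upd

/-- Programs with a carry in the memory. -/
abbrev SP := Prog Bool SF Letter

/-- One operation. -/
def act (f : SF) (o : Op Letter) : SP := .prim fun m _ => (m, some (f, o))

/-- Copy the symbol under the head. -/
def cpy (f g : SF) : SP := .prim fun m r => (m, some (g, .write ((r f).getD .zero)))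

/-- Is there a symbol under the head of the file `f`? -/
def has (f : SF) : Bool → (SF → Option Letter) → Bool := fun _ r => (r f).isSome

/-- Is the bit one? -/
def isOne : Option Letter → Bool
  | some .one => true
  | _ => false

/-- Sum of three bits. -/
def sm (a b c : Bool) : Bool := xor (xor a b) c

/-- Carry of three bits. -/
def cy (a b c : Bool) : Bool := (a && b) || (a && c) || (b && c)

/-- One step of the addition. -/
def addS : SP := .prim fun m r =>
  (cy (isOne (r .X) && isOne (r .Y)) (isOne (r .R)) m,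
    some (.R, .write (bitL (sm (isOne (r .X) && isOne (r .Y)) (isOne (r .R)) m))))

/-- Write the carry. -/
def putC : SP := .prim fun m _ => (false, some (.R, .write (bitL m)))

/-- The addition of `X` times the bit of `Y` to `R`. -/
def addLoop : SP :=
  .loop (has .X) (.seq addS (.seq (act .R .right) (act .X .right)))

theorem isOne_bitL (b : Bool) : isOne (some (bitL b)) = b := by
  cases b <;> rfl

/-- Addition of bit lists, least significant bit first; `y` is the factor of the first list. -/
def addc (y : Bool) : List Bool → List Bool → Bool → List Bool × Bool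
  | a :: as, b :: bs, c =>
      let p := addc y as bs (cy (a && y) b c)
      (sm (a && y) b c :: p.1, p.2)
  | _, _, c => ([], c)

/-- The value of a list of bits, least significant bit first. -/
def lv : List Bool → ℕ
  | [] => 0
  | a :: l => a.toNat + 2 * lv l

theorem addc_length (y : Bool) : ∀ (a b : List Bool) (c : Bool), a.length = b.length →
    (addc y a b c).1.length = a.length
  | [], [], _, _ => rfl
  | a :: as, b :: bs, c, h => by
    simp only [addc, List.length_cons]
    rw [addc_length y as bs _ (by simpa using h)]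

theorem addc_val (y : Bool) : ∀ (a b : List Bool) (c : Bool), a.length = b.length →
    lv (addc y a b c).1 + 2 ^ a.length * (addc y a b c).2.toNat =
      y.toNat * lv a + lv b + c.toNat
  | [], [], c, _ => by simp [addc, lv]
  | a :: as, b :: bs, c, h => by
    have ih := addc_val y as bs (cy (a && y) b c) (by simpa using h)
    simp only [addc, lv, List.length_cons, pow_succ]
    have key : (sm (a && y) b c).toNat + 2 * (cy (a && y) b c).toNat =
        y.toNat * a.toNat + b.toNat + c.toNat := by
      cases a <;> cases b <;> cases c <;> cases y <;> rfl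
    nlinarith [ih, key]

theorem lv_append (a b : List Bool) : lv (a ++ b) = lv a + 2 ^ a.length * lv b := by
  induction a with
  | nil => simp [lv]
  | cons x a ih =>
    simp only [List.cons_append, lv, List.length_cons, pow_succ]
    rw [ih]
    ring

theorem val_reverse (l : List Bool) : H778.val l.reverse = lv l := by
  induction l with
  | nil => rfl
  | cons x l ih =>
    rw [List.reverse_cons, H778.val_append, ih]
    simp [lv]
    ring

theorem lv_reverse (l : List Bool) : lv l.reverse = H778.val l := by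
  rw [← val_reverse, List.reverse_reverse]

theorem lv_replicate (n : ℕ) : lv (List.replicate n false) = 0 := by
  induction n with
  | zero => rfl
  | succ n ih =>
    rw [List.replicate_succ, lv, ih]
    rfl

/-- Letters of bits. -/
def lt (l : List Bool) : List Letter := l.map bitL

@[simp] theorem lt_nil : lt [] = [] := rfl

@[simp] theorem lt_cons (a : Bool) (l : List Bool) : lt (a :: l) = bitL a :: lt l := rfl

@[simp] theorem lt_length (l : List Bool) : (lt l).length = l.length := by simp [lt]

theorem lt_reverse (l : List Bool) : (lt l).reverse = lt l.reverse := by simp [lt]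

theorem lt_append (a b : List Bool) : lt (a ++ b) = lt a ++ lt b := by simp [lt]

theorem step_act {f : SF} {o : Op Letter} {z z' : SF → Zip Letter} {m : Bool} {p : SP} {t : ℕ}
    {s' : Store Bool SF Letter} (hz : Function.update z f (o.app .zero (z f)) = z')
    (h : Run .zero p ⟨m, z'⟩ t s') : Run .zero (.seq (act f o) p) ⟨m, z⟩ (t + 1) s' := by
  subst hz
  exact (Run.seq (Run.prim' rfl) h).mono (by omega)

theorem last_act {f : SF} {o : Op Letter} {z z' : SF → Zip Letter} {m : Bool}
    (hz : Function.update z f (o.app .zero (z f)) = z') :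
    Run .zero (act f o) ⟨m, z⟩ 1 ⟨m, z'⟩ := by
  subst hz
  exact Run.prim' rfl

theorem run_addLoop (y : Bool) (I N O : Zip Letter) (ly ry : List Letter) :
    ∀ (a b : List Bool) (c : Bool) (lx lr : List Letter), a.length = b.length →
    Run .zero addLoop ⟨c, st I ⟨ly, bitL y :: ry⟩ ⟨lx, lt a⟩ N ⟨lr, lt b⟩ O⟩
      (4 * a.length + 1)
      ⟨(addc y a b c).2, st I ⟨ly, bitL y :: ry⟩ ⟨(lt a).reverse ++ lx, []⟩ N
        ⟨(lt (addc y a b c).1).reverse ++ lr, []⟩ O⟩
  | [], [], c, lx, lr, _ => by
    exact (Run.loopF (by rfl)).mono (by simp)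
  | a :: as, b :: bs, c, lx, lr, h => by
    have ih := run_addLoop y I N O ly ry as bs (cy (a && y) b c) (bitL a :: lx)
      (bitL (sm (a && y) b c) :: lr) (by simpa using h)
    have h1 : Run .zero (.seq addS (.seq (act .R .right) (act .X .right)))
        ⟨c, st I ⟨ly, bitL y :: ry⟩ ⟨lx, lt (a :: as)⟩ N ⟨lr, lt (b :: bs)⟩ O⟩ 3
        ⟨cy (a && y) b c, st I ⟨ly, bitL y :: ry⟩ ⟨bitL a :: lx, lt as⟩ N
          ⟨bitL (sm (a && y) b c) :: lr, lt bs⟩ O⟩ := by
      have e1 : Run .zero addS
          ⟨c, st I ⟨ly, bitL y :: ry⟩ ⟨lx, lt (a :: as)⟩ N ⟨lr, lt (b :: bs)⟩ O⟩ 1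
          ⟨cy (a && y) b c, st I ⟨ly, bitL y :: ry⟩ ⟨lx, lt (a :: as)⟩ N
            ⟨lr, bitL (sm (a && y) b c) :: lt bs⟩ O⟩ := by
        apply Run.prim'
        simp only [appAct, Store.reads, st, Zip.peek, lt_cons, List.head?_cons, isOne_bitL,
          Op.app]
        congr 1
        exact upd_R
      refine (Run.seq e1 (step_act (z' := st I ⟨ly, bitL y :: ry⟩ ⟨lx, lt (a :: as)⟩ N
            ⟨bitL (sm (a && y) b c) :: lr, lt bs⟩ O) ?_ (last_act ?_))).mono (by omega)
      · exact upd_R
      · exact upd_X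
    have e2 : addc y (a :: as) (b :: bs) c = (sm (a && y) b c ::
        (addc y as bs (cy (a && y) b c)).1, (addc y as bs (cy (a && y) b c)).2) := rfl
    have h2 := Run.loopT (c := has .X) (by rfl) h1 ih
    rw [e2]
    simp only [lt_cons, List.reverse_cons, List.append_assoc, List.cons_append,
      List.nil_append] at h2 ⊢
    refine h2.mono ?_
    rw [List.length_cons]
    omega

/-- Move `R` back. -/
def backLoop : SP := .loop (has .N) (.seq (act .R .left) (act .N .right))

theorem run_backLoop (m : Bool) (I Y X O : Zip Letter) :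
    ∀ (a : List Letter) (ln lr rr : List Letter) (b : List Letter), a.length = b.length →
    Run .zero backLoop ⟨m, st I Y X ⟨ln, a⟩ ⟨b ++ lr, rr⟩ O⟩ (3 * a.length + 1)
      ⟨m, st I Y X ⟨a.reverse ++ ln, []⟩ ⟨lr, b.reverse ++ rr⟩ O⟩
  | [], ln, lr, rr, [], _ => (Run.loopF (by rfl)).mono (by simp)
  | x :: a, ln, lr, rr, y :: b, h => by
    have ih := run_backLoop m I Y X O a (x :: ln) lr (y :: rr) b (by simpa using h)
    have h1 : Run .zero (.seq (act .R .left) (act .N .right))
        ⟨m, st I Y X ⟨ln, x :: a⟩ ⟨y :: b ++ lr, rr⟩ O⟩ 2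
        ⟨m, st I Y X ⟨x :: ln, a⟩ ⟨b ++ lr, y :: rr⟩ O⟩ :=
      (step_act (z' := st I Y X ⟨ln, x :: a⟩ ⟨b ++ lr, y :: rr⟩ O) upd_R
        (last_act upd_N)).mono (by omega)
    have h2 := Run.loopT (c := has .N) (by rfl) h1 ih
    simp only [List.reverse_cons, List.append_assoc, List.cons_append, List.nil_append] at h2 ⊢
    refine h2.mono ?_
    rw [List.length_cons]
    omega

/-- The treatment of one bit of `Y`. -/
def body : SP :=
  .seq addLoop (.seq putC (.seq (act .R .right) (.seq (act .X .rew) (.seq backLoop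
    (.seq (act .N .rew) (act .Y .right))))))

/-- The new accumulator: one bit longer. -/
def nxt (x : List Bool) (y : Bool) (acc : List Bool) : List Bool :=
  (addc y x acc false).1 ++ [(addc y x acc false).2]

theorem nxt_length {x acc : List Bool} (y : Bool) (h : x.length = acc.length) :
    (nxt x y acc).length = x.length + 1 := by
  simp [nxt, addc_length y x acc false h]

theorem nxt_val {x acc : List Bool} (y : Bool) (h : x.length = acc.length) :
    lv (nxt x y acc) = y.toNat * lv x + lv acc := by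
  have h1 := addc_val y x acc false h
  rw [nxt, lv_append, addc_length y x acc false h]
  simpa [lv] using h1

theorem run_body (y : Bool) (I O : Zip Letter) (ly ry N : List Letter) {x acc : List Bool}
    (hN : N.length = x.length) (lr : List Letter) (h : x.length = acc.length) {r0 : Bool}
    {rs : List Bool} (hr : nxt x y acc = r0 :: rs) :
    Run .zero body ⟨false, st I ⟨ly, bitL y :: ry⟩ ⟨[], lt x⟩ ⟨[], N⟩ ⟨lr, lt acc⟩ O⟩
      (7 * x.length + 7)
      ⟨false, st I ⟨bitL y :: ly, ry⟩ ⟨[], lt x⟩ ⟨[], N⟩ ⟨bitL r0 :: lr, lt rs⟩ O⟩ := by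
  have hrs : rs.length = x.length := by
    have := nxt_length y h
    rw [hr, List.length_cons] at this
    omega
  have h1 := run_addLoop y I ⟨[], N⟩ O ly ry x acc false [] lr h
  have h2 : Run .zero putC ⟨(addc y x acc false).2, st I ⟨ly, bitL y :: ry⟩
      ⟨(lt x).reverse ++ [], []⟩ ⟨[], N⟩ ⟨(lt (addc y x acc false).1).reverse ++ lr, []⟩ O⟩ 1
      ⟨false, st I ⟨ly, bitL y :: ry⟩
      ⟨(lt x).reverse ++ [], []⟩ ⟨[], N⟩ ⟨(lt (addc y x acc false).1).reverse ++ lr,
        [bitL (addc y x acc false).2]⟩ O⟩ := by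
    apply Run.prim'
    simp only [appAct]
    congr 1
    exact upd_R
  have e3 : bitL (addc y x acc false).2 :: ((lt (addc y x acc false).1).reverse ++ lr) =
      (lt rs).reverse ++ (bitL r0 :: lr) := by
    have : (lt (nxt x y acc)).reverse ++ lr = (lt (r0 :: rs)).reverse ++ lr := by rw [hr]
    simpa [nxt, lt_append] using this
  have h4 := run_backLoop false I ⟨ly, bitL y :: ry⟩ ⟨[], lt x⟩ O N [] (bitL r0 :: lr) []
    (lt rs).reverse (by simp [hN, hrs])
  simp only [List.append_nil, List.reverse_reverse] at h4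
  refine (Run.seq h1 (Run.seq h2 (step_act (z' := st I ⟨ly, bitL y :: ry⟩
      ⟨(lt x).reverse ++ [], []⟩ ⟨[], N⟩ ⟨(lt rs).reverse ++ (bitL r0 :: lr), []⟩ O) ?_
    (step_act (z' := st I ⟨ly, bitL y :: ry⟩
      ⟨[], lt x⟩ ⟨[], N⟩ ⟨(lt rs).reverse ++ (bitL r0 :: lr), []⟩ O) ?_
    (Run.seq h4 (step_act (z' := st I ⟨ly, bitL y :: ry⟩
      ⟨[], lt x⟩ ⟨[], N⟩ ⟨bitL r0 :: lr, lt rs⟩ O) ?_ (last_act ?_))))))).mono ?_
  · rw [← e3]
    exact upd_R
  · rw [upd_X]
    simp [st, Op.app]
  · rw [upd_N]
    simp [st, Op.app]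
  · exact upd_Y
  · rw [hN]
    ring_nf
    omega

/-- The main loop. -/
def mainLoop : SP := .loop (has .Y) body

/-- The digits of the product. -/
def prodD (x : List Bool) : List Bool → List Bool → List Bool
  | [], acc => acc
  | y :: ys, acc =>
      match nxt x y acc with
      | [] => []
      | r0 :: rs => r0 :: prodD x ys rs

theorem prodD_spec (x : List Bool) : ∀ (ys acc : List Bool), x.length = acc.length →
    (prodD x ys acc).length = ys.length + x.length ∧
      lv (prodD x ys acc) = lv x * lv ys + lv acc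
  | [], acc, h => by
    simp [prodD, lv, h]
  | y :: ys, acc, h => by
    obtain ⟨r0, rs, hr⟩ : ∃ r0 rs, nxt x y acc = r0 :: rs := by
      have := nxt_length y h
      cases hn : nxt x y acc with
      | nil =>
        rw [hn] at this
        simp at this
      | cons r0 rs => exact ⟨r0, rs, rfl⟩
    have hrs : x.length = rs.length := by
      have := nxt_length y h
      rw [hr, List.length_cons] at this
      omega
    obtain ⟨h1, h2⟩ := prodD_spec x ys rs hrs
    have h3 := nxt_val y h
    rw [hr, lv] at h3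
    simp only [prodD, hr, List.length_cons, lv]
    constructor
    · omega
    · rw [h2]
      nlinarith [h3]

theorem run_mainLoop (I O : Zip Letter) (N : List Letter) {x : List Bool}
    (hN : N.length = x.length) : ∀ (ys acc : List Bool) (ly lr : List Letter),
    x.length = acc.length → ∃ u v : List Bool, u ++ v = prodD x ys acc ∧ u.length = ys.length ∧
    Run .zero mainLoop ⟨false, st I ⟨ly, lt ys⟩ ⟨[], lt x⟩ ⟨[], N⟩ ⟨lr, lt acc⟩ O⟩
      (ys.length * (7 * x.length + 8) + 1)
      ⟨false, st I ⟨(lt ys).reverse ++ ly, []⟩ ⟨[], lt x⟩ ⟨[], N⟩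
        ⟨(lt u).reverse ++ lr, lt v⟩ O⟩
  | [], acc, ly, lr, h =>
    ⟨[], acc, rfl, rfl, (Run.loopF (by rfl)).mono (by simp)⟩
  | y :: ys, acc, ly, lr, h => by
    obtain ⟨r0, rs, hr⟩ : ∃ r0 rs, nxt x y acc = r0 :: rs := by
      have := nxt_length y h
      cases hn : nxt x y acc with
      | nil =>
        rw [hn] at this
        simp at this
      | cons r0 rs => exact ⟨r0, rs, rfl⟩
    have hrs : x.length = rs.length := by
      have := nxt_length y h
      rw [hr, List.length_cons] at this
      omega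
    obtain ⟨u, v, h1, h2, h3⟩ := run_mainLoop I O N hN ys rs (bitL y :: ly) (bitL r0 :: lr) hrs
    refine ⟨r0 :: u, v, ?_, by simp [h2], ?_⟩
    · simp only [prodD, hr, List.cons_append, h1]
    · have h4 := run_body y I O ly (lt ys) N hN lr h hr
      have h5 := Run.loopT (c := has .Y) (by rfl) h4 h3
      simp only [lt_cons, List.reverse_cons, List.append_assoc, List.cons_append,
        List.nil_append] at h5 ⊢
      refine h5.mono ?_
      rw [List.length_cons]
      ring_nf
      omega

/-! Reading the input. -/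

/-- The head of the input is not on the separator. -/
def nhash : Bool → (SF → Option Letter) → Bool := fun _ r =>
  match r .I with
  | some .hash => false
  | _ => true

/-- Copy the second factor and its length. -/
def readY : SP :=
  .loop nhash
    (.seq (cpy .I .Y) (.seq (act .Y .right) (.seq (act .N (.write .one)) (.seq (act .N .right)
      (act .I .left)))))

theorem seq_cpy {f g : SF} {z z' : SF → Zip Letter} {m : Bool} {p : SP} {t : ℕ}
    {s' : Store Bool SF Letter}
    (hz : Function.update z g (Op.app .zero (.write ((z f).peek.getD .zero)) (z g)) = z')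
    (h : Run .zero p ⟨m, z'⟩ t s') : Run .zero (.seq (cpy f g) p) ⟨m, z⟩ (t + 1) s' := by
  subst hz
  exact (Run.seq (Run.prim' rfl) h).mono (by omega)

theorem run_readY (m : Bool) (X R O : Zip Letter) (L : List Letter) :
    ∀ (ys : List Bool) (y : Bool) (rr lY lN : List Letter),
    Run .zero readY ⟨m, st ⟨lt ys ++ .hash :: L, bitL y :: rr⟩ ⟨lY, []⟩ X ⟨lN, []⟩ R O⟩
      (6 * (ys.length + 1) + 1)
      ⟨m, st ⟨L, .hash :: ((lt (y :: ys)).reverse ++ rr)⟩ ⟨(lt (y :: ys)).reverse ++ lY, []⟩ X
        ⟨List.replicate (ys.length + 1) .one ++ lN, []⟩ R O⟩ := by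
  have hb : ∀ (y : Bool) (a : Letter) (rr lY lN L' : List Letter),
      Run .zero (.seq (cpy .I .Y) (.seq (act .Y .right) (.seq (act .N (.write .one))
        (.seq (act .N .right) (act .I .left)))))
      ⟨m, st ⟨a :: L', bitL y :: rr⟩ ⟨lY, []⟩ X ⟨lN, []⟩ R O⟩ 5
      ⟨m, st ⟨L', a :: bitL y :: rr⟩ ⟨bitL y :: lY, []⟩ X ⟨.one :: lN, []⟩ R O⟩ := by
    intro y a rr lY lN L'
    refine (seq_cpy (z' := st ⟨a :: L', bitL y :: rr⟩ ⟨lY, [bitL y]⟩ X ⟨lN, []⟩ R O) upd_Y
      (step_act (z' := st ⟨a :: L', bitL y :: rr⟩ ⟨bitL y :: lY, []⟩ X ⟨lN, []⟩ R O) upd_Y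
      (step_act (z' := st ⟨a :: L', bitL y :: rr⟩ ⟨bitL y :: lY, []⟩ X ⟨lN, [.one]⟩ R O) upd_N
      (step_act (z' := st ⟨a :: L', bitL y :: rr⟩ ⟨bitL y :: lY, []⟩ X ⟨.one :: lN, []⟩ R O)
        upd_N (last_act upd_I))))).mono (by omega)
  have hc : ∀ (y : Bool) (rr l : List Letter) (Y N : Zip Letter),
      nhash (⟨m, st ⟨l, bitL y :: rr⟩ Y X N R O⟩ : Store Bool SF Letter).m
      (⟨m, st ⟨l, bitL y :: rr⟩ Y X N R O⟩ : Store Bool SF Letter).reads = true := by
    intro y rr l Y N
    cases y <;> rfl
  intro ys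
  induction ys with
  | nil =>
    intro y rr lY lN
    have h1 := hb y .hash rr lY lN L
    have h2 := Run.loopT (c := nhash) (hc y rr _ _ _) h1 (Run.loopF (by rfl))
    exact h2.mono (by simp)
  | cons a ys ih =>
    intro y rr lY lN
    have h1 := hb y (bitL a) rr lY lN (lt ys ++ .hash :: L)
    have h2 := Run.loopT (c := nhash) (hc y rr _ _ _) h1 (ih a (bitL y :: rr) (bitL y :: lY) (.one :: lN))
    have e1 : List.replicate (ys.length + 1) Letter.one ++ .one :: lN =
        List.replicate ((a :: ys).length + 1) Letter.one ++ lN := by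
      rw [List.length_cons, List.replicate_succ' (n := ys.length + 1), List.append_assoc]
      rfl
    rw [e1] at h2
    simp only [lt_cons, List.reverse_cons, List.append_assoc, List.cons_append,
      List.nil_append] at h2 ⊢
    refine h2.mono ?_
    rw [List.length_cons]
    omega

/-- Copy the first factor and initialize the accumulator. -/
def readX : SP :=
  .loop (has .N) (.seq (cpy .I .X) (.seq (act .X .right) (.seq (act .R (.write .zero))
    (.seq (act .R .right) (.seq (act .I .left) (act .N .right))))))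

theorem run_readX (m : Bool) (Y O : Zip Letter) :
    ∀ (xs : List Bool) (x : Bool) (rr lX lR lN : List Letter) (a : Letter) (N : List Letter),
    N.length = xs.length → ∃ I',
    Run .zero readX ⟨m, st ⟨lt xs, bitL x :: rr⟩ Y ⟨lX, []⟩ ⟨lN, a :: N⟩ ⟨lR, []⟩ O⟩
      (7 * (xs.length + 1) + 1)
      ⟨m, st I' Y ⟨(lt (x :: xs)).reverse ++ lX, []⟩ ⟨N.reverse ++ a :: lN, []⟩
        ⟨List.replicate (xs.length + 1) .zero ++ lR, []⟩ O⟩ := by
  have hb : ∀ (x : Bool) (a : Letter) (L rr lX lR lN N : List Letter),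
      Run .zero (.seq (cpy .I .X) (.seq (act .X .right) (.seq (act .R (.write .zero))
        (.seq (act .R .right) (.seq (act .I .left) (act .N .right))))))
      ⟨m, st ⟨L, bitL x :: rr⟩ Y ⟨lX, []⟩ ⟨lN, a :: N⟩ ⟨lR, []⟩ O⟩ 6
      ⟨m, st (Op.app .zero .left ⟨L, bitL x :: rr⟩) Y ⟨bitL x :: lX, []⟩ ⟨a :: lN, N⟩
        ⟨.zero :: lR, []⟩ O⟩ := by
    intro x a L rr lX lR lN N
    refine (seq_cpy (z' := st ⟨L, bitL x :: rr⟩ Y ⟨lX, [bitL x]⟩ ⟨lN, a :: N⟩ ⟨lR, []⟩ O) upd_X
      (step_act (z' := st ⟨L, bitL x :: rr⟩ Y ⟨bitL x :: lX, []⟩ ⟨lN, a :: N⟩ ⟨lR, []⟩ O) upd_X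
      (step_act (z' := st ⟨L, bitL x :: rr⟩ Y ⟨bitL x :: lX, []⟩ ⟨lN, a :: N⟩ ⟨lR, [.zero]⟩ O)
        upd_R
      (step_act (z' := st ⟨L, bitL x :: rr⟩ Y ⟨bitL x :: lX, []⟩ ⟨lN, a :: N⟩ ⟨.zero :: lR, []⟩
        O) upd_R
      (step_act (z' := st (Op.app .zero .left ⟨L, bitL x :: rr⟩) Y ⟨bitL x :: lX, []⟩
        ⟨lN, a :: N⟩ ⟨.zero :: lR, []⟩ O) upd_I (last_act upd_N)))))).mono (by omega)
  intro xs
  induction xs with
  | nil =>
    intro x rr lX lR lN a N hN
    obtain rfl : N = [] := List.length_eq_zero_iff.1 hN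
    have h1 := hb x a [] rr lX lR lN []
    have h2 := Run.loopT (c := has .N) (by rfl) h1 (Run.loopF (by rfl))
    exact ⟨_, h2.mono (by simp)⟩
  | cons b xs ih =>
    intro x rr lX lR lN a N hN
    cases N with
    | nil => simp at hN
    | cons c N =>
      have h1 := hb x a (bitL b :: lt xs) rr lX lR lN (c :: N)
      obtain ⟨I', h3⟩ := ih b (bitL x :: rr) (bitL x :: lX) (.zero :: lR) (a :: lN) c N
        (by simpa using hN)
      have h2 := Run.loopT (c := has .N) (by rfl) h1 h3
      refine ⟨I', ?_⟩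
      have e1 : List.replicate (xs.length + 1) Letter.zero ++ .zero :: lR =
          List.replicate ((b :: xs).length + 1) Letter.zero ++ lR := by
        rw [List.length_cons, List.replicate_succ' (n := xs.length + 1), List.append_assoc]
        rfl
      rw [e1] at h2
      simp only [lt_cons, List.reverse_cons, List.append_assoc, List.cons_append,
        List.nil_append] at h2 ⊢
      refine h2.mono ?_
      rw [List.length_cons]
      omega

/-- Go to the end of the accumulator. -/
def endR : SP := .loop (has .R) (act .R .right)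

theorem run_endR (m : Bool) (I Y X N O : Zip Letter) : ∀ (r l : List Letter),
    Run .zero endR ⟨m, st I Y X N ⟨l, r⟩ O⟩ (2 * r.length + 1)
      ⟨m, st I Y X N ⟨r.reverse ++ l, []⟩ O⟩
  | [], l => (Run.loopF (by rfl)).mono (by simp)
  | a :: r, l => by
    have ih := run_endR m I Y X N O r (a :: l)
    have h1 : Run .zero (act .R .right) ⟨m, st I Y X N ⟨l, a :: r⟩ O⟩ 1
        ⟨m, st I Y X N ⟨a :: l, r⟩ O⟩ := last_act upd_R
    have h2 := Run.loopT (c := has .R) (by rfl) h1 ih
    simp only [List.reverse_cons, List.append_assoc, List.cons_append, List.nil_append] at h2 ⊢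
    refine h2.mono ?_
    rw [List.length_cons]
    omega

/-- Write the output. -/
def outL : SP :=
  .loop (has .N) (.seq (act .R .left) (.seq (cpy .R .O) (.seq (act .O .right)
    (.seq (act .R .left) (.seq (cpy .R .O) (.seq (act .O .right) (act .N .right)))))))

theorem run_outL (m : Bool) (I Y X : Zip Letter) : ∀ (N ws lN rr lO : List Letter),
    ws.length = 2 * N.length → ∃ R',
    Run .zero outL ⟨m, st I Y X ⟨lN, N⟩ ⟨ws, rr⟩ ⟨lO, []⟩⟩ (8 * N.length + 1)
      ⟨m, st I Y X ⟨N.reverse ++ lN, []⟩ R' ⟨ws.reverse ++ lO, []⟩⟩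
  | [], ws, lN, rr, lO, h => by
    obtain rfl : ws = [] := List.length_eq_zero_iff.1 (by simpa using h)
    exact ⟨_, (Run.loopF (by rfl)).mono (by simp)⟩
  | a :: N, [], lN, rr, lO, h => by simp at h
  | a :: N, [b], lN, rr, lO, h => by
    simp only [List.length_cons, List.length_nil] at h
    omega
  | a :: N, b :: c :: ws, lN, rr, lO, h => by
    obtain ⟨R', h3⟩ := run_outL m I Y X N ws (a :: lN) (c :: b :: rr) (c :: b :: lO)
      (by simp only [List.length_cons] at h; omega)
    have h1 : Run .zero (.seq (act .R .left) (.seq (cpy .R .O) (.seq (act .O .right)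
        (.seq (act .R .left) (.seq (cpy .R .O) (.seq (act .O .right) (act .N .right)))))))
        ⟨m, st I Y X ⟨lN, a :: N⟩ ⟨b :: c :: ws, rr⟩ ⟨lO, []⟩⟩ 7
        ⟨m, st I Y X ⟨a :: lN, N⟩ ⟨ws, c :: b :: rr⟩ ⟨c :: b :: lO, []⟩⟩ := by
      refine (step_act (z' := st I Y X ⟨lN, a :: N⟩ ⟨c :: ws, b :: rr⟩ ⟨lO, []⟩) upd_R
        (seq_cpy (z' := st I Y X ⟨lN, a :: N⟩ ⟨c :: ws, b :: rr⟩ ⟨lO, [b]⟩) upd_O
        (step_act (z' := st I Y X ⟨lN, a :: N⟩ ⟨c :: ws, b :: rr⟩ ⟨b :: lO, []⟩) upd_O
        (step_act (z' := st I Y X ⟨lN, a :: N⟩ ⟨ws, c :: b :: rr⟩ ⟨b :: lO, []⟩) upd_R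
        (seq_cpy (z' := st I Y X ⟨lN, a :: N⟩ ⟨ws, c :: b :: rr⟩ ⟨b :: lO, [c]⟩) upd_O
        (step_act (z' := st I Y X ⟨lN, a :: N⟩ ⟨ws, c :: b :: rr⟩ ⟨c :: b :: lO, []⟩) upd_O
        (last_act upd_N))))))).mono (by omega)
    have h2 := Run.loopT (c := has .N) (by rfl) h1 h3
    refine ⟨R', ?_⟩
    simp only [List.reverse_cons, List.append_assoc, List.cons_append, List.nil_append] at h2 ⊢
    refine h2.mono ?_
    rw [List.length_cons]
    omega

/-- The whole program. -/
def school : SP :=
  .seq (act .I .left) (.seq readY (.seq (act .I .left) (.seq (act .N .rew) (.seq readX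
    (.seq (act .N .rew) (.seq (act .X .rew) (.seq (act .R .rew) (.seq (act .Y .rew)
      (.seq mainLoop (.seq endR outL))))))))))

theorem run_school {n : ℕ} (hn : 1 ≤ n) {x y : List Bool} (hx : x.length = n)
    (hy : y.length = n) : ∃ s' : Store Bool SF Letter,
    Run .zero school ⟨false, st ⟨(mulWord x y).reverse, []⟩ Zip.nil Zip.nil Zip.nil Zip.nil
      Zip.nil⟩ (60 * n ^ 2) s' ∧
    (s'.z .O).full = (bin (2 * n) (val x * val y)).map bitL := by
  -- the factors, least significant bit first
  obtain ⟨y0, ys, hys⟩ : ∃ y0 ys, y.reverse = y0 :: ys := by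
    cases h : y.reverse with
    | nil =>
      have := congrArg List.length h
      rw [List.length_reverse, hy, List.length_nil] at this
      omega
    | cons a l => exact ⟨a, l, rfl⟩
  obtain ⟨x0, xs, hxs⟩ : ∃ x0 xs, x.reverse = x0 :: xs := by
    cases h : x.reverse with
    | nil =>
      have := congrArg List.length h
      rw [List.length_reverse, hx, List.length_nil] at this
      omega
    | cons a l => exact ⟨a, l, rfl⟩
  have hyl : ys.length + 1 = n := by
    have := congrArg List.length hys
    rw [List.length_reverse, hy, List.length_cons] at this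
    omega
  have hxl : xs.length + 1 = n := by
    have := congrArg List.length hxs
    rw [List.length_reverse, hx, List.length_cons] at this
    omega
  have e0 : (mulWord x y).reverse = bitL y0 :: (lt ys ++ .hash :: bitL x0 :: lt xs) := by
    have e1 : lt (y0 :: ys) = (lt y).reverse := by rw [lt_reverse, hys]
    have e2 : lt (x0 :: xs) = (lt x).reverse := by rw [lt_reverse, hxs]
    have e3 : (mulWord x y).reverse = lt (y0 :: ys) ++ .hash :: lt (x0 :: xs) := by
      rw [e1, e2]
      simp [mulWord, lt]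
    rw [e3]
    rfl
  rw [e0]
  have h1 := run_readY false Zip.nil Zip.nil Zip.nil (bitL x0 :: lt xs) ys y0 [] [] []
  obtain ⟨I', h2⟩ := run_readX false ⟨(lt (y0 :: ys)).reverse ++ [], []⟩ Zip.nil xs x0
    (.hash :: ((lt (y0 :: ys)).reverse ++ [])) [] [] [] .one (List.replicate xs.length .one)
    (by simp)
  obtain ⟨u, v, g1, g2, h3⟩ := run_mainLoop I' Zip.nil (List.replicate n Letter.one)
    (x := x0 :: xs) (by simp [hxl]) (y0 :: ys) (List.replicate n false) [] []
    (by simp [hxl])
  obtain ⟨g3, g4⟩ := prodD_spec (x0 :: xs) (y0 :: ys) (List.replicate n false) (by simp [hxl])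
  have h4 := run_endR false I' ⟨(lt (y0 :: ys)).reverse ++ [], []⟩ ⟨[], lt (x0 :: xs)⟩
    ⟨[], List.replicate n Letter.one⟩ Zip.nil (lt v) ((lt u).reverse ++ [])
  have hlen : ((lt v).reverse ++ ((lt u).reverse ++ [])).length = 2 * (List.replicate n
      Letter.one).length := by
    have := congrArg List.length g1
    rw [g3] at this
    simp only [List.length_append, List.length_cons] at this
    simp
    omega
  obtain ⟨R', h5⟩ := run_outL false I' ⟨(lt (y0 :: ys)).reverse ++ [], []⟩ ⟨[], lt (x0 :: xs)⟩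
    (List.replicate n Letter.one) ((lt v).reverse ++ ((lt u).reverse ++ [])) [] [] [] hlen
  refine ⟨_, (step_act (z' := st ⟨lt ys ++ .hash :: bitL x0 :: lt xs, [bitL y0]⟩ Zip.nil Zip.nil
    Zip.nil Zip.nil Zip.nil) upd_I (Run.seq h1 (step_act (z' := st ⟨lt xs, bitL x0 :: .hash ::
      ((lt (y0 :: ys)).reverse ++ [])⟩ ⟨(lt (y0 :: ys)).reverse ++ [], []⟩ Zip.nil
        ⟨List.replicate (ys.length + 1) .one ++ [], []⟩ Zip.nil Zip.nil) upd_I
    (step_act (z' := st ⟨lt xs, bitL x0 :: .hash ::
      ((lt (y0 :: ys)).reverse ++ [])⟩ ⟨(lt (y0 :: ys)).reverse ++ [], []⟩ Zip.nil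
        ⟨[], .one :: List.replicate xs.length .one⟩ Zip.nil Zip.nil) ?_
    (Run.seq h2 (step_act (z' := st I' ⟨(lt (y0 :: ys)).reverse ++ [], []⟩
        ⟨(lt (x0 :: xs)).reverse ++ [], []⟩ ⟨[], List.replicate n .one⟩
        ⟨List.replicate (xs.length + 1) .zero ++ [], []⟩ Zip.nil) ?_
    (step_act (z' := st I' ⟨(lt (y0 :: ys)).reverse ++ [], []⟩
        ⟨[], lt (x0 :: xs)⟩ ⟨[], List.replicate n .one⟩
        ⟨List.replicate (xs.length + 1) .zero ++ [], []⟩ Zip.nil) ?_
    (step_act (z' := st I' ⟨(lt (y0 :: ys)).reverse ++ [], []⟩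
        ⟨[], lt (x0 :: xs)⟩ ⟨[], List.replicate n .one⟩
        ⟨[], lt (List.replicate n false)⟩ Zip.nil) ?_
    (step_act (z' := st I' ⟨[], lt (y0 :: ys)⟩
        ⟨[], lt (x0 :: xs)⟩ ⟨[], List.replicate n .one⟩
        ⟨[], lt (List.replicate n false)⟩ Zip.nil) ?_
    (Run.seq h3 (Run.seq h4 h5))))))))))).mono ?_, ?_⟩
  · rw [upd_N]
    congr 1
    simp only [st, Op.app, List.append_nil, List.reverse_replicate, hyl]
    rw [← List.replicate_succ, hxl]
  · rw [upd_N]
    congr 1
    simp only [st, Op.app, List.append_nil, List.reverse_append, List.reverse_cons,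
      List.reverse_nil, List.nil_append, List.reverse_reverse]
    rw [← hxl, List.replicate_succ]
    rfl
  · rw [upd_X]
    simp [st, Op.app]
  · rw [upd_R]
    congr 1
    simp only [st, Op.app, List.append_nil, List.reverse_replicate, hxl, lt, List.map_replicate]
    rfl
  · rw [upd_Y]
    simp [st, Op.app]
  · have q1 : (y0 :: ys).length = n := by simp [hyl]
    have q2 : (x0 :: xs).length = n := by simp [hxl]
    have q3 : (lt v).length ≤ 2 * n := by
      simp only [List.length_append, List.length_reverse, lt_length, List.length_nil,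
        List.length_replicate] at hlen
      rw [lt_length]
      omega
    rw [q1, q2, hyl, hxl, List.length_replicate]
    nlinarith [hn]
  · have q1 : (st I' ⟨(lt (y0 :: ys)).reverse ++ [], []⟩ ⟨[], lt (x0 :: xs)⟩
        ⟨(List.replicate n Letter.one).reverse ++ [], []⟩ R'
        ⟨((lt v).reverse ++ ((lt u).reverse ++ [])).reverse ++ [], []⟩ .O).full =
        lt (u ++ v).reverse := by
      simp [st, Zip.full, lt]
    have q2 : (u ++ v).reverse = bin (2 * n) (val x * val y) := by
      rw [bin_eq_bits, val_eq_val, val_eq_val]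
      have q3 : (u ++ v).reverse.length = 2 * n := by
        rw [List.length_reverse, g1, g3]
        simp only [List.length_cons]
        omega
      rw [← H778.bits_val (u ++ v).reverse, q3, val_reverse, g1, g4, lv_replicate, add_zero,
        ← hxs, ← hys, lv_reverse, lv_reverse]
    rw [← q2]
    exact q1

/-- **The schoolbook multiplication.** -/
theorem exists_school : ∃ S : MTM, Multiplies S ∧
    ∀ n : ℕ, 1 ≤ n → mulTime S n ≤ 600 * n ^ 2 := by
  obtain ⟨S, hS⟩ := Comp.machine (M := Bool) (F := SF) (α := Letter) .zero (fun a => a)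
    (fun a => a) (fun _ => rfl) false .I .O school
  have key : ∀ n : ℕ, 1 ≤ n → ∀ x y : List Bool, x.length = n → y.length = n →
      S.Computes (mulWord x y) ((bin (2 * n) (val x * val y)).map bitL) ∧
      S.time (mulWord x y) ≤ 600 * n ^ 2 := by
    intro n hn x y hx hy
    obtain ⟨s', h1, h2⟩ := run_school hn hx hy
    have e1 : (fun f => if f = SF.I then (⟨((mulWord x y).map (fun a => a)).reverse, []⟩ :
        Zip Letter) else ⟨[], []⟩) = st ⟨(mulWord x y).reverse, []⟩ Zip.nil Zip.nil Zip.nil
        Zip.nil Zip.nil := by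
      funext f
      cases f <;> simp [st, Zip.nil]
    have h3 := hS (mulWord x y) ((bin (2 * n) (val x * val y)).map bitL) (60 * n ^ 2) s'
      (by rw [e1]; exact h1) (by rw [h2]; simp)
    refine ⟨h3.1, h3.2.trans ?_⟩
    have e2 : (mulWord x y).length = 2 * n + 1 := by
      simp [mulWord, hx, hy]
      omega
    have e3 : ((bin (2 * n) (val x * val y)).map bitL).length = 2 * n := by
      simp [bin]
    rw [e2, e3]
    nlinarith [hn]
  refine ⟨S, fun n hn x y hx hy => (key n hn x y hx hy).1, fun n hn => ?_⟩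
  have hne : {t | ∃ x y : List Bool, x.length = n ∧ y.length = n ∧
      t = S.time (mulWord x y)}.Nonempty :=
    ⟨_, List.replicate n false, List.replicate n false, by simp, by simp, rfl⟩
  refine csSup_le hne ?_
  rintro t ⟨x, y, hx, hy, rfl⟩
  exact (key n hn x y hx hy).2

end Vale.Agent.P338.R2.H968.School
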