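import Vale.Agent.P338.R2.H968.Offset

/-!
P338, unconditional lower bound: segments of a head movement and local time slices.
-/

namespace Vale.Agent.P338.R2.H968

open Finset

/-- The local time: how often the segment of time `t` was visited before. -/
def loc (seg : ℕ → ℕ) (t : ℕ) : ℕ := ((range t).filter fun t' => seg t' = seg t).card

/-- Segment and slice of the time `t`. -/
def key (seg : ℕ → ℕ) (q t : ℕ) : ℕ × ℕ := (seg t, loc seg t / q)

/-- The time `t` is the beginning of a visit. -/
def cs (seg : ℕ → ℕ) (q t : ℕ) : Prop := t = 0 ∨ key seg q (t - 1) ≠ key seg q t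

instance (seg : ℕ → ℕ) (q t : ℕ) : Decidable (cs seg q t) := by
  unfold cs
  infer_instance

variable {seg : ℕ → ℕ}

theorem loc_mono {t t' : ℕ} (h : t ≤ t') (hs : seg t = seg t') : loc seg t ≤ loc seg t' := by
  unfold loc
  rw [hs]
  apply Finset.card_le_card
  intro x hx
  simp only [Finset.mem_filter, Finset.mem_range] at hx ⊢
  exact ⟨by omega, hx.2⟩

theorem loc_lt {t t' : ℕ} (h : t < t') (hs : seg t = seg t') : loc seg t < loc seg t' := by
  unfold loc
  rw [hs]
  apply Finset.card_lt_card
  rw [Finset.ssubset_iff_of_subset]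
  · refine ⟨t, ?_, ?_⟩
    · simp only [Finset.mem_filter, Finset.mem_range]
      exact ⟨h, hs⟩
    · simp
  · intro x hx
    simp only [Finset.mem_filter, Finset.mem_range] at hx ⊢
    exact ⟨by omega, hx.2⟩

theorem loc_inj {t t' : ℕ} (hs : seg t = seg t') (h : loc seg t = loc seg t') : t = t' := by
  rcases Nat.lt_trichotomy t t' with h1 | h1 | h1
  · have := loc_lt h1 hs
    omega
  · exact h1
  · have := loc_lt h1 hs.symm
    omega

theorem loc_eq {s t : ℕ} (hs : seg t = s) :
    loc seg t = ((range t).filter fun t' => seg t' = s).card := by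
  rw [loc, hs]

/-- All smaller local times occur before. -/
theorem exists_loc {s : ℕ} (r t : ℕ) (h : r < ((range t).filter fun t' => seg t' = s).card) :
    ∃ t' < t, seg t' = s ∧ loc seg t' = r := by
  induction t with
  | zero => simp at h
  | succ t ih =>
    rw [Finset.range_add_one, Finset.filter_insert] at h
    by_cases hs : seg t = s
    · rw [if_pos hs, Finset.card_insert_of_notMem (by simp)] at h
      rcases Nat.lt_or_ge r ((range t).filter fun t' => seg t' = s).card with h1 | h1
      · obtain ⟨t', h2, h3, h4⟩ := ih h1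
        exact ⟨t', by omega, h3, h4⟩
      · exact ⟨t, by omega, hs, by rw [loc_eq hs]; omega⟩
    · rw [if_neg hs] at h
      obtain ⟨t', h2, h3, h4⟩ := ih h
      exact ⟨t', by omega, h3, h4⟩

theorem div_bounds {a p q : ℕ} (hq : 1 ≤ q) (h : a / q = p) : p * q ≤ a ∧ a < (p + 1) * q := by
  have h1 := Nat.div_add_mod a q
  have h2 : a % q < q := Nat.mod_lt _ (by omega)
  rw [h] at h1
  have h3 : (p + 1) * q = q * p + q := by ring
  have h4 : p * q = q * p := Nat.mul_comm _ _
  omega

theorem div_eq_of_bounds {a p q : ℕ} (h1 : p * q ≤ a) (h2 : a < (p + 1) * q) : a / q = p :=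
  Nat.div_eq_of_lt_le h1 h2

/-- (S3) -/
theorem card_key_le {q : ℕ} (hq : 1 ≤ q) (τ : ℕ) (k : ℕ × ℕ) :
    ((range τ).filter fun t => key seg q t = k).card ≤ q := by
  obtain ⟨s, p⟩ := k
  have h1 : ((range τ).filter fun t => key seg q t = (s, p)).card ≤
      (Finset.Ico (p * q) ((p + 1) * q)).card := by
    apply Finset.card_le_card_of_injOn (loc seg)
    · intro t ht
      have ht' : key seg q t = (s, p) := (Finset.mem_filter.mp (Finset.mem_coe.mp ht)).2
      have h2 : loc seg t / q = p := congrArg Prod.snd ht'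
      have h3 := div_bounds hq h2
      exact Finset.mem_coe.mpr (Finset.mem_Ico.mpr h3)
    · intro t ht t' ht' h
      have h2 : key seg q t = (s, p) := (Finset.mem_filter.mp (Finset.mem_coe.mp ht)).2
      have h3 : key seg q t' = (s, p) := (Finset.mem_filter.mp (Finset.mem_coe.mp ht')).2
      exact loc_inj ((congrArg Prod.fst h2).trans (congrArg Prod.fst h3).symm) h
  refine h1.trans (le_of_eq ?_)
  rw [Nat.card_Ico, Nat.add_mul, one_mul]
  omega

/-- A slice before the last one of a segment is complete. -/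
theorem card_key_eq {q τ s p t : ℕ} (hq : 1 ≤ q) (ht : t < τ) (hk : key seg q t = (s, p + 1)) :
    ((range τ).filter fun t => key seg q t = (s, p)).card = q := by
  have hs : seg t = s := congrArg Prod.fst hk
  have hl : loc seg t / q = p + 1 := congrArg Prod.snd hk
  have hb := div_bounds hq hl
  refine le_antisymm (card_key_le hq τ (s, p)) ?_
  have h1 : (Finset.Ico (p * q) ((p + 1) * q)) ⊆
      ((range τ).filter fun t => key seg q t = (s, p)).image (loc seg) := by
    intro r hr
    rw [Finset.mem_Ico] at hr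
    obtain ⟨t', h2, h3, h4⟩ := exists_loc (seg := seg) (s := s) r t (by
      rw [← loc_eq hs]; omega)
    rw [Finset.mem_image]
    refine ⟨t', ?_, h4⟩
    rw [Finset.mem_filter, Finset.mem_range]
    refine ⟨by omega, ?_⟩
    rw [key, h3, h4, div_eq_of_bounds hr.1 hr.2]
  have h2 := (Finset.card_le_card h1).trans Finset.card_image_le
  rw [Nat.card_Ico, Nat.add_mul, one_mul] at h2
  omega

/-- (S2) -/
theorem card_late_le {q : ℕ} (hq : 1 ≤ q) (τ : ℕ) :
    q * (((range τ).image (key seg q)).filter fun k => 1 ≤ k.2).card ≤ τ := by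
  set K := ((range τ).image (key seg q)).filter fun k => 1 ≤ k.2 with hK
  have h1 : ∀ k ∈ K, ((range τ).filter fun t => key seg q t = (k.1, k.2 - 1)).card = q := by
    rintro ⟨s, p⟩ hk
    rw [hK, Finset.mem_filter, Finset.mem_image] at hk
    obtain ⟨⟨t, ht, hkt⟩, hp⟩ := hk
    rw [Finset.mem_range] at ht
    simp only at hp
    obtain ⟨p', rfl⟩ : ∃ p', p = p' + 1 := ⟨p - 1, by omega⟩
    exact card_key_eq hq ht hkt
  have h2 : ∑ k ∈ K, ((range τ).filter fun t => key seg q t = (k.1, k.2 - 1)).card =
      q * K.card := by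
    rw [Finset.sum_congr rfl h1, Finset.sum_const, smul_eq_mul, Nat.mul_comm]
  rw [← h2, ← Finset.card_biUnion]
  · calc _ ≤ (range τ).card := by
          apply Finset.card_le_card
          intro t ht
          rw [Finset.mem_biUnion] at ht
          obtain ⟨k, -, hk⟩ := ht
          exact (Finset.mem_filter.mp hk).1
      _ = τ := Finset.card_range τ
  · intro k hk k' hk' hne
    rw [Function.onFun, Finset.disjoint_left]
    intro t ht ht'
    apply hne
    have e1 : key seg q t = (k.1, k.2 - 1) := (Finset.mem_filter.mp ht).2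
    have e2 : key seg q t = (k'.1, k'.2 - 1) := (Finset.mem_filter.mp ht').2
    rw [e1, Prod.mk.injEq] at e2
    have hk1 : 1 ≤ k.2 := (Finset.mem_filter.mp (Finset.mem_coe.mp hk)).2
    have hk1' : 1 ≤ k'.2 := (Finset.mem_filter.mp (Finset.mem_coe.mp hk')).2
    exact Prod.ext e2.1 (by omega)

/-- (S1), the count: beginnings of visits are boundary crossings or beginnings of slices. -/
theorem card_cs_le' {q : ℕ} (hq : 1 ≤ q) (τ : ℕ) :
    ((range τ).filter fun t => cs seg q t).card ≤
      1 + ((range τ).filter fun t => seg t ≠ seg (t + 1)).card +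
        (((range τ).image (key seg q)).filter fun k => 1 ≤ k.2).card := by
  have hsub : ((range τ).filter fun t => cs seg q t) ⊆
      ({0} ∪ ((range τ).filter fun t => seg t ≠ seg (t + 1)).image (· + 1)) ∪
        ((range τ).filter fun t => 1 ≤ t ∧ seg (t - 1) = seg t ∧
          key seg q (t - 1) ≠ key seg q t) := by
    intro t ht
    rw [Finset.mem_filter, Finset.mem_range] at ht
    obtain ⟨h1, h2⟩ := ht
    rw [Finset.mem_union, Finset.mem_union]
    rcases Nat.eq_zero_or_pos t with h3 | h3
    · left; left; simp [h3]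
    · by_cases h4 : seg (t - 1) = seg t
      · right
        rw [Finset.mem_filter, Finset.mem_range]
        refine ⟨h1, h3, h4, ?_⟩
        rcases h2 with h2 | h2
        · omega
        · exact h2
      · left; right
        rw [Finset.mem_image]
        refine ⟨t - 1, ?_, by omega⟩
        rw [Finset.mem_filter, Finset.mem_range]
        refine ⟨by omega, ?_⟩
        rw [show t - 1 + 1 = t by omega]
        exact h4
  have hlast : ((range τ).filter fun t => 1 ≤ t ∧ seg (t - 1) = seg t ∧
      key seg q (t - 1) ≠ key seg q t).card ≤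
      (((range τ).image (key seg q)).filter fun k => 1 ≤ k.2).card := by
    have aux : ∀ t, 1 ≤ t → seg (t - 1) = seg t → key seg q (t - 1) ≠ key seg q t →
        loc seg t = (loc seg t / q) * q ∧ 1 ≤ loc seg t / q := by
      intro t h1 h2 h3
      have e1 : loc seg t = loc seg (t - 1) + 1 := by
        rw [loc_eq rfl, loc_eq h2]
        have e0 : range t = insert (t - 1) (range (t - 1)) := by
          rw [← Finset.range_add_one]
          congr 1
          omega
        rw [e0, Finset.filter_insert, if_pos h2, Finset.card_insert_of_notMem (by simp)]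
      have e2 : loc seg (t - 1) / q ≠ loc seg t / q := by
        intro h
        apply h3
        rw [key, key, h2, h]
      have b1 := div_bounds hq (rfl : loc seg t / q = loc seg t / q)
      have b2 := div_bounds hq (rfl : loc seg (t - 1) / q = loc seg (t - 1) / q)
      have hle : loc seg (t - 1) / q ≤ loc seg t / q := Nat.div_le_div_right (by omega)
      have hlt : loc seg (t - 1) / q + 1 ≤ loc seg t / q := by omega
      have hm : (loc seg (t - 1) / q + 1) * q ≤ (loc seg t / q) * q :=
        Nat.mul_le_mul_right _ hlt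
      exact ⟨by omega, (Nat.le_add_left 1 _).trans hlt⟩
    refine Finset.card_le_card_of_injOn (key seg q) ?_ ?_
    · intro t ht
      have ht' := Finset.mem_filter.mp (Finset.mem_coe.mp ht)
      obtain ⟨h1, h2, h3, h4⟩ := ht'
      apply Finset.mem_coe.mpr
      rw [Finset.mem_filter]
      exact ⟨Finset.mem_image_of_mem _ h1, (aux t h2 h3 h4).2⟩
    · intro t ht t' ht' h
      obtain ⟨h1, h2, h3, h4⟩ := Finset.mem_filter.mp (Finset.mem_coe.mp ht)
      obtain ⟨h1', h2', h3', h4'⟩ := Finset.mem_filter.mp (Finset.mem_coe.mp ht')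
      have a1 := (aux t h2 h3 h4).1
      have a2 := (aux t' h2' h3' h4').1
      have e1 : seg t = seg t' := congrArg Prod.fst h
      have e2 : loc seg t / q = loc seg t' / q := congrArg Prod.snd h
      exact loc_inj e1 (by rw [a1, a2, e2])
  refine (Finset.card_le_card hsub).trans ?_
  refine (Finset.card_union_le _ _).trans ?_
  refine Nat.add_le_add ?_ hlast
  refine (Finset.card_union_le _ _).trans ?_
  rw [Finset.card_singleton]
  exact Nat.add_le_add_left Finset.card_image_le 1

/-- (S1) -/
theorem card_cs_le {q w : ℕ} (hq : 1 ≤ q) (hw : 1 ≤ w) (τ : ℕ)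
    (hc : w * ((range τ).filter fun t => seg t ≠ seg (t + 1)).card ≤ τ) :
    ((range τ).filter fun t => cs seg q t).card ≤ 1 + τ / w + τ / q := by
  have h1 := card_cs_le' (seg := seg) hq τ
  have h2 : ((range τ).filter fun t => seg t ≠ seg (t + 1)).card ≤ τ / w := by
    rw [Nat.le_div_iff_mul_le (by omega), Nat.mul_comm]
    exact hc
  have h3 : (((range τ).image (key seg q)).filter fun k => 1 ≤ k.2).card ≤ τ / q := by
    rw [Nat.le_div_iff_mul_le (by omega), Nat.mul_comm]
    exact card_late_le hq τ
  omega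

/-- (S4) -/
theorem card_image_key_le (q τ : ℕ) :
    ((range τ).image (key seg q)).card ≤ ((range τ).filter fun t => cs seg q t).card := by
  classical
  have hex : ∀ k ∈ (range τ).image (key seg q), ∃ t, t < τ ∧ key seg q t = k := by
    intro k hk
    obtain ⟨t, ht, hkt⟩ := Finset.mem_image.mp hk
    exact ⟨t, Finset.mem_range.mp ht, hkt⟩
  have hsub : (range τ).image (key seg q) ⊆
      ((range τ).filter fun t => cs seg q t).image (key seg q) := by
    intro k hk
    have h0 := hex k hk
    have h1 := Nat.find_spec h0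
    set t := Nat.find h0 with ht
    rw [Finset.mem_image]
    refine ⟨t, ?_, h1.2⟩
    rw [Finset.mem_filter, Finset.mem_range]
    refine ⟨h1.1, ?_⟩
    rcases Nat.eq_zero_or_pos t with h2 | h2
    · exact Or.inl h2
    · right
      intro h3
      have h4 := Nat.find_min h0 (m := t - 1) (by omega)
      exact h4 ⟨by omega, h3.trans h1.2⟩
  exact (Finset.card_le_card hsub).trans Finset.card_image_le

/-- (S5): the first slice of a segment begins with the first visit. -/
theorem seg_ne_of_first {q s t₀ : ℕ} (hq : 1 ≤ q) (h0 : key seg q t₀ = (s, 0))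
    (hmin : ∀ t < t₀, key seg q t ≠ (s, 0)) {t : ℕ} (ht : t < t₀) : seg t ≠ s := by
  intro hs
  have h1 : seg t₀ = s := congrArg Prod.fst h0
  have h2 : loc seg t₀ / q = 0 := congrArg Prod.snd h0
  have h3 := (div_bounds hq h2).2
  have h4 := loc_lt ht (hs.trans h1.symm)
  apply hmin t ht
  rw [key, hs, Nat.div_eq_of_lt (by omega)]

/-- (S6) -/
theorem key_eq_of_le {q s p t₀ t : ℕ} (hq : 1 ≤ q) (h0 : key seg q t₀ = (s, p)) (ht : t₀ ≤ t)
    (hs : seg t = s) (hl : ((range t).filter fun t' => seg t' = s).card < (p + 1) * q) :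
    key seg q t = (s, p) := by
  have h1 : seg t₀ = s := congrArg Prod.fst h0
  have h2 : loc seg t₀ / q = p := congrArg Prod.snd h0
  have h3 := (div_bounds hq h2).1
  have h4 := loc_mono ht (h1.trans hs.symm)
  rw [← loc_eq hs] at hl
  rw [key, hs, div_eq_of_bounds (h3.trans h4) hl]

/-- (S6), second form: a slice of a segment is an interval of local times. -/
theorem key_eq_of_mem {q t₀ t t₁ : ℕ} {k : ℕ × ℕ} (hq : 1 ≤ q) (h0 : t₀ ≤ t) (h1 : t ≤ t₁)
    (hk0 : key seg q t₀ = k) (hk1 : key seg q t₁ = k) (hs : seg t = k.1) : key seg q t = k := by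
  obtain ⟨s, p⟩ := k
  have a0 : seg t₀ = s := congrArg Prod.fst hk0
  have a1 : seg t₁ = s := congrArg Prod.fst hk1
  have b0 := (div_bounds hq (congrArg Prod.snd hk0 : loc seg t₀ / q = p)).1
  have b1 := (div_bounds hq (congrArg Prod.snd hk1 : loc seg t₁ / q = p)).2
  have c0 := loc_mono h0 (a0.trans hs.symm)
  have c1 := loc_mono h1 (hs.trans a1.symm)
  rw [key, div_eq_of_bounds (b0.trans c0) (c1.trans_lt b1)]
  exact Prod.ext hs rfl

/-- (S0) -/
theorem exists_offset_div (h : ℕ → ℕ) (hh : ∀ t, h (t + 1) ≤ h t + 1 ∧ h t ≤ h (t + 1) + 1)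
    {w : ℕ} (hw : 1 ≤ w) (τ : ℕ) :
    ∃ b < w, ((range τ).filter fun t => (h t + b) / w ≠ (h (t + 1) + b) / w).card ≤ τ / w := by
  obtain ⟨b, hb, hc⟩ := exists_offset h hh hw τ
  refine ⟨b, hb, ?_⟩
  rw [Nat.le_div_iff_mul_le (by omega), Nat.mul_comm]
  exact hc

/-- A head position sequence has a division into segments of length `w` with few crossings. -/
theorem exists_seg (h : ℕ → ℕ) (hh : ∀ t, h (t + 1) ≤ h t + 1 ∧ h t ≤ h (t + 1) + 1)
    {w q : ℕ} (hw : 1 ≤ w) (hq : 1 ≤ q) (τ : ℕ) :
    ∃ b < w, ((range τ).filter fun t => cs (fun t => (h t + b) / w) q t).card ≤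
      1 + τ / w + τ / q := by
  obtain ⟨b, hb, hc⟩ := exists_offset h hh hw τ
  exact ⟨b, hb, card_cs_le hq hw τ hc⟩

end Vale.Agent.P338.R2.H968
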