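import Vale.Agent.P338.R2.H968.EndReal

/-!
P338, unconditional lower bound: the final forms.
-/

namespace Vale.Agent.P338.R2.H968

/-- The finite inequality that the counting argument gives, for one problem size `n`, one bound
`σ` on the short tapes and one running time `T`: for every width `w` and every advice length
`lam` that is large enough. -/
def FinIneq (k g gam cQ n σ T : ℕ) : Prop :=
  ∀ D mu q : ℕ, D = Nat.log 2 n + 1 → mu = n / (5 * D) → q = D * mu / 2 →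
    ∀ w lam : ℕ, 1 ≤ w → 1 ≤ q → w ≤ q →
      cQ * (T + 2) ^ k * g ^ (k * σ) * (q + 1) ≤ 2 ^ lam →
      2 * k * (mu + 1) * (1 + w * (T + w + 2)) < 2 ^ (2 * lam) →
      mu ≤ 3 * lam * (1 + T / w + T / q) + gam * w * (T / q)

/-- The integer form of the lower bound. -/
theorem int_bound (k g gam cQ : ℕ) :
    ∃ C : ℕ, ∀ n σ T : ℕ, 1000 ≤ n → n ≤ T → FinIneq k g gam cQ n σ T →
      n ^ 3 ≤ C * (Nat.log 2 n + 1) ^ 2 * (σ + (Nat.log 2 n + 1)) * T ^ 2 := by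
  have hg : g ≤ 2 ^ (max gam g) :=
    (Nat.lt_two_pow_self (n := g)).le.trans
      (Nat.pow_le_pow_right (by norm_num) (le_max_right gam g))
  obtain ⟨C, hC⟩ := endgame k g (max gam g) cQ hg
  refine ⟨C, fun n σ T hn hT hF => ?_⟩
  obtain ⟨h1, h2, h3, h4, h5, h6⟩ := params hn (Nat.log 2 n + 1)
    (n / (5 * (Nat.log 2 n + 1))) ((Nat.log 2 n + 1) * (n / (5 * (Nat.log 2 n + 1))) / 2)
    rfl rfl rfl
  refine hC n T σ (Nat.log 2 n + 1) _ _ h1 h2 h3 h4 hT h5 h6 ?_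
  intro w hw1 hwq lam c1 c2
  refine (hF _ _ _ rfl rfl rfl w lam hw1 (hw1.trans hwq) hwq c1 c2).trans ?_
  gcongr
  exact le_max_left gam g

/-- The lower bound `n^{3/2} / (log n * sqrt (σ + log n))`. -/
theorem main_bound (k g gam cQ : ℕ) :
    ∃ c : ℝ, 0 < c ∧ ∃ N₀ : ℕ, ∀ n : ℕ, N₀ ≤ n → ∀ σ T : ℕ, n ≤ T →
      FinIneq k g gam cQ n σ T →
      c * (n : ℝ) ^ (3 / 2 : ℝ) / (Real.log n * Real.sqrt (σ + Real.log n)) ≤ T := by
  obtain ⟨C, hC⟩ := int_bound k g gam cQ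
  obtain ⟨c, hc, h⟩ := exists_const (C := C)
  refine ⟨c, hc, 1000, fun n hn σ T hT hF => ?_⟩
  have h1 := h n T σ (by omega) (hC n σ T hn hT hF)
  obtain ⟨-, h2⟩ := log_bound (n := n) (by omega)
  have hσ : (0 : ℝ) ≤ σ := Nat.cast_nonneg _
  have h3 : 0 < Real.log n * Real.sqrt (σ + Real.log n) := by
    apply mul_pos (by linarith)
    apply Real.sqrt_pos.mpr
    linarith
  have h4 : (n : ℝ) ^ (3 / 2 : ℝ) = n * Real.sqrt n := by
    rw [Real.sqrt_eq_rpow]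
    have hn0 : (n : ℝ) ≠ 0 := by
      have : n ≠ 0 := by omega
      exact_mod_cast this
    rw [show (3 / 2 : ℝ) = 1 + 1 / 2 by norm_num, Real.rpow_add' (Nat.cast_nonneg _) (by norm_num),
      Real.rpow_one]
  rw [div_le_iff₀ h3, h4]
  linarith [mul_comm (T : ℝ) (Real.log n * Real.sqrt (σ + Real.log n))]

/-- The order `n log n` when the short tapes have length at most `n / (log n)^4`. -/
theorem main_nlogn (k g gam cQ : ℕ) :
    ∃ c : ℝ, 0 < c ∧ ∃ N₀ : ℕ, ∀ n : ℕ, N₀ ≤ n → ∀ σ T : ℕ, n ≤ T →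
      FinIneq k g gam cQ n σ T → (σ : ℝ) ≤ n / Real.log n ^ 4 →
      c * (n * Real.log n) ≤ T := by
  obtain ⟨C, hC⟩ := int_bound k g gam cQ
  obtain ⟨c, hc, h⟩ := exists_const_nlogn (C := C)
  obtain ⟨N, hN⟩ := log_pow_le 5
  refine ⟨c, hc, max N 1000, fun n hn σ T hT hF hσ => ?_⟩
  have hn1 : 1000 ≤ n := (le_max_right _ _).trans hn
  obtain ⟨-, h2⟩ := log_bound (n := n) (by omega)
  refine h n T σ (by omega) (hC n σ T hn1 hT hF) ?_ (hN n ((le_max_left _ _).trans hn))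
  rwa [le_div_iff₀ (by positivity)] at hσ

/-- `(log n)^3` is below every power of `n`. -/
theorem log_pow_rpow (K : ℝ) {ε : ℝ} (hε : 0 < ε) (k : ℕ) :
    ∃ N : ℕ, ∀ n : ℕ, N ≤ n → K * Real.log n ^ k ≤ (n : ℝ) ^ ε := by
  have hlit : (fun x : ℝ => Real.log x ^ (k : ℝ)) =o[Filter.atTop] fun x => x ^ ε :=
    isLittleO_log_rpow_rpow_atTop (k : ℝ) hε
  have h := hlit.bound (c := 1 / (|K| + 1)) (by positivity)
  have h2 := (tendsto_natCast_atTop_atTop (R := ℝ)).eventually h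
  obtain ⟨N, hN⟩ := Filter.eventually_atTop.mp h2
  refine ⟨N, fun n hn => ?_⟩
  have h3 := hN n hn
  have h4 : ‖(n : ℝ) ^ ε‖ = (n : ℝ) ^ ε := by
    rw [Real.norm_of_nonneg]
    positivity
  rw [h4, Real.rpow_natCast, div_mul_eq_mul_div, one_mul, le_div_iff₀ (by positivity)] at h3
  have h5 : K * Real.log n ^ k ≤ ‖Real.log n ^ k‖ * (|K| + 1) := by
    calc K * Real.log n ^ k ≤ |K * Real.log n ^ k| := le_abs_self _
      _ = ‖Real.log n ^ k‖ * |K| := by rw [abs_mul, Real.norm_eq_abs, mul_comm]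
      _ ≤ ‖Real.log n ^ k‖ * (|K| + 1) := by
          have := norm_nonneg (Real.log n ^ k)
          nlinarith
  exact h5.trans h3

/-- A power saving over `n` when the short tapes have length at most `n^(1-ε)`. -/
theorem main_power (k g gam cQ : ℕ) (ε : ℝ) (hε : 0 < ε) (hε1 : ε ≤ 1) :
    ∃ N₀ : ℕ, ∀ n : ℕ, N₀ ≤ n → ∀ σ T : ℕ, n ≤ T →
      FinIneq k g gam cQ n σ T → (σ : ℝ) ≤ (n : ℝ) ^ (1 - ε) →
      (n : ℝ) ^ (1 + ε / 3) ≤ T := by
  obtain ⟨C, hC⟩ := int_bound k g gam cQ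
  obtain ⟨N, hN⟩ := log_pow_rpow (54 * C) (ε := ε / 3) (by linarith) 3
  refine ⟨max N 1000, fun n hn σ T hT hF hσ => ?_⟩
  have hn1 : 1000 ≤ n := (le_max_right _ _).trans hn
  obtain ⟨-, h2⟩ := log_bound (n := n) (by omega)
  have h1 := real_form (by omega) (hC n σ T hn1 hT hF)
  have hlog := hN n ((le_max_left _ _).trans hn)
  set L := Real.log n with hLdef
  have hn0 : (0 : ℝ) < n := by
    have : 0 < n := by omega
    exact_mod_cast this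
  have hn1' : (1 : ℝ) ≤ n := by
    have : 1 ≤ n := by omega
    exact_mod_cast this
  have hpw : (1 : ℝ) ≤ (n : ℝ) ^ (1 - ε) := Real.one_le_rpow hn1' (by linarith)
  have h3 : (σ : ℝ) + L ≤ 2 * L * (n : ℝ) ^ (1 - ε) := by nlinarith
  have hT0 : (0 : ℝ) ≤ T := Nat.cast_nonneg _
  -- `n^3 ≤ n^(ε/3) n^(1-ε) T^2`
  have h4 : (n : ℝ) ^ 3 ≤ (n : ℝ) ^ (ε / 3) * (n : ℝ) ^ (1 - ε) * T ^ 2 := by
    calc (n : ℝ) ^ 3 ≤ 27 * C * L ^ 2 * (σ + L) * T ^ 2 := h1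
      _ ≤ 27 * C * L ^ 2 * (2 * L * (n : ℝ) ^ (1 - ε)) * T ^ 2 := by gcongr
      _ = (54 * C * L ^ 3) * (n : ℝ) ^ (1 - ε) * T ^ 2 := by ring
      _ ≤ (n : ℝ) ^ (ε / 3) * (n : ℝ) ^ (1 - ε) * T ^ 2 := by gcongr
  have h5 : (n : ℝ) ^ (2 + 2 * ε / 3) ≤ (T : ℝ) ^ 2 := by
    have h6 : 0 < (n : ℝ) ^ (ε / 3) * (n : ℝ) ^ (1 - ε) := by positivity
    refine le_of_mul_le_mul_left ?_ h6
    calc (n : ℝ) ^ (ε / 3) * (n : ℝ) ^ (1 - ε) * (n : ℝ) ^ (2 + 2 * ε / 3)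
        = (n : ℝ) ^ (3 : ℝ) := by
          rw [← Real.rpow_add hn0, ← Real.rpow_add hn0]
          congr 1
          ring
      _ = (n : ℝ) ^ 3 := by
          rw [show (3 : ℝ) = ((3 : ℕ) : ℝ) by norm_num, Real.rpow_natCast]
      _ ≤ _ := h4
  have h7 : ((n : ℝ) ^ (1 + ε / 3)) ^ 2 ≤ (T : ℝ) ^ 2 := by
    rw [← Real.rpow_natCast, ← Real.rpow_mul hn0.le]
    convert h5 using 2
    push_cast
    ring
  exact (pow_le_pow_iff_left₀ (by positivity) hT0 two_ne_zero).mp h7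

end Vale.Agent.P338.R2.H968
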