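import Vale.Agent.P338.R2.H313.Eras

/-!
P338, reversals: the number of eras.
-/

namespace Vale.Agent.P338.R2.H968

open Finset Vale.Agent.P338.R2.H313

/-- Discrete intermediate values. -/
theorem ivt {f : ℕ → ℕ} (hf : ∀ t, f (t + 1) ≤ f t + 1 ∧ f t ≤ f (t + 1) + 1) {c a p x y : ℕ}
    (hcx : c ≤ x) (hxa : x < a) (hcy : c ≤ y) (hya : y < a) (h1 : f x ≤ p) (h2 : p ≤ f y) :
    ∃ z, c ≤ z ∧ z < a ∧ f z = p := by
  rcases le_total x y with hxy | hxy
  · induction y, hxy using Nat.le_induction with
    | base => exact ⟨x, hcx, hxa, le_antisymm h1 h2⟩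
    | succ y hy ih =>
      rcases Nat.lt_or_ge (f y) p with h3 | h3
      · exact ⟨y + 1, hcy, hya, by have := (hf y).1; omega⟩
      · exact ih (by omega) (by omega) h3
  · induction x, hxy using Nat.le_induction with
    | base => exact ⟨y, hcy, hya, le_antisymm h1 h2⟩
    | succ x hx ih =>
      rcases Nat.lt_or_ge p (f x) with h3 | h3
      · exact ⟨x + 1, hcx, hxa, by have := (hf x).2; omega⟩
      · exact ih (by omega) (by omega) h3

/-- The cell `p` is visited during `[c, a)`. -/
def Vis (f : ℕ → ℕ) (c a p : ℕ) : Prop := ∃ t, c ≤ t ∧ t < a ∧ f t = p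

theorem upper_unique {f : ℕ → ℕ} (hf : ∀ t, f (t + 1) ≤ f t + 1 ∧ f t ≤ f (t + 1) + 1)
    {c a m m' : ℕ} (h1 : Vis f c a m) (h2 : ¬ Vis f c a (m + 1)) (h1' : Vis f c a m')
    (h2' : ¬ Vis f c a (m' + 1)) : m = m' := by
  have key : ∀ m m', Vis f c a m → ¬ Vis f c a (m + 1) → Vis f c a m' → m' ≤ m := by
    intro m m' h1 h2 h1'
    by_contra hlt
    obtain ⟨x, hx1, hx2, hx3⟩ := h1
    obtain ⟨y, hy1, hy2, hy3⟩ := h1'
    exact h2 (ivt hf hx1 hx2 hy1 hy2 (by omega) (by omega))
  exact le_antisymm (key m' m h1' h2' h1) (key m m' h1 h2 h1')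

theorem lower_unique {f : ℕ → ℕ} (hf : ∀ t, f (t + 1) ≤ f t + 1 ∧ f t ≤ f (t + 1) + 1)
    {c a m m' : ℕ} (h1 : Vis f c a (m + 1)) (h2 : ¬ Vis f c a m) (h1' : Vis f c a (m' + 1))
    (h2' : ¬ Vis f c a m') : m = m' := by
  have key : ∀ m m', Vis f c a (m + 1) → Vis f c a (m' + 1) → ¬ Vis f c a m' → m' ≤ m := by
    intro m m' h1 h1' h2'
    by_contra hlt
    obtain ⟨x, hx1, hx2, hx3⟩ := h1
    obtain ⟨y, hy1, hy2, hy3⟩ := h1'
    exact h2' (ivt hf hx1 hx2 hy1 hy2 (by omega) (by omega))
  exact le_antisymm (key m' m h1' h1 h2) (key m m' h1 h1' h2')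

section cuts

variable {ι : Type} {h : ι → ℕ → ℕ} {P : ℕ → ℕ} {blk : ι → ℕ → ℕ}

/-- The interfaces between different sources. -/
theorem boundary (hP : Monotone P) {i : ι} {a m t T : ℕ} (hat : a = phs P t) (htT : t < T)
    (hsrc : src h blk (st h P blk) i m a ≠ src h blk (st h P blk) i (m + 1) a) :
    blk i m ≠ blk i (m + 1) ∨ ∃ c < T, st h P blk c = c ∧ P c < P t ∧
      (Vis (h i) c a m ∧ ¬ Vis (h i) c a (m + 1) ∨ Vis (h i) c a (m + 1) ∧ ¬ Vis (h i) c a m) := by
  classical
  have hle : a ≤ t := by rw [hat]; exact phs_le t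
  have hPlt : ∀ u, u < a → P u < P t := fun u hu => lt_of_lt_phs hP (by rw [← hat]; exact hu)
  by_cases e1 : ∃ u < a, h i u = m
  · by_cases e2 : ∃ u < a, h i u = m + 1
    · -- both visited
      obtain ⟨hu1, hu2⟩ := lastV_spec e1
      obtain ⟨hv1, hv2⟩ := lastV_spec e2
      have hne : st h P blk (lastV h i m a) ≠ st h P blk (lastV h i (m + 1) a) := by
        intro he
        apply hsrc
        unfold src
        rw [if_pos e1, if_pos e2, he]
      right
      rcases lt_trichotomy (lastV h i m a) (lastV h i (m + 1) a) with hlt | heq | hgt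
      · refine ⟨st h P blk (lastV h i (m + 1) a), ?_, st_st _, ?_, Or.inr ⟨?_, ?_⟩⟩
        · have := st_le (h := h) (P := P) (blk := blk) (lastV h i (m + 1) a)
          omega
        · apply hPlt
          have := st_le (h := h) (P := P) (blk := blk) (lastV h i (m + 1) a)
          omega
        · exact ⟨lastV h i (m + 1) a, st_le _, hv1, hv2⟩
        · rintro ⟨z, hz1, hz2, hz3⟩
          have h5 := le_lastV (h := h) (i := i) (p := m) hz2 hz3
          exact hne (st_eq_of_le (hz1.trans h5) hlt.le)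
      · rw [heq, hv2] at hu2
        omega
      · refine ⟨st h P blk (lastV h i m a), ?_, st_st _, ?_, Or.inl ⟨?_, ?_⟩⟩
        · have := st_le (h := h) (P := P) (blk := blk) (lastV h i m a)
          omega
        · apply hPlt
          have := st_le (h := h) (P := P) (blk := blk) (lastV h i m a)
          omega
        · exact ⟨lastV h i m a, st_le _, hu1, hu2⟩
        · rintro ⟨z, hz1, hz2, hz3⟩
          have h5 := le_lastV (h := h) (i := i) (p := m + 1) hz2 hz3
          exact hne (st_eq_of_le (hz1.trans h5) hgt.le).symm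
    · right
      obtain ⟨u, hu1, hu2⟩ := e1
      refine ⟨0, by omega, st_zero, hPlt 0 (by omega), Or.inl ⟨⟨u, Nat.zero_le _, hu1, hu2⟩, ?_⟩⟩
      rintro ⟨z, -, hz2, hz3⟩
      exact e2 ⟨z, hz2, hz3⟩
  · by_cases e2 : ∃ u < a, h i u = m + 1
    · right
      obtain ⟨u, hu1, hu2⟩ := e2
      refine ⟨0, by omega, st_zero, hPlt 0 (by omega), Or.inr ⟨⟨u, Nat.zero_le _, hu1, hu2⟩, ?_⟩⟩
      rintro ⟨z, -, hz2, hz3⟩
      exact e1 ⟨z, hz2, hz3⟩
    · left
      intro he
      apply hsrc
      unfold src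
      rw [if_neg e1, if_neg e2, he]

open Classical in
/-- The number of cuts in one phase. -/
theorem card_phase [Fintype ι] (b0 : ℕ) (hP : Monotone P)
    (hstep : ∀ i t, h i (t + 1) ≤ h i t + 1 ∧ h i t ≤ h i (t + 1) + 1)
    (hcross : ∀ i t u, P (t + 1) = P t → P (u + 1) = P u → P t = P u → h i t ≠ h i (t + 1) →
      h i u ≠ h i (u + 1) → min (h i t) (h i (t + 1)) = min (h i u) (h i (u + 1)) → t = u)
    (hblk : ∀ i, ∃ F : Finset ℕ, F.card ≤ b0 ∧ ∀ m, blk i m ≠ blk i (m + 1) → m ∈ F)
    (T j : ℕ) :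
    ((range T).filter fun t => st h P blk t = t ∧ P t = j).card ≤
      1 + Fintype.card ι *
        (b0 + 2 * ((range T).filter fun t => st h P blk t = t ∧ P t < j).card) := by
  set S := (range T).filter fun t => st h P blk t = t ∧ P t = j with hS
  set C := (range T).filter fun t => st h P blk t = t ∧ P t < j with hC
  choose F hF1 hF2 using hblk
  rcases S.eq_empty_or_nonempty with hS0 | ⟨t₀, ht₀⟩
  · rw [hS0, Finset.card_empty]
    exact Nat.zero_le _
  have ht₀' : P t₀ = j := (Finset.mem_filter.mp ht₀).2.2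
  set a := phs P t₀ with ha
  -- the two interfaces of a cut
  let fA : ι → ℕ → ℕ := fun i c =>
    if hx : ∃ m, Vis (h i) c a m ∧ ¬ Vis (h i) c a (m + 1) then hx.choose else 0
  let fB : ι → ℕ → ℕ := fun i c =>
    if hx : ∃ m, Vis (h i) c a (m + 1) ∧ ¬ Vis (h i) c a m then hx.choose else 0
  let G : ι → Finset ℕ := fun i => F i ∪ C.image (fA i) ∪ C.image (fB i)
  have hG : ∀ i, (G i).card ≤ b0 + 2 * C.card := by
    intro i
    have e1 := Finset.card_union_le (F i ∪ C.image (fA i)) (C.image (fB i))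
    have e2 := Finset.card_union_le (F i) (C.image (fA i))
    have e3 := Finset.card_image_le (s := C) (f := fA i)
    have e4 := Finset.card_image_le (s := C) (f := fB i)
    have e5 := hF1 i
    show (F i ∪ C.image (fA i) ∪ C.image (fB i)).card ≤ _
    omega
  -- the cuts inside the phase, by tapes
  let Si : ι → Finset ℕ := fun i => S.filter fun t => ∃ u, t = u + 1 ∧ P (u + 1) = P u ∧
    h i u ≠ h i (u + 1) ∧ min (h i u) (h i (u + 1)) ∈ G i
  have hSi : ∀ i, (Si i).card ≤ b0 + 2 * C.card := by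
    intro i
    refine le_trans ?_ (hG i)
    apply Finset.card_le_card_of_injOn (fun t => min (h i (t - 1)) (h i t))
    · intro t ht
      obtain ⟨-, u, rfl, -, -, h3⟩ := Finset.mem_filter.mp (Finset.mem_coe.mp ht)
      simpa using h3
    · intro t ht t' ht' he
      obtain ⟨h0, u, rfl, h1, h2, -⟩ := Finset.mem_filter.mp (Finset.mem_coe.mp ht)
      obtain ⟨h0', u', rfl, h1', h2', -⟩ := Finset.mem_filter.mp (Finset.mem_coe.mp ht')
      have hj : P (u + 1) = j := (Finset.mem_filter.mp h0).2.2
      have hj' : P (u' + 1) = j := (Finset.mem_filter.mp h0').2.2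
      have := hcross i u u' h1 h1' (by omega) h2 h2' (by simpa using he)
      omega
  have hsub : S ⊆ (S.filter fun t => phs P t = t) ∪ Finset.univ.biUnion Si := by
    intro t ht
    rw [Finset.mem_union]
    obtain ⟨htT, hst, hPt⟩ := Finset.mem_filter.mp ht
    rw [Finset.mem_range] at htT
    by_cases hph : phs P t = t
    · exact Or.inl (Finset.mem_filter.mpr ⟨ht, hph⟩)
    right
    have hphle := phs_le (P := P) t
    obtain ⟨u, rfl⟩ : ∃ u, t = u + 1 := ⟨t - 1, by omega⟩
    have hPu : P (u + 1) = P u := by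
      apply le_antisymm
      · calc P (u + 1) = P (phs P (u + 1)) := (P_phs _).symm
          _ ≤ P u := hP (by omega)
      · exact hP (by omega)
    have hphu : phs P (u + 1) = phs P u := phs_congr hPu
    have hau : phs P (u + 1) = a := by
      rw [ha]
      exact phs_congr (hPt.trans ht₀'.symm)
    -- a tape whose source changes
    have hex : ∃ i, srcT h P blk i (u + 1) ≠ srcT h P blk i u := by
      by_contra hno
      push Not at hno
      have h1 : st h P blk (u + 1) = st h P blk u := by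
        rw [st_succ, if_pos ⟨hPu, hno⟩]
      have h2 := st_le (h := h) (P := P) (blk := blk) u
      omega
    obtain ⟨i, hi⟩ := hex
    have hne : h i u ≠ h i (u + 1) := by
      intro he
      apply hi
      unfold srcT
      rw [hphu, he]
    rw [Finset.mem_biUnion]
    refine ⟨i, Finset.mem_univ _, Finset.mem_filter.mpr ⟨ht, u, rfl, hPu, hne, ?_⟩⟩
    set m := min (h i u) (h i (u + 1)) with hm
    -- the two cells are `m` and `m + 1`
    have hsrc : src h blk (st h P blk) i m a ≠ src h blk (st h P blk) i (m + 1) a := by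
      unfold srcT at hi
      rw [← hphu, hau] at hi
      have hs := hstep i u
      rcases Nat.lt_or_ge (h i u) (h i (u + 1)) with hlt | hge
      · have e1 : h i u = m := by omega
        have e2 : h i (u + 1) = m + 1 := by omega
        rw [e1, e2] at hi
        exact hi.symm
      · have e1 : h i (u + 1) = m := by omega
        have e2 : h i u = m + 1 := by omega
        rw [e1, e2] at hi
        exact hi
    have hb := boundary hP (T := T) (t := u + 1) hau.symm htT hsrc
    show m ∈ F i ∪ C.image (fA i) ∪ C.image (fB i)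
    rcases hb with hb | ⟨c, hcT, hcst, hcP, hb⟩
    · exact Finset.mem_union_left _ (Finset.mem_union_left _ (hF2 i m hb))
    · have hcC : c ∈ C := Finset.mem_filter.mpr
        ⟨Finset.mem_range.mpr hcT, hcst, by rw [← hPt]; exact hcP⟩
      rcases hb with ⟨hb1, hb2⟩ | ⟨hb1, hb2⟩
      · apply Finset.mem_union_left
        apply Finset.mem_union_right
        refine Finset.mem_image.mpr ⟨c, hcC, ?_⟩
        have hx : ∃ m, Vis (h i) c a m ∧ ¬ Vis (h i) c a (m + 1) := ⟨m, hb1, hb2⟩
        show (if hx : ∃ m, Vis (h i) c a m ∧ ¬ Vis (h i) c a (m + 1) then hx.choose else 0) = m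
        rw [dif_pos hx]
        exact upper_unique (hstep i) hx.choose_spec.1 hx.choose_spec.2 hb1 hb2
      · apply Finset.mem_union_right
        refine Finset.mem_image.mpr ⟨c, hcC, ?_⟩
        have hx : ∃ m, Vis (h i) c a (m + 1) ∧ ¬ Vis (h i) c a m := ⟨m, hb1, hb2⟩
        show (if hx : ∃ m, Vis (h i) c a (m + 1) ∧ ¬ Vis (h i) c a m then hx.choose else 0) = m
        rw [dif_pos hx]
        exact lower_unique (hstep i) hx.choose_spec.1 hx.choose_spec.2 hb1 hb2
  have hone : (S.filter fun t => phs P t = t).card ≤ 1 := by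
    rw [Finset.card_le_one]
    intro x hx y hy
    obtain ⟨hx1, hx2⟩ := Finset.mem_filter.mp hx
    obtain ⟨hy1, hy2⟩ := Finset.mem_filter.mp hy
    have e1 : P x = j := (Finset.mem_filter.mp hx1).2.2
    have e2 : P y = j := (Finset.mem_filter.mp hy1).2.2
    rw [← hx2, ← hy2]
    exact phs_congr (e1.trans e2.symm)
  calc S.card ≤ ((S.filter fun t => phs P t = t) ∪ Finset.univ.biUnion Si).card :=
        Finset.card_le_card hsub
    _ ≤ (S.filter fun t => phs P t = t).card + (Finset.univ.biUnion Si).card :=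
        Finset.card_union_le _ _
    _ ≤ 1 + ∑ i, (Si i).card := Nat.add_le_add hone Finset.card_biUnion_le
    _ ≤ 1 + ∑ _i : ι, (b0 + 2 * C.card) := by
        gcongr with i
        exact hSi i
    _ = 1 + Fintype.card ι * (b0 + 2 * C.card) := by
        rw [Finset.sum_const, Finset.card_univ, smul_eq_mul]

open Classical in
/-- **The number of eras.** -/
theorem card_cuts [Fintype ι] (b0 : ℕ) (hP : Monotone P)
    (hstep : ∀ i t, h i (t + 1) ≤ h i t + 1 ∧ h i t ≤ h i (t + 1) + 1)
    (hcross : ∀ i t u, P (t + 1) = P t → P (u + 1) = P u → P t = P u → h i t ≠ h i (t + 1) →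
      h i u ≠ h i (u + 1) → min (h i t) (h i (t + 1)) = min (h i u) (h i (u + 1)) → t = u)
    (hblk : ∀ i, ∃ F : Finset ℕ, F.card ≤ b0 ∧ ∀ m, blk i m ≠ blk i (m + 1) → m ∈ F)
    (T r : ℕ) (hr : ∀ t < T, P t ≤ r) :
    ((range T).filter fun t => st h P blk t = t).card ≤
      (2 * Fintype.card ι + 2) ^ (r + 1) * (Fintype.card ι * b0 + 1) := by
  set k := Fintype.card ι with hk
  set X : ℕ → ℕ := fun j => ((range T).filter fun t => st h P blk t = t ∧ P t < j).card with hX
  have hrec : ∀ j, X (j + 1) ≤ X j + (1 + k * (b0 + 2 * X j)) := by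
    intro j
    have h1 := card_phase b0 hP hstep hcross hblk T j
    have h2 : ((range T).filter fun t => st h P blk t = t ∧ P t < j + 1) ⊆
        ((range T).filter fun t => st h P blk t = t ∧ P t < j) ∪
          ((range T).filter fun t => st h P blk t = t ∧ P t = j) := by
      intro t ht
      obtain ⟨e1, e2, e3⟩ := Finset.mem_filter.mp ht
      rw [Finset.mem_union]
      rcases Nat.lt_or_ge (P t) j with e4 | e4
      · exact Or.inl (Finset.mem_filter.mpr ⟨e1, e2, e4⟩)
      · exact Or.inr (Finset.mem_filter.mpr ⟨e1, e2, by omega⟩)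
    exact (Finset.card_le_card h2).trans
      ((Finset.card_union_le _ _).trans (Nat.add_le_add_left h1 _))
  have hbound : ∀ j, X j + (k * b0 + 1) ≤ (2 * k + 2) ^ j * (k * b0 + 1) := by
    intro j
    induction j with
    | zero =>
      have h0 : X 0 = 0 := by
        rw [hX]
        simp
      rw [h0]
      simp
    | succ j ih =>
      have h1 := hrec j
      calc X (j + 1) + (k * b0 + 1) ≤ X j + (1 + k * (b0 + 2 * X j)) + (k * b0 + 1) := by omega
        _ = (2 * k + 1) * X j + 2 * (k * b0 + 1) := by ring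
        _ ≤ (2 * k + 2) * (X j + (k * b0 + 1)) := by
            have : 2 * (k * b0 + 1) ≤ (2 * k + 2) * (k * b0 + 1) :=
              Nat.mul_le_mul_right _ (by omega)
            have h3 : (2 * k + 1) * X j ≤ (2 * k + 2) * X j := Nat.mul_le_mul_right _ (by omega)
            exact (Nat.add_le_add h3 this).trans_eq (Nat.mul_add _ _ _).symm
        _ ≤ (2 * k + 2) * ((2 * k + 2) ^ j * (k * b0 + 1)) := Nat.mul_le_mul_left _ ih
        _ = (2 * k + 2) ^ (j + 1) * (k * b0 + 1) := by ring
  have hall : ((range T).filter fun t => st h P blk t = t) ⊆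
      ((range T).filter fun t => st h P blk t = t ∧ P t < r + 1) := by
    intro t ht
    obtain ⟨e1, e2⟩ := Finset.mem_filter.mp ht
    have := hr t (Finset.mem_range.mp e1)
    exact Finset.mem_filter.mpr ⟨e1, e2, by omega⟩
  calc ((range T).filter fun t => st h P blk t = t).card ≤ X (r + 1) := Finset.card_le_card hall
    _ ≤ X (r + 1) + (k * b0 + 1) := Nat.le_add_right _ _
    _ ≤ _ := hbound (r + 1)

end cuts

end Vale.Agent.P338.R2.H968
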