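import Vale.Agent.P338.R2.H968.EndMain

/-!
P338, reversals: the growth estimates.
-/

namespace Vale.Agent.P338.R2.H968

/-- From the pigeonhole inequality to a product form. -/
theorem rev_int (k C k' : ℕ) :
    ∃ C₁ : ℕ, 2 ≤ C₁ ∧ ∀ n r S T b0 y D mu : ℕ, 1 ≤ D → mu = n / (5 * D) →
      b0 ≤ C * k' ^ (r + 1) → y ≤ (k + 1) ^ (r + 2) * (C * (S + Nat.log 2 (T + 2))) →
      mu / ((2 * k + 2) ^ (r + 1) * (k * b0 + 1) + b0 + 1) ≤ y + 2 →
      n ≤ C₁ ^ (r + 1) * ((S + Nat.log 2 (T + 2)) * D) := by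
  refine ⟨5 * (2 * (2 * k + 2) * ((k + 1) * (C * k' + 1))) * ((k + 1) ^ 2 * C + 4), ?_, ?_⟩
  · have h1 : 1 ≤ (k + 1) * (C * k' + 1) := Nat.one_le_iff_ne_zero.mpr (by positivity)
    calc 2 ≤ 5 * (2 * 2 * 1) * 4 := by norm_num
      _ ≤ 5 * (2 * (2 * k + 2) * ((k + 1) * (C * k' + 1))) * ((k + 1) ^ 2 * C + 4) := by
          gcongr
          · omega
          · omega
  intro n r S T b0 y D mu hD hmu hb0 hy hdiv
  set L := S + Nat.log 2 (T + 2) with hL
  have hL1 : 1 ≤ L := by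
    have : 1 ≤ Nat.log 2 (T + 2) := by
      calc 1 = Nat.log 2 2 := by norm_num
        _ ≤ Nat.log 2 (T + 2) := Nat.log_mono_right (by omega)
    omega
  set X := (2 * k + 2) ^ (r + 1) * (k * b0 + 1) + b0 + 1 with hX
  have hX0 : 0 < X := by omega
  have h1 : mu < X * (y + 3) := by
    have := (Nat.div_lt_iff_lt_mul hX0).mp (Nat.lt_succ_of_le hdiv)
    calc mu < (y + 2).succ * X := this
      _ = X * (y + 3) := by rw [Nat.mul_comm]
  have h2 : n < 5 * D * (mu + 1) := by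
    rw [hmu]
    exact Nat.lt_mul_div_succ n (by omega)
  have h3 : n ≤ 5 * D * (X * (y + 3)) := h2.le.trans (Nat.mul_le_mul_left _ h1)
  -- powers
  have e1 : C * k' ^ (r + 1) + 1 ≤ (C * k' + 1) ^ (r + 1) := by
    have g1 : (C * k' + 1) ^ (r + 1) = (C * k' + 1) ^ r * (C * k' + 1) := pow_succ _ _
    have g2 : C * k' ^ (r + 1) ≤ (C * k' + 1) ^ r * (C * k') := by
      rw [pow_succ]
      rcases Nat.eq_zero_or_pos C with hC | hC
      · rw [hC]; simp
      · calc C * (k' ^ r * k') = k' ^ r * (C * k') := by ring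
          _ ≤ (C * k' + 1) ^ r * (C * k') := by
              gcongr
              nlinarith
    have g3 : 1 ≤ (C * k' + 1) ^ r := Nat.one_le_pow _ _ (by omega)
    rw [g1, Nat.mul_add, Nat.mul_one]
    omega
  have e2 : X ≤ (2 * (2 * k + 2) * ((k + 1) * (C * k' + 1))) ^ (r + 1) := by
    have g1 : k * b0 + 1 ≤ (k + 1) * (b0 + 1) := by nlinarith
    have g2 : b0 + 1 ≤ (k + 1) * (b0 + 1) := Nat.le_mul_of_pos_left _ (by omega)
    have g3 : 1 ≤ (2 * k + 2) ^ (r + 1) := Nat.one_le_pow _ _ (by omega)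
    have g4 : b0 + 1 ≤ (C * k' + 1) ^ (r + 1) := (Nat.add_le_add_right hb0 1).trans e1
    have g5 : k + 1 ≤ (k + 1) ^ (r + 1) := Nat.le_self_pow (by omega) _
    have g6 : 2 ≤ 2 ^ (r + 1) := Nat.le_self_pow (by omega) _
    calc X = (2 * k + 2) ^ (r + 1) * (k * b0 + 1) + (b0 + 1) := by rw [hX]; ring
      _ ≤ (2 * k + 2) ^ (r + 1) * ((k + 1) * (b0 + 1)) +
          (2 * k + 2) ^ (r + 1) * ((k + 1) * (b0 + 1)) := by
          have g7 : b0 + 1 ≤ (2 * k + 2) ^ (r + 1) * ((k + 1) * (b0 + 1)) :=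
            g2.trans (Nat.le_mul_of_pos_left _ (by omega))
          exact Nat.add_le_add (Nat.mul_le_mul_left _ g1) g7
      _ = 2 * (2 * k + 2) ^ (r + 1) * ((k + 1) * (b0 + 1)) := by ring
      _ ≤ 2 ^ (r + 1) * (2 * k + 2) ^ (r + 1) * ((k + 1) ^ (r + 1) * (C * k' + 1) ^ (r + 1)) := by
          gcongr
      _ = (2 * (2 * k + 2) * ((k + 1) * (C * k' + 1))) ^ (r + 1) := by
          rw [mul_pow, mul_pow, mul_pow]
  have e3 : y + 3 ≤ ((k + 1) ^ 2 * C + 4) ^ (r + 1) * L := by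
    have g1 : (k + 1) ^ (r + 2) * C + 3 ≤ ((k + 1) ^ 2 * C + 4) ^ (r + 1) := by
      rcases Nat.eq_zero_or_pos C with hC | hC
      · rw [hC]
        simp only [Nat.mul_zero, Nat.zero_add]
        have := Nat.le_self_pow (n := r + 1) (by omega) 4
        omega
      · have g2 : ((k + 1) ^ 2 * C + 4) ^ (r + 1) =
            ((k + 1) ^ 2 * C + 4) ^ r * ((k + 1) ^ 2 * C + 4) := pow_succ _ _
        have g3 : (k + 1) ^ r ≤ ((k + 1) ^ 2 * C + 4) ^ r := by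
          apply Nat.pow_le_pow_left
          nlinarith
        have g4 : 1 ≤ ((k + 1) ^ 2 * C + 4) ^ r := Nat.one_le_pow _ _ (by omega)
        have g5 : (k + 1) ^ (r + 2) * C = (k + 1) ^ r * ((k + 1) ^ 2 * C) := by ring
        rw [g2, Nat.mul_add, g5]
        have g6 := Nat.mul_le_mul_right ((k + 1) ^ 2 * C) g3
        omega
    calc y + 3 ≤ (k + 1) ^ (r + 2) * (C * L) + 3 * L := by omega
      _ = ((k + 1) ^ (r + 2) * C + 3) * L := by ring
      _ ≤ ((k + 1) ^ 2 * C + 4) ^ (r + 1) * L := Nat.mul_le_mul_right _ g1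
  calc n ≤ 5 * D * (X * (y + 3)) := h3
    _ ≤ 5 ^ (r + 1) * D * ((2 * (2 * k + 2) * ((k + 1) * (C * k' + 1))) ^ (r + 1) *
        (((k + 1) ^ 2 * C + 4) ^ (r + 1) * L)) := by
        have : 5 ≤ 5 ^ (r + 1) := Nat.le_self_pow (by omega) _
        gcongr
    _ = (5 * (2 * (2 * k + 2) * ((k + 1) * (C * k' + 1))) * ((k + 1) ^ 2 * C + 4)) ^ (r + 1) *
        (L * D) := by
        rw [mul_pow _ ((k + 1) ^ 2 * C + 4), mul_pow 5]
        ring

/-- The number of reversals is at least of the order `log n`, for short tapes of length at most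
`n^(1-ε)` and running times at most `2^(n^(1-ε))`. -/
theorem rev_log (C₁ : ℕ) (hC₁ : 2 ≤ C₁) (ε : ℝ) (hε : 0 < ε) :
    ∃ c : ℝ, 0 < c ∧ ∃ N₀ : ℕ, ∀ n : ℕ, N₀ ≤ n → ∀ r S T : ℕ,
      n ≤ C₁ ^ (r + 1) * ((S + Nat.log 2 (T + 2)) * (Nat.log 2 n + 1)) →
      (S : ℝ) ≤ (n : ℝ) ^ (1 - ε) → (Nat.log 2 (T + 2) : ℝ) ≤ (n : ℝ) ^ (1 - ε) →
      c * Real.log n ≤ r := by
  have hlC : 0 < Real.log C₁ := Real.log_pos (by exact_mod_cast (by omega : 1 < C₁))
  obtain ⟨N, hN⟩ := log_pow_rpow 6 (ε := ε / 2) (by linarith) 1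
  obtain ⟨N', hN'⟩ := (tendsto_natCast_atTop_atTop (R := ℝ)).eventually
    (Real.tendsto_log_atTop.eventually_ge_atTop (4 * Real.log C₁ / ε)) |>.exists_forall_of_atTop
  refine ⟨ε / (4 * Real.log C₁), by positivity, max (max N N') 3, fun n hn r S T h hS hT => ?_⟩
  have hn3 : 3 ≤ n := (le_max_right _ _).trans hn
  have hnN : N ≤ n := ((le_max_left _ _).trans (le_max_left _ _)).trans hn
  have hnN' : N' ≤ n := ((le_max_right _ _).trans (le_max_left _ _)).trans hn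
  obtain ⟨hl1, hl2⟩ := log_bound hn3
  have hlog := hN n hnN
  rw [pow_one] at hlog
  have hbig := hN' n hnN'
  have hn0 : (0 : ℝ) < n := by
    have : 0 < n := by omega
    exact_mod_cast this
  have h1 : (n : ℝ) ≤ (C₁ : ℝ) ^ (r + 1) * (((S : ℝ) + (Nat.log 2 (T + 2) : ℝ)) *
      ((Nat.log 2 n + 1 : ℕ) : ℝ)) := by exact_mod_cast h
  have h2 : (n : ℝ) ≤ (C₁ : ℝ) ^ (r + 1) * ((n : ℝ) ^ (1 - ε) * (n : ℝ) ^ (ε / 2)) := by
    calc (n : ℝ) ≤ (C₁ : ℝ) ^ (r + 1) * (((S : ℝ) + (Nat.log 2 (T + 2) : ℝ)) *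
        ((Nat.log 2 n + 1 : ℕ) : ℝ)) := h1
      _ ≤ (C₁ : ℝ) ^ (r + 1) * ((2 * (n : ℝ) ^ (1 - ε)) * (3 * Real.log n)) := by
          gcongr
          linarith
      _ = (C₁ : ℝ) ^ (r + 1) * ((n : ℝ) ^ (1 - ε) * (6 * Real.log n)) := by ring
      _ ≤ (C₁ : ℝ) ^ (r + 1) * ((n : ℝ) ^ (1 - ε) * (n : ℝ) ^ (ε / 2)) := by gcongr
  have h3 : (n : ℝ) ^ (ε / 2) ≤ (C₁ : ℝ) ^ (r + 1) := by
    have h4 : 0 < (n : ℝ) ^ (1 - ε) * (n : ℝ) ^ (ε / 2) := by positivity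
    refine le_of_mul_le_mul_right ?_ h4
    calc (n : ℝ) ^ (ε / 2) * ((n : ℝ) ^ (1 - ε) * (n : ℝ) ^ (ε / 2)) = (n : ℝ) ^ (1 : ℝ) := by
          rw [← Real.rpow_add hn0, ← Real.rpow_add hn0]
          congr 1
          ring
      _ = n := Real.rpow_one _
      _ ≤ _ := h2
  have h5 : ε / 2 * Real.log n ≤ (r + 1) * Real.log C₁ := by
    have h6 := Real.log_le_log (by positivity) h3
    rw [Real.log_rpow hn0, Real.log_pow] at h6
    exact_mod_cast h6
  have h7 : 4 * Real.log C₁ ≤ ε * Real.log n := by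
    rw [div_le_iff₀ hε] at hbig
    linarith
  rw [div_mul_eq_mul_div, div_le_iff₀ (by positivity)]
  nlinarith

/-- A machine whose number of reversals is at most of the order `T/n` takes time `n log n`. -/
theorem rev_time (C₁ : ℕ) (hC₁ : 2 ≤ C₁) (ε : ℝ) (hε : 0 < ε) (K : ℝ) (hK : 0 < K) :
    ∃ c : ℝ, 0 < c ∧ ∃ N₀ : ℕ, ∀ n : ℕ, N₀ ≤ n → ∀ r S T : ℕ, n ≤ T →
      n ≤ C₁ ^ (r + 1) * ((S + Nat.log 2 (T + 2)) * (Nat.log 2 n + 1)) →
      (S : ℝ) ≤ (n : ℝ) ^ (1 - ε) → (r : ℝ) ≤ K * (T / n) →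
      c * (n * Real.log n) ≤ T := by
  set δ := min ε (1 / 2) with hδ
  have hδ0 : 0 < δ := lt_min hε (by norm_num)
  have hδ2 : δ ≤ 1 / 2 := min_le_right _ _
  obtain ⟨c, hc, N, hN⟩ := rev_log C₁ hC₁ δ hδ0
  obtain ⟨N', hN'⟩ := log_pow_rpow 12 (ε := 1 / 2) (by norm_num) 1
  obtain ⟨N'', hN''⟩ := log_pow_le 1
  refine ⟨min 1 (c / K), by positivity, max (max (max N N') N'') 3,
    fun n hn r S T hnT h hS hr => ?_⟩
  have hn3 : 3 ≤ n := (le_max_right _ _).trans hn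
  have hnN : N ≤ n := (((le_max_left _ _).trans (le_max_left _ _)).trans (le_max_left _ _)).trans hn
  have hnN' : N' ≤ n :=
    (((le_max_right _ _).trans (le_max_left _ _)).trans (le_max_left _ _)).trans hn
  have hnN'' : N'' ≤ n := ((le_max_right _ _).trans (le_max_left _ _)).trans hn
  obtain ⟨hl1, hl2⟩ := log_bound hn3
  have hlog := hN' n hnN'
  have hlog2 := hN'' n hnN''
  rw [pow_one] at hlog hlog2
  have hn0 : (0 : ℝ) < n := by
    have : 0 < n := by omega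
    exact_mod_cast this
  have hn1 : (1 : ℝ) ≤ n := by
    have : 1 ≤ n := by omega
    exact_mod_cast this
  have hT0 : (0 : ℝ) ≤ T := Nat.cast_nonneg _
  rcases Nat.lt_or_ge (n ^ 2) T with hbig | hsmall
  · have h1 : (n : ℝ) ^ 2 ≤ T := by exact_mod_cast hbig.le
    calc min 1 (c / K) * (n * Real.log n) ≤ 1 * (n * Real.log n) := by
          gcongr
          exact min_le_left _ _
      _ ≤ n * n := by rw [one_mul]; gcongr
      _ = (n : ℝ) ^ 2 := by ring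
      _ ≤ T := h1
  · have hlT : (Nat.log 2 (T + 2) : ℝ) ≤ (n : ℝ) ^ (1 - δ) := by
      have h1 : Nat.log 2 (T + 2) ≤ 2 * Nat.log 2 n + 3 := by
        have h2 : T + 2 < 2 ^ (2 * Nat.log 2 n + 4) := by
          have h3 : n < 2 ^ (Nat.log 2 n + 1) := Nat.lt_pow_succ_log_self (by norm_num) n
          have h4 : n ^ 2 < (2 ^ (Nat.log 2 n + 1)) ^ 2 := Nat.pow_lt_pow_left h3 (by norm_num)
          have h5 : (2 ^ (Nat.log 2 n + 1)) ^ 2 = 2 ^ (2 * Nat.log 2 n + 2) := by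
            rw [← pow_mul]; congr 1; ring
          have h6 : 2 ^ (2 * Nat.log 2 n + 4) = 4 * 2 ^ (2 * Nat.log 2 n + 2) := by
            rw [show 2 * Nat.log 2 n + 4 = 2 * Nat.log 2 n + 2 + 2 by ring, pow_add]; ring
          have h7 : 1 ≤ 2 ^ (2 * Nat.log 2 n + 2) := Nat.one_le_two_pow
          omega
        have := (Nat.log_lt_iff_lt_pow (by norm_num) (by omega)).mpr h2
        omega
      have h2 : (Nat.log 2 (T + 2) : ℝ) ≤ 2 * (Nat.log 2 n : ℝ) + 3 := by exact_mod_cast h1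
      push_cast at hl1
      calc (Nat.log 2 (T + 2) : ℝ) ≤ 2 * (Nat.log 2 n : ℝ) + 3 := h2
        _ ≤ 12 * Real.log n := by linarith
        _ ≤ (n : ℝ) ^ (1 / 2 : ℝ) := hlog
        _ ≤ (n : ℝ) ^ (1 - δ) := Real.rpow_le_rpow_of_exponent_le hn1 (by linarith)
    have hSδ : (S : ℝ) ≤ (n : ℝ) ^ (1 - δ) :=
      hS.trans (Real.rpow_le_rpow_of_exponent_le hn1 (by
        have := min_le_left ε (1 / 2)
        linarith))
    have h1 := hN n hnN r S T h hSδ hlT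
    have h2 : c * Real.log n ≤ K * (T / n) := h1.trans hr
    have h3 : c / K * (n * Real.log n) ≤ T := by
      have h4 : c * Real.log n * n ≤ K * T := by
        calc c * Real.log n * n ≤ K * (T / n) * n := by gcongr
          _ = K * T := by field_simp
      rw [div_mul_eq_mul_div, div_le_iff₀ hK]
      linarith
    calc min 1 (c / K) * (n * Real.log n) ≤ c / K * (n * Real.log n) := by
          gcongr
          exact min_le_right _ _
      _ ≤ T := h3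

end Vale.Agent.P338.R2.H968
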