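import Vale.Agent.P338.R2.H968.WordInc

/-!
P338: words as binary numbers: conversion of a ruler, long division of a power of two by a ruler.
-/

namespace Vale.Agent.P338.R2.H968

open Vale.Agent.P338.R2.H898
open Vale.Agent.P338.R2.H784
open Vale.Agent.P338.R2.H778 (bits)
open Function (update)

set_option linter.unusedSectionVars false

section general

variable {M F α : Type} [DecidableEq F] {d u : α} {m : M} {z : F → Zip α}

theorem bits_zero' (W : ℕ) : bits W 0 = List.replicate W false := by
  induction W with
  | zero => rfl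
  | succ W ih =>
    rw [bits, Nat.zero_div, ih]
    simp [List.replicate_succ']

/-- Write a word of zeros whose length is given by a ruler. -/
def zeroW (el f : F) (bit : Bool → α) : Prog M F α :=
  .seq (clr f) (.seq (forU el (put f (bit false))) (op f .rew))

theorem run_zeroW {el f : F} (hne : el ≠ f) {W : ℕ} {bit : Bool → α}
    (hel : z el = rz u 0 W) :
    Prog.Run d (zeroW el f bit) ⟨m, z⟩ (4 * W + 5) ⟨m, update z f ⟨[], (bits W 0).map bit⟩⟩ := by
  have h1 := run_clr (d := d) f m z
  have h2 := runz_for (d := d) (u := u) (m := m) (f := el) (p := put f (bit false)) (n := W)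
    (t := 2) (fun i => update z f ⟨List.replicate i (bit false), []⟩) ?_
  · have h3 := run_rew (d := d) f m
      (update (update z f ⟨List.replicate W (bit false), []⟩) el (rz u 0 W))
    have e1 : update (update z f ⟨List.replicate 0 (bit false), []⟩) el (rz u 0 W) =
        update z f ⟨[], []⟩ := by
      rw [Function.update_comm hne.symm, ← hel, Function.update_eq_self]
      rfl
    rw [e1] at h2
    have h4 := h1.seq (h2.seq h3)
    have e2 : update (update (update z f ⟨List.replicate W (bit false), []⟩) el (rz u 0 W)) f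
        ⟨[], (update (update z f ⟨List.replicate W (bit false), []⟩) el (rz u 0 W) f).full⟩ =
        update z f ⟨[], (bits W 0).map bit⟩ := by
      rw [Function.update_of_ne hne.symm, Function.update_self,
        Function.update_comm hne, Function.update_idem, Function.update_comm hne.symm, ← hel,
        Function.update_eq_self, bits_zero']
      simp [Zip.full]
    rw [e2] at h4
    exact h4.mono (by omega)
  · intro i hi
    have h3 := run_put (d := d) (a := bit false) (m := m)
      (z := update (update z f ⟨List.replicate i (bit false), []⟩) el (rz u i (W - i)))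
      (f := f) (l := List.replicate i (bit false)) (by
        rw [Function.update_of_ne hne.symm, Function.update_self])
    refine runz_congr h3 rfl ?_ le_rfl
    rw [Function.update_comm hne, Function.update_idem]
    rfl

variable [DecidableEq α]

/-- Convert the ruler `v` to a word. -/
def u2b (el v f : F) (bit : Bool → α) : Prog M F α :=
  .seq (zeroW el f bit) (forU v (incW f bit))

theorem run_u2b {el v f : F} (h1 : el ≠ f) (h2 : v ≠ f) {W n : ℕ} {bit : Bool → α}
    (hbit : Function.Injective bit) (hel : z el = rz u 0 W) (hv : z v = rz u 0 n)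
    (hn : n < 2 ^ W) :
    Prog.Run d (u2b el v f bit) ⟨m, z⟩ ((n + 1) * (5 * W + 7))
      ⟨m, update z f ⟨[], (bits W n).map bit⟩⟩ := by
  have g1 := run_zeroW (d := d) (m := m) (bit := bit) h1 hel
  have g2 := runz_for (d := d) (u := u) (m := m) (f := v) (p := incW f bit) (n := n)
    (t := 5 * W + 5) (fun i => update z f ⟨[], (bits W i).map bit⟩) ?_
  · have e1 : update (update z f ⟨[], (bits W 0).map bit⟩) v (rz u 0 n) =
        update z f ⟨[], (bits W 0).map bit⟩ := by
      rw [Function.update_comm h2.symm, ← hv, Function.update_eq_self]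
    have e2 : update (update z f ⟨[], (bits W n).map bit⟩) v (rz u 0 n) =
        update z f ⟨[], (bits W n).map bit⟩ := by
      rw [Function.update_comm h2.symm, ← hv, Function.update_eq_self]
    rw [e1, e2] at g2
    refine (g1.seq g2).mono ?_
    have : (n + 1) * (5 * W + 7) = n * (5 * W + 5 + 2) + (5 * W + 7) := by ring
    omega
  · intro i hi
    have g3 := run_incW (d := d) (m := m)
      (z := update (update z f ⟨[], (bits W i).map bit⟩) v (rz u i (n - i))) (f := f) hbit
      (W := W) (v := i) (by omega) (by rw [Function.update_of_ne h2.symm, Function.update_self])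
    refine runz_congr g3 rfl ?_ le_rfl
    rw [Function.update_comm h2, Function.update_idem, Function.update_comm h2.symm]

end general

/-- The files of the long division: the ruler giving the number of digits, the divisor, the
remainder, the counter (two files), the flag, the quotient. -/
inductive DF
  | el | P | V | C | V2 | B | out
  deriving DecidableEq

variable {M α : Type} {d u : α} {m : M}

/-- The states of the division. -/
def dst (u : α) (y : Zip α) (p r c b : ℕ) (cc : ℕ) (x : Zip α) : DF → Zip α
  | .el => y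
  | .P => rz u 0 p
  | .V => rz u 0 r
  | .C => rz u c cc
  | .V2 => rz u c 0
  | .B => rz u 0 b
  | .out => x

/-- One step of the counter modulo `p`, with a flag for the overflow. -/
def cycB (u : α) : Prog M DF α :=
  .seq (op .C .right) (.seq (put .V2 u) (.ite (fun _ r => (r .C).isSome) nop
    (.seq (op .C .rew) (.seq (clr .V2) (op .B (.write u))))))

/-- The state of the division with `t` steps of the counter, with the head of `V` at `i`. -/
def dcs (u : α) (y : Zip α) (p r t i : ℕ) (x : Zip α) : DF → Zip α :=
  update (dst u y p r (t % p) (if p ≤ t then 1 else 0) (p - t % p) x) .V (rz u i (r - i))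

theorem run_cycB {p r t i : ℕ} (hp : 0 < p) (ht : t + 1 < 2 * p) {x y : Zip α} :
    Prog.Run d (cycB u) ⟨m, dcs u y p r t i x⟩ 8 ⟨m, dcs u y p r (t + 1) i x⟩ := by
  have hmod : t % p < p := Nat.mod_lt _ hp
  set c := t % p with hc
  obtain ⟨j, hj⟩ : ∃ j, p - c = j + 1 := ⟨p - c - 1, by omega⟩
  have h1 := runz_right (d := d) (u := u) (m := m) (z := dcs u y p r t i x) (f := .C)
    (i := c) (j := j) (by simp [dcs, dst, ← hc, hj])
  set z1 := update (dcs u y p r t i x) .C (rz u (c + 1) j) with hz1
  have h2 := runz_put (d := d) (u := u) (m := m) (z := z1) (f := .V2) (i := c)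
    (by simp [hz1, dcs, dst, ← hc])
  set z2 := update z1 .V2 (rz u (c + 1) 0) with hz2
  rcases Nat.eq_zero_or_pos j with hj0 | hj0
  · -- wrap
    have hcp : c + 1 = p := by omega
    have htp : t + 1 = p := by
      have h3 := Nat.div_add_mod t p
      rw [← hc] at h3
      rcases Nat.eq_zero_or_pos (t / p) with h4 | h4
      · rw [h4] at h3
        omega
      · have : p * 1 ≤ p * (t / p) := Nat.mul_le_mul_left p h4
        omega
    have h3 := runz_rew (d := d) (u := u) (m := m) (z := z2) (f := .C) (i := c + 1) (j := j)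
      (by simp [hz2, hz1])
    set z3 := update z2 .C (rz u 0 (c + 1 + j)) with hz3
    have h4 := runz_clr (d := d) (u := u) (m := m) (z := z3) (f := .V2)
    set z4 := update z3 .V2 (rz u 0 0) with hz4
    have h5 := run_op (d := d) (DF.B) (.write u) m z4
    have e5 : Op.app d (.write u) (z4 .B) = rz u 0 1 := by
      have : ¬ p ≤ t := by omega
      simp [hz4, hz3, hz2, hz1, dcs, dst, this, rz, Op.app]
    rw [e5] at h5
    refine runz_congr (h1.seq (h2.seq (Prog.Run.iteF (c := fun _ r => (r .C).isSome) (p := nop) (by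
      rw [runz_isSome (u := u) (i := c + 1) (j := j) (by simp [hz2, hz1])]
      simp [hj0]) (h3.seq (h4.seq h5))))) rfl ?_ (by norm_num)
    funext f
    cases f <;> simp [hz4, hz3, hz2, hz1, dcs, dst, hj0, htp, hcp]
  · have hcp : c + 1 < p := by omega
    have e1 : (t + 1) % p = c + 1 := by
      rw [Nat.add_mod, ← hc]
      rcases Nat.lt_or_ge 1 p with h3 | h3
      · rw [Nat.mod_eq_of_lt h3, Nat.mod_eq_of_lt hcp]
      · omega
    have e2 : (p ≤ t + 1) ↔ (p ≤ t) := by
      constructor
      · intro h3
        by_contra h4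
        have h5 : t + 1 = p := by omega
        rw [h5, Nat.mod_self] at e1
        omega
      · intro h3
        omega
    have h3 : Prog.Run d (.ite (fun _ r => (r .C).isSome) nop
        (.seq (op .C .rew) (.seq (clr .V2) (op .B (.write u))))) ⟨m, z2⟩ (1 + 1) ⟨m, z2⟩ := by
      refine Prog.Run.iteT ?_ (run_nop _ _)
      rw [runz_isSome (u := u) (i := c + 1) (j := j) (by simp [hz2, hz1])]
      simp [hj0]
    refine runz_congr (h1.seq (h2.seq h3)) rfl ?_ (by norm_num)
    have e3 : p - (c + 1) = j := by omega
    funext f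
    cases f <;> simp [hz2, hz1, dcs, dst, e1, e2, e3, ← hc]

/-- One digit of the long division. -/
def divStep (u : α) (bit : Bool → α) : Prog M DF α :=
  .seq (forU .V (.seq (cycB u) (cycB u))) (.seq (.ite (fun _ r => (r .B).isSome)
    (put .out (bit true)) (put .out (bit false))) (.seq (clr .B) (.seq (clr .V)
    (.seq (op .V2 .rew) (.seq (mvU .V2 .V u) (.seq (clr .V2) (.seq (op .V .rew)
    (op .C .rew))))))))

theorem run_divStep {p r : ℕ} (hr : r < p) {bit : Bool → α} {l : List α} {y : Zip α} :
    Prog.Run d (divStep u bit) ⟨m, dst u y p r 0 0 p ⟨l, []⟩⟩ (22 * p + 20)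
      ⟨m, dst u y p (2 * r % p) 0 0 p ⟨bit (decide (p ≤ 2 * r)) :: l, []⟩⟩ := by
  have hp : 0 < p := by omega
  set x : Zip α := ⟨l, []⟩ with hx
  set c := 2 * r % p with hc
  have hcp : c < p := Nat.mod_lt _ hp
  set b : ℕ := if p ≤ 2 * r then 1 else 0 with hb
  have h1 := runz_for (d := d) (u := u) (m := m) (f := .V) (p := .seq (cycB u) (cycB u)) (n := r)
    (t := 16) (fun i => dcs u y p r (2 * i) 0 x) ?_
  · have e1 : update (dcs u y p r (2 * 0) 0 x) .V (rz u 0 r) = dst u y p r 0 0 p x := by
      have : ¬ p ≤ 0 := by omega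
      funext f
      cases f <;> simp [dcs, dst, this]
    rw [e1] at h1
    set z1 := update (dcs u y p r (2 * r) 0 x) .V (rz u 0 r) with hz1
    set z2 := update z1 .out ⟨bit (decide (p ≤ 2 * r)) :: l, []⟩ with hz2
    have hout : z1 .out = ⟨l, []⟩ := by simp [hz1, dcs, dst, hx]
    have hB1 : z1 .B = rz u 0 b := by simp [hz1, dcs, dst, hb]
    have h2 : Prog.Run d (.ite (fun _ r => (r .B).isSome)
        (put .out (bit true)) (put .out (bit false))) ⟨m, z1⟩ (1 + 2) ⟨m, z2⟩ := by
      by_cases hpr : p ≤ 2 * r
      · have h3 := run_put (d := d) (a := bit true) (m := m) hout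
        refine (Prog.Run.iteT ?_ ?_)
        · rw [runz_isSome hB1]
          simp [hb, hpr]
        · have e2 : decide (p ≤ 2 * r) = true := by simpa using hpr
          rw [hz2, e2]
          exact h3
      · have h3 := run_put (d := d) (a := bit false) (m := m) hout
        refine (Prog.Run.iteF ?_ ?_)
        · rw [runz_isSome hB1]
          simp [hb, hpr]
        · have e2 : decide (p ≤ 2 * r) = false := by simpa using hpr
          rw [hz2, e2]
          exact h3
    have h3 := runz_clr (d := d) (u := u) (m := m) (z := z2) (f := .B)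
    set z3 := update z2 .B (rz u 0 0) with hz3
    have h4 := runz_clr (d := d) (u := u) (m := m) (z := z3) (f := .V)
    set z4 := update z3 .V (rz u 0 0) with hz4
    have h5 := runz_rew (d := d) (u := u) (m := m) (z := z4) (f := .V2) (i := c) (j := 0)
      (by simp [hz4, hz3, hz2, hz1, dcs, dst, hc])
    set z5 := update z4 .V2 (rz u 0 (c + 0)) with hz5
    have h6 := runz_mv (d := d) (u := u) (m := m) (z := z5) (a := .V2) (b := .V) (by decide)
      (i := 0) (j := c) (k := 0) (by simp [hz5]) (by simp [hz5, hz4])
    set z6 := update (update z5 .V2 (rz u (0 + c) 0)) .V (rz u (0 + c) 0) with hz6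
    have h7 := runz_clr (d := d) (u := u) (m := m) (z := z6) (f := .V2)
    set z7 := update z6 .V2 (rz u 0 0) with hz7
    have h8 := runz_rew (d := d) (u := u) (m := m) (z := z7) (f := .V) (i := c) (j := 0)
      (by simp [hz7, hz6])
    set z8 := update z7 .V (rz u 0 (c + 0)) with hz8
    have h9 := runz_rew (d := d) (u := u) (m := m) (z := z8) (f := .C) (i := c) (j := p - c)
      (by simp [hz8, hz7, hz6, hz5, hz4, hz3, hz2, hz1, dcs, dst, hc])
    refine runz_congr (h1.seq (h2.seq (h3.seq (h4.seq (h5.seq (h6.seq (h7.seq (h8.seq h9))))))))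
      rfl ?_ ?_
    · have e3 : c + (p - c) = p := by omega
      funext f
      cases f <;> simp [hz8, hz7, hz6, hz5, hz4, hz3, hz2, hz1, dcs, dst, e3]
    · have : r * (16 + 2) ≤ p * 18 := by nlinarith
      omega
  · intro i hi
    have g1 := run_cycB (d := d) (u := u) (m := m) (y := y) (p := p) (r := r) (t := 2 * i)
      (i := i) (x := x) hp (by omega)
    have g2 := run_cycB (d := d) (u := u) (m := m) (y := y) (p := p) (r := r) (t := 2 * i + 1)
      (i := i) (x := x) hp (by omega)
    refine runz_congr (g1.seq g2) ?_ ?_ le_rfl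
    · simp only [dcs, Function.update_idem]
    · simp only [dcs, Function.update_idem]
      rfl

/-- The digits of the quotient. -/
theorem bits_quot {p i : ℕ} (hp : 0 < p) :
    bits (i + 1) (2 ^ (i + 1) / p) = bits i (2 ^ i / p) ++ [decide (p ≤ 2 * (2 ^ i % p))] := by
  rw [bits]
  have h1 := Nat.div_add_mod (2 ^ i) p
  have h2 : 2 ^ i % p < p := Nat.mod_lt _ hp
  set q := 2 ^ i / p with hq
  set r := 2 ^ i % p with hr
  have e0 : 2 ^ (i + 1) / p = 2 * q + 2 * r / p := by
    rw [pow_succ, ← h1]
    have : (p * q + r) * 2 = 2 * r + p * (2 * q) := by ring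
    rw [this, Nat.add_mul_div_left _ _ hp]
    ring
  by_cases h : p ≤ 2 * r
  · have e1 : 2 * r / p = 1 := by
      rw [Nat.div_eq_iff hp]
      omega
    have e2 : (2 * q + 1) / 2 = q := by omega
    have e3 : (2 * q + 1) % 2 = 1 := by omega
    rw [e0, e1, e2, e3]
    simp [h]
  · have e1 : 2 * r / p = 0 := Nat.div_eq_of_lt (by omega)
    have e2 : (2 * q + 0) / 2 = q := by omega
    have e3 : (2 * q + 0) % 2 = 0 := by omega
    rw [e0, e1, e2, e3]
    simp [h]

/-- `out := floor (2 ^ W / p) + 1`. -/
def divPow [DecidableEq α] (u : α) (bit : Bool → α) : Prog M DF α :=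
  .seq (clr .out) (.seq (put .V u) (.seq (op .V .rew) (.seq (cpU .P .C u)
    (.seq (forU .el (divStep u bit)) (.seq (op .out .rew) (.seq (incW .out bit)
      (.seq (clr .V) (clr .C))))))))

/-- The state before and after the division. -/
def dio (u : α) (W p : ℕ) (x : Zip α) : DF → Zip α := dst u (rz u 0 W) p 0 0 0 0 x

theorem run_divPow [DecidableEq α] {W p : ℕ} (hp : 2 ≤ p) (hW : 2 ≤ W) {bit : Bool → α}
    (hbit : Function.Injective bit) {x : Zip α} :
    Prog.Run d (divPow u bit) ⟨m, dio u W p x⟩ (40 * (W * p) + 40 * W)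
      ⟨m, dio u W p ⟨[], (bits W (2 ^ W / p + 1)).map bit⟩⟩ := by
  have h1 := run_clr (d := d) DF.out m (dio u W p x)
  set z1 := update (dio u W p x) .out ⟨[], []⟩ with hz1
  have h2 := runz_put (d := d) (u := u) (m := m) (z := z1) (f := .V) (i := 0)
    (by simp [hz1, dio, dst])
  set z2 := update z1 .V (rz u (0 + 1) 0) with hz2
  have h3 := runz_rew (d := d) (u := u) (m := m) (z := z2) (f := .V) (i := 1) (j := 0)
    (by simp [hz2])
  set z3 := update z2 .V (rz u 0 (1 + 0)) with hz3
  have h4 : Prog.Run d (cpU .P .C u) ⟨m, z3⟩ (4 * p + 5) ⟨m, update z3 .C (rz u 0 p)⟩ := by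
    obtain ⟨s', g1, g2, g3, g4⟩ := tri_cpU (d := d) (u := u) (s := (⟨m, z3⟩ : Store M DF α))
      (a := .P) (b := .C) (n := p) (by decide) (by simp [hz3, hz2, hz1, dio, dst, Len, rz])
    have g5 : s' = ⟨m, update z3 .C (rz u 0 p)⟩ := by
      rcases s' with ⟨m', z'⟩
      obtain ⟨g6, g7⟩ := g4
      simp only at g6
      subst g6
      simp only [Store.mk.injEq, true_and]
      funext g
      by_cases hg : g = DF.C
      · subst hg
        rw [Function.update_self]
        exact g2
      · rw [Function.update_of_ne hg]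
        by_cases hg2 : g = DF.P
        · subst hg2
          have : z3 .P = rz u 0 p := by simp [hz3, hz2, hz1, dio, dst]
          rw [this]
          exact g3
        · exact g7 g (by simp [hg, hg2])
    rw [← g5]
    exact g1
  set z4 := update z3 .C (rz u 0 p) with hz4
  have h5 := runz_for (d := d) (u := u) (m := m) (f := .el) (p := divStep u bit) (n := W)
    (t := 22 * p + 20) (fun i => dst u (rz u 0 W) p (2 ^ i % p) 0 0 p
      ⟨((bits i (2 ^ i / p)).map bit).reverse, []⟩) ?_
  · have e4 : update (dst u (rz u 0 W) p (2 ^ 0 % p) 0 0 p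
        ⟨((bits 0 (2 ^ 0 / p)).map bit).reverse, []⟩) .el (rz u 0 W) = z4 := by
      have e : 1 % p = 1 := Nat.mod_eq_of_lt (by omega)
      funext f
      cases f <;> simp [hz4, hz3, hz2, hz1, dio, dst, e, bits]
    rw [e4] at h5
    set z5 := update (dst u (rz u 0 W) p (2 ^ W % p) 0 0 p
      ⟨((bits W (2 ^ W / p)).map bit).reverse, []⟩) .el (rz u 0 W) with hz5
    have h6 := run_rew (d := d) DF.out m z5
    have e6 : (z5 .out).full = (bits W (2 ^ W / p)).map bit := by
      simp [hz5, dst, Zip.full]
    rw [e6] at h6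
    set z6 := update z5 .out ⟨[], (bits W (2 ^ W / p)).map bit⟩ with hz6
    have h7 := run_incW (d := d) (m := m) (z := z6) (f := .out) hbit (W := W) (v := 2 ^ W / p)
      (by
        have g1 : 2 ^ W / p ≤ 2 ^ W / 2 := Nat.div_le_div_left hp (by norm_num)
        obtain ⟨W', hW'⟩ : ∃ W', W = W' + 2 := ⟨W - 2, by omega⟩
        have g2 : 2 ^ W = 4 * 2 ^ W' := by rw [hW', pow_add]; ring
        have g3 : 1 ≤ 2 ^ W' := Nat.one_le_two_pow
        omega) (by simp [hz6])
    set z7 := update z6 .out ⟨[], (bits W (2 ^ W / p + 1)).map bit⟩ with hz7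
    have h8 := runz_clr (d := d) (u := u) (m := m) (z := z7) (f := .V)
    set z8 := update z7 .V (rz u 0 0) with hz8
    have h9 := runz_clr (d := d) (u := u) (m := m) (z := z8) (f := .C)
    refine runz_congr (h1.seq (h2.seq (h3.seq (h4.seq (h5.seq (h6.seq (h7.seq (h8.seq h9))))))))
      rfl ?_ ?_
    · funext f
      cases f <;> simp [hz8, hz7, hz6, hz5, dio, dst]
    · have g1 : p ≤ W * p := Nat.le_mul_of_pos_left p (by omega)
      have g2 : W * (22 * p + 20 + 2) = 22 * (W * p) + 22 * W := by ring
      omega
  · intro i hi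
    have g1 := run_divStep (d := d) (u := u) (m := m) (y := rz u i (W - i)) (p := p)
      (r := 2 ^ i % p) (bit := bit) (l := ((bits i (2 ^ i / p)).map bit).reverse)
      (Nat.mod_lt _ (by omega))
    refine runz_congr g1 ?_ ?_ le_rfl
    · funext f
      cases f <;> simp [dst]
    · have e1 : 2 * (2 ^ i % p) % p = 2 ^ (i + 1) % p := by
        rw [pow_succ, Nat.mul_comm (2 ^ i) 2, Nat.mul_mod_mod]
      have e2 : ((bits (i + 1) (2 ^ (i + 1) / p)).map bit).reverse =
          bit (decide (p ≤ 2 * (2 ^ i % p))) :: ((bits i (2 ^ i / p)).map bit).reverse := by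
        rw [bits_quot (by omega)]
        simp
      rw [e1, ← e2]
      funext f
      cases f <;> simp [dst]

end Vale.Agent.P338.R2.H968
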