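import Vale.Agent.P338.R2.H968.Search2
import Vale.Agent.P338.R2.H968.WordDiv

/-!
P338, stage 2: the prime, the primitive root and the constants of a round.
-/

namespace Vale.Agent.P338.R2.H968

open Vale.Agent.P338.R2.H898
open Vale.Agent.P338.R2.H784
open Vale.Agent.P338.R2.H778 (bits)
open Function (update)

set_option linter.unusedSectionVars false

variable {M F α : Type} [DecidableEq F] [DecidableEq α] {d u : α} {m : M} {z : F → Zip α}
  {bit : Bool → α}

/-- The division inside a larger set of files. -/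
def divIn (ι : DF → F) (u : α) (bit : Bool → α) : Prog M F α :=
  (divPow u bit : Prog M DF α).map (Lens.idL M) ι

theorem run_divIn {ι : DF → F} (hι : Function.Injective ι) {W p : ℕ} (hp : 2 ≤ p) (hW : 2 ≤ W)
    (hbit : Function.Injective bit) (hel : z (ι .el) = rz u 0 W) (hP : z (ι .P) = rz u 0 p)
    (h0 : ∀ f, f ≠ DF.el → f ≠ DF.P → f ≠ DF.out → z (ι f) = ⟨[], []⟩) :
    Prog.Run d (divIn ι u bit) ⟨m, z⟩ (40 * (W * p) + 40 * W)
      ⟨m, update z (ι .out) ⟨[], (bits W (2 ^ W / p + 1)).map bit⟩⟩ := by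
  have h6 := run_divPow (d := d) (u := u) (m := m) hp hW hbit (x := z (ι .out))
  have hpull : Store.pull (Lens.idL M) ι (⟨m, z⟩ : Store M F α) =
      ⟨m, dio u W p (z (ι .out))⟩ := by
    simp only [Store.pull, Lens.idL, Store.mk.injEq, true_and]
    funext f
    cases f
    case el => exact hel
    case P => exact hP
    case out => rfl
    all_goals exact h0 _ (by decide) (by decide) (by decide)
  have h7 := Prog.Run.map (L := Lens.idL M) hι h6 hpull
  have h8 : Store.put (Lens.idL M) ι (⟨m, z⟩ : Store M F α)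
      ⟨m, dio u W p ⟨[], (bits W (2 ^ W / p + 1)).map bit⟩⟩ =
      ⟨m, update z (ι .out) ⟨[], (bits W (2 ^ W / p + 1)).map bit⟩⟩ := by
    simp only [Store.put, Lens.idL, Store.mk.injEq, true_and]
    funext g
    by_cases hg : ∃ f, ι f = g
    · obtain ⟨f, rfl⟩ := hg
      rw [hι.extend_apply]
      by_cases hf1 : f = DF.out
      · subst hf1
        rw [Function.update_self]
        rfl
      · rw [Function.update_of_ne (fun h => hf1 (hι h))]
        cases f
        case el => exact hel.symm
        case P => exact hP.symm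
        case out => exact absurd rfl hf1
        all_goals exact (h0 _ (by decide) (by decide) (by decide)).symm
    · rw [Function.extend_apply' _ _ _ hg, Function.update_of_ne]
      rintro rfl
      exact hg ⟨_, rfl⟩
  rw [← h8]
  exact h7

/-- The files of the preparation of the constants: `R` input ruler (length `n`), `el` input
ruler (length `W`); results: words `wp`, `ww`, `mu` and ruler `Q`; the others are
scratch files. -/
inductive GF
  | R | P | D | W | E | C | V | V2 | B | PO | WO | el | wp | ww | mu | Q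
  deriving DecidableEq

instance : Fintype GF := ⟨{.R, .P, .D, .W, .E, .C, .V, .V2, .B, .PO, .WO, .el, .wp, .ww, .mu, .Q},
  by
    intro x
    cases x <;> simp⟩

/-- The files of the search. -/
def gS : SF → GF
  | .R => .R
  | .P => .P
  | .D => .D
  | .W => .W
  | .E => .E
  | .C => .C
  | .V => .V
  | .V2 => .V2
  | .B => .B
  | .PO => .PO
  | .WO => .WO

theorem gS_inj : Function.Injective gS := by
  intro a b h
  cases a <;> cases b <;> simp_all [gS]

/-- The files of the division. -/
def gD : DF → GF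
  | .el => .el
  | .P => .PO
  | .V => .V
  | .C => .C
  | .V2 => .V2
  | .B => .B
  | .out => .mu

theorem gD_inj : Function.Injective gD := by
  intro a b h
  cases a <;> cases b <;> simp_all [gD]

/-- The preparation of the constants. -/
def setup (ι : GF → F) (u : α) (bit : Bool → α) : Prog M F α :=
  .seq (searchIn (ι ∘ gS) u) (.seq (divIn (ι ∘ gD) u bit)
    (.seq (u2b (ι .el) (ι .PO) (ι .wp) bit) (.seq (u2b (ι .el) (ι .WO) (ι .ww) bit)
    (.seq (op (ι .PO) .right) (.seq (mvU (ι .PO) (ι .Q) u) (.seq (op (ι .Q) .rew)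
    (.seq (clr (ι .PO)) (clr (ι .WO)))))))))

/-- The files after the preparation. -/
def setupZ (ι : GF → F) (u : α) (bit : Bool → α) (W p w : ℕ) (z : F → Zip α) : F → Zip α :=
  update (update (update (update z (ι .mu) ⟨[], (bits W (2 ^ W / p + 1)).map bit⟩)
    (ι .wp) ⟨[], (bits W p).map bit⟩) (ι .ww) ⟨[], (bits W w).map bit⟩) (ι .Q) (rz u 0 (p - 1))

theorem run_setup {ι : GF → F} (hι : Function.Injective ι) {n W : ℕ} (hn : 1 ≤ n)
    (hW : (2 * n) ^ 5 ≤ 2 ^ W) (hbit : Function.Injective bit)
    (hR : z (ι .R) = rz u 0 n) (hel : z (ι .el) = rz u 0 W)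
    (h0 : ∀ f, f ≠ GF.R → f ≠ GF.el → z (ι f) = ⟨[], []⟩) :
    ∃ p w, n < p ∧ p ≤ 2 * n ∧ 1 ≤ w ∧ w < p ∧ Good p w ∧
      Prog.Run d (setup ι u bit) ⟨m, z⟩ (900 * (n ^ 5 + n * W)) ⟨m, setupZ ι u bit W p w z⟩ := by
  have hne : ∀ {a b : GF}, a ≠ b → ι a ≠ ι b := fun h h' => h (hι h')
  have hp32 : 2 ^ 5 ≤ (2 * n) ^ 5 := Nat.pow_le_pow_left (by omega) 5
  have hW5 : 5 ≤ W := by
    by_contra hcon
    have : 2 ^ W < 2 ^ 5 := Nat.pow_lt_pow_right (by norm_num) (by omega)
    omega
  have h2n : 2 * n < (2 * n) ^ 5 := by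
    calc 2 * n < 2 * n * (2 * n) := by nlinarith
      _ = (2 * n) ^ 2 := by ring
      _ ≤ (2 * n) ^ 5 := Nat.pow_le_pow_right (by omega) (by norm_num)
  obtain ⟨p, w, h1, h2, h3, h4, h5, g1⟩ := run_searchIn (d := d) (u := u) (m := m) (z := z)
    (ι := ι ∘ gS) (hι.comp gS_inj) hn hR (by
      intro f hf
      apply h0
      · cases f <;> simp_all [gS]
      · cases f <;> simp [gS])
  refine ⟨p, w, h1, h2, h3, h4, h5, ?_⟩
  have hpW : p < 2 ^ W := by omega
  set z1 := update (update z (ι .PO) (rz u 0 p)) (ι .WO) (rz u 0 w) with hz1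
  have g1' : Prog.Run d (searchIn (ι ∘ gS) u) ⟨m, z⟩ (830 * n ^ 5) ⟨m, z1⟩ := g1
  have g2 := run_divIn (d := d) (u := u) (m := m) (z := z1) (ι := ι ∘ gD) (hι.comp gD_inj)
    (W := W) (p := p) (by omega) (by omega) hbit (by
      show z1 (ι .el) = _
      rw [hz1, Function.update_of_ne (hne (by decide)), Function.update_of_ne (hne (by decide)),
        hel]) (by
      show z1 (ι .PO) = _
      rw [hz1, Function.update_of_ne (hne (by decide)), Function.update_self]) (by
      intro f hf1 hf2 hf3
      have e1 : gD f ≠ .PO := by cases f <;> simp_all [gD]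
      have e2 : gD f ≠ .WO := by cases f <;> simp [gD]
      show z1 (ι (gD f)) = _
      rw [hz1, Function.update_of_ne (hne e2), Function.update_of_ne (hne e1)]
      apply h0
      · cases f <;> simp [gD]
      · cases f <;> simp_all [gD])
  set z2 := update z1 (ι .mu) ⟨[], (bits W (2 ^ W / p + 1)).map bit⟩ with hz2
  have g2' : Prog.Run d (divIn (ι ∘ gD) u bit) ⟨m, z1⟩ (40 * (W * p) + 40 * W) ⟨m, z2⟩ := g2
  have hPO2 : z2 (ι .PO) = rz u 0 p := by
    rw [hz2, Function.update_of_ne (hne (by decide)), hz1, Function.update_of_ne (hne (by decide)),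
      Function.update_self]
  have hWO2 : z2 (ι .WO) = rz u 0 w := by
    rw [hz2, Function.update_of_ne (hne (by decide)), hz1, Function.update_self]
  have hel2 : z2 (ι .el) = rz u 0 W := by
    rw [hz2, Function.update_of_ne (hne (by decide)), hz1, Function.update_of_ne (hne (by decide)),
      Function.update_of_ne (hne (by decide)), hel]
  have g3 := run_u2b (d := d) (m := m) (z := z2) (el := ι .el) (v := ι .PO) (f := ι .wp)
    (hne (by decide)) (hne (by decide)) hbit hel2 hPO2 hpW
  set z3 := update z2 (ι .wp) ⟨[], (bits W p).map bit⟩ with hz3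
  have g4 := run_u2b (d := d) (m := m) (z := z3) (el := ι .el) (v := ι .WO) (f := ι .ww)
    (hne (by decide)) (hne (by decide)) hbit
    (by rw [hz3, Function.update_of_ne (hne (by decide)), hel2])
    (by rw [hz3, Function.update_of_ne (hne (by decide)), hWO2]) (h4.trans hpW)
  set z4 := update z3 (ι .ww) ⟨[], (bits W w).map bit⟩ with hz4
  have hPO6 : z4 (ι .PO) = rz u 0 p := by
    rw [hz4, Function.update_of_ne (hne (by decide)),
      hz3, Function.update_of_ne (hne (by decide)), hPO2]
  obtain ⟨j, hj⟩ : ∃ j, p = j + 1 := ⟨p - 1, by omega⟩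
  have hQ6 : z4 (ι .Q) = ⟨[], []⟩ := by
    rw [hz4, Function.update_of_ne (hne (by decide)),
      hz3, Function.update_of_ne (hne (by decide)), hz2, Function.update_of_ne (hne (by decide)),
      hz1, Function.update_of_ne (hne (by decide)), Function.update_of_ne (hne (by decide))]
    exact h0 _ (by decide) (by decide)
  have g7 := runz_right (d := d) (u := u) (m := m) (z := z4) (f := ι .PO) (i := 0) (j := j)
    (by rw [hPO6, hj])
  set z7 := update z4 (ι .PO) (rz u (0 + 1) j) with hz7
  have g8 := runz_mv (d := d) (u := u) (m := m) (z := z7) (a := ι .PO) (b := ι .Q)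
    (hne (by decide)) (i := 1) (j := j) (k := 0) (by rw [hz7, Function.update_self])
    (by rw [hz7, Function.update_of_ne (hne (by decide)), hQ6]; rfl)
  set z8 := update (update z7 (ι .PO) (rz u (1 + j) 0)) (ι .Q) (rz u (0 + j) 0) with hz8
  have g9 := runz_rew (d := d) (u := u) (m := m) (z := z8) (f := ι .Q) (i := 0 + j) (j := 0)
    (by rw [hz8, Function.update_self])
  set z9 := update z8 (ι .Q) (rz u 0 (0 + j + 0)) with hz9
  have g10 := runz_clr (d := d) (u := u) (m := m) (z := z9) (f := ι .PO)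
  set z10 := update z9 (ι .PO) (rz u 0 0) with hz10
  have g11 := runz_clr (d := d) (u := u) (m := m) (z := z10) (f := ι .WO)
  refine runz_congr (g1'.seq (g2'.seq (g3.seq (g4.seq (g7.seq (g8.seq (g9.seq
    (g10.seq g11)))))))) rfl ?_ ?_
  · have hPO0 : z (ι .PO) = rz u 0 0 := h0 _ (by decide) (by decide)
    have hWO0 : z (ι .WO) = rz u 0 0 := h0 _ (by decide) (by decide)
    funext g
    by_cases hg : ∃ f, ι f = g
    · obtain ⟨f, rfl⟩ := hg
      cases f <;> simp [hz10, hz9, hz8, hz7, hz4, hz3, hz2, hz1, setupZ, hι.eq_iff,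
        hPO0, hWO0, hj]
    · have hg' : ∀ f, g ≠ ι f := fun f h => hg ⟨f, h.symm⟩
      simp [hz10, hz9, hz8, hz7, hz4, hz3, hz2, hz1, setupZ, hg']
  · have e1 : W * p ≤ 2 * (n * W) := by
      calc W * p ≤ W * (2 * n) := Nat.mul_le_mul_left _ h2
        _ = 2 * (n * W) := by ring
    have e2 : W ≤ n * W := Nat.le_mul_of_pos_left _ hn
    have e3 : (p + 1) * (5 * W + 7) ≤ (3 * n) * (5 * W + 7) := Nat.mul_le_mul_right _ (by omega)
    have e4 : (w + 1) * (5 * W + 7) ≤ (3 * n) * (5 * W + 7) := Nat.mul_le_mul_right _ (by omega)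
    have e5 : (3 * n) * (5 * W + 7) = 15 * (n * W) + 21 * n := by ring
    have e6 : n ≤ n * W := Nat.le_mul_of_pos_right _ (by omega)
    omega

end Vale.Agent.P338.R2.H968
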