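import Vale.Agent.P338.R2.H968.DirectPass
import Vale.Agent.P338.R2.H525.RoundD

/-!
The direct pass on the matrix layout.
-/

namespace Vale.Agent.P338.R2.H968

open Vale.Agent.P338.R2.H898 Prog
open Vale.Agent.P338.R2.H525 (dBits dimOf wordOf inputBits Dim dBits_eq_input dBits_eq_swapped
  length_wordOf)

variable {M F α : Type} [DecidableEq F] {d : α}

theorem arr_map_input (enc : Bool → α) (D : Dim) (hs : D.s = 1)
    (V : ℕ → ℕ → ℕ → ℕ → List Bool) :
    arr (fun k x g y => (V k x g y).map enc) D.K D.G = (inputBits D V).map enc := by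
  have hP : D.P = 2 := by rw [Dim.P, hs, pow_one]
  rw [arr_eq, inputBits, hP]
  simp only [List.map_flatMap]

/-- **The direct pass on the matrix layout**: the exchanged index bits grow by one bit. -/
theorem run_direct_dBits {e : α} {ι : DFile → F} (hι : Function.Injective ι) (enc : Bool → α)
    {l h : ℕ} (hh : 1 ≤ h) (hl : h ≤ l) (N : ℕ → ℕ → Bool) {K G L : List α} {m : M}
    {z : F → Zip α} (hKl : K.length = 2 ^ (l - h)) (hGl : G.length = 2 ^ (h - 1) * 2 ^ (l - h))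
    (hLl : L.length = 2 ^ (h - 1))
    (hd : z (ι .dat) = ⟨[], (dBits l h N).map enc⟩)
    (ha : z (ι .a) = Zip.nil) (hb : z (ι .b) = Zip.nil) (hc : z (ι .c) = Zip.nil)
    (he : z (ι .e) = Zip.nil) (hK : z (ι .rK) = ⟨[], K⟩) (hG : z (ι .rG) = ⟨[], G⟩)
    (hL : z (ι .rL) = ⟨[], L⟩) :
    Run d (direct e ι) ⟨m, z⟩ (24 * 4 ^ l)
      ⟨m, Function.update z (ι .dat) ⟨[], (dBits l (h - 1) N).map enc⟩⟩ := by
  have e1 := arr_map_input enc (dimOf l h 1) rfl (wordOf l h 1 N)
  have e2 := arr_map_input enc (dimOf l h 1) rfl (fun k x g y => wordOf l h 1 N k y g x)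
  have eK : (dimOf l h 1).K = K.length := hKl.symm
  have eG : (dimOf l h 1).G = G.length := hGl.symm
  rw [← dBits_eq_input l h 1 hh hl, eK, eG] at e1
  rw [← dBits_eq_swapped l h 1 hh hl, eK, eG] at e2
  rw [← e1] at hd
  rw [← e2]
  have h1 := run_direct (d := d) (e := e) hι (m := m)
    (V := fun k x g y => (wordOf l h 1 N k x g y).map enc)
    (fun k _ x _ g _ y _ => by
      rw [List.length_map, length_wordOf, hLl]
      rfl) hd ha hb hc he hK hG hL
  refine h1.mono ?_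
  refine (direct_cost _ _ _ ?_ ?_ ?_).trans (le_of_eq ?_)
  · rw [hKl]; exact Nat.one_le_two_pow
  · rw [hGl]; exact Nat.one_le_iff_ne_zero.mpr (by positivity)
  · rw [hLl]; exact Nat.one_le_two_pow
  · rw [hKl, hGl, hLl]
    obtain ⟨p, rfl⟩ : ∃ p, h = p + 1 := ⟨h - 1, by omega⟩
    obtain ⟨q, rfl⟩ : ∃ q, l = p + 1 + q := ⟨l - (p + 1), by omega⟩
    have e3 : p + 1 + q - (p + 1) = q := by omega
    have e4 : p + 1 - 1 = p := by omega
    rw [e3, e4]
    have e5 : (4 : ℕ) ^ (p + 1 + q) = 4 * (2 ^ p * 2 ^ p * (2 ^ q * 2 ^ q)) := by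
      rw [show (4 : ℕ) = 2 * 2 by norm_num, mul_pow]
      ring
    rw [e5]
    ring

end Vale.Agent.P338.R2.H968
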