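import Vale.Agent.P338.R2.H778.Fp.Prep

/-!
P338, stage 2: a program guarded by the length of a ruler.
-/

namespace Vale.Agent.P338.R2.H968

open Vale.Agent.P338.R2.H898 Vale.Agent.P338.R2.H784 Vale.Agent.P338.R2.H778.Fp
open Function (update)

variable {M F α : Type} [DecidableEq F] {d u : α}

/-- `if 32 ≤ |f| then body`. -/
def guard (f : F) (body : Prog M F α) : Prog M F α := ifLt f 31 body nop

/-- The guard, exact form. -/
theorem run_guard {f : F} {body : Prog M F α} {m m1 : M} {z z1 : F → Zip α} {c h : ℕ}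
    (hf : z f = ⟨[], List.replicate h u⟩)
    (h1 : 32 ≤ h → Prog.Run d body ⟨m, z⟩ c ⟨m1, z1⟩)
    (h2 : h < 32 → m1 = m ∧ z1 = z) :
    Prog.Run d (guard f body) ⟨m, z⟩ (c + 100) ⟨m1, z1⟩ := by
  have h3 : Tri d (guard f body) ⟨m, z⟩ (c + 1 + 2 * 31 + 3) (fun s => s = ⟨m1, z1⟩) := by
    refine tri_ifLt (u := u) (k := h) (t := c + 1) (by simpa [Len] using hf) ?_ ?_
    · intro hh
      exact ⟨⟨m1, z1⟩, (h1 (by omega)).mono (by omega), rfl⟩
    · intro hh
      obtain ⟨rfl, rfl⟩ := h2 (by omega)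
      exact ⟨⟨m1, z1⟩, (run_nop m1 z1).mono (by omega), rfl⟩
  obtain ⟨s, h4, rfl⟩ := h3
  exact h4.mono (by omega)

end Vale.Agent.P338.R2.H968
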