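import Vale.Agent.P338.R2.H784.Fp.Inst
import Vale.Agent.P338.R2.H968.Setup

/-!
P338, stage 2: the search of the prime and the constants, in the files of the complete program.
-/

namespace Vale.Agent.P338.R2.H968

open Vale.Agent.P338.R2.H898 Vale.Agent.P338.R2.H784 Vale.Agent.P338.R2.H784.Fp
open Vale.Agent.P338.R2.H525.Fp (hPar sPar par)
open Vale.Agent.P338.R2.H778 (bits)
open Vale.Agent.P338.R2.H778.FpW (PN vI vA vB)
open Vale.Agent.P338.R2.H968.CallEnv (mem0 callC)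
open Function (update)

/-- The files of the search. -/
def gsF (T T₀ : Type) : GF → LF T T₀
  | .R => lz (.r .C)
  | .P => lz (.g .P)
  | .D => lz (.g .D)
  | .W => lz (.g .W)
  | .E => lz (.g .E)
  | .C => lz (.g .C)
  | .V => lz (.g .V)
  | .V2 => lz (.g .V2)
  | .B => lz (.g .B)
  | .PO => lz (.g .PO)
  | .WO => lz (.g .WO)
  | .el => lz (.r .wd)
  | .wp => lz (.w .p)
  | .ww => lz (.w .w)
  | .mu => lz (.w .mu)
  | .Q => lz (.r .Q)

theorem gsF_inj (T T₀ : Type) : Function.Injective (gsF T T₀) := by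
  intro a b h
  cases a <;> cases b <;> simp_all [gsF, lz]

section

variable {A A₀ : MTM}

/-- The search of the prime and the constants. -/
def setupP (A A₀ : MTM) [DecidableEq (Al A A₀)] :
    Prog (Mem A A₀) (LF A.Tape A₀.Tape) (Al A A₀) :=
  setup (gsF A.Tape A₀.Tape) .u bt

/-- The cost of the search. -/
theorem setup_cost {W : ℕ} (hW : 32 ≤ W) :
    900 * ((2 ^ (sPar W + 1)) ^ 5 + 2 ^ (sPar W + 1) * W) ≤ 1800 * 4 ^ W := by
  obtain ⟨-, -, -, g4, -, -, -⟩ := par W hW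
  have e1 : (2 ^ (sPar W + 1)) ^ 5 ≤ 4 ^ W := by
    rw [← pow_mul, show (4 : ℕ) = 2 ^ 2 by norm_num, ← pow_mul]
    exact Nat.pow_le_pow_right (by norm_num) (by omega)
  have e2 : 2 ^ (sPar W + 1) ≤ 2 ^ W := Nat.pow_le_pow_right (by norm_num) (by omega)
  have e3 : W ≤ 2 ^ W := Nat.lt_two_pow_self.le
  have e4 : 2 ^ (sPar W + 1) * W ≤ 4 ^ W := by
    rw [show (4 : ℕ) = 2 * 2 by norm_num, Nat.mul_pow]
    exact Nat.mul_le_mul e2 e3
  omega

/-- **The search of the prime and the constants.** -/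
theorem run_setupZ [DecidableEq (LF A.Tape A₀.Tape)] [DecidableEq (Al A A₀)]
    (mem : Mem A A₀) (S : ZS (Al A A₀)) {W : ℕ} (h32 : 32 ≤ W) (hwd : S.r .wd = W)
    (hC : S.r .C = 2 ^ (sPar W + 1)) (hQ : S.r .Q = 0)
    (h1 : S.w .w = ⟨[], []⟩) (h2 : S.w .p = ⟨[], []⟩) (h3 : S.w .mu = ⟨[], []⟩) :
    ∃ p w : ℕ, p.Prime ∧ 2 * 2 ^ sPar W < p ∧ p ≤ 4 * 2 ^ sPar W ∧
      orderOf (w : ZMod p) = p - 1 ∧ 1 ≤ w ∧ w < p ∧
      Prog.Run (dd A A₀) (setupP A A₀) ⟨mem, zst .u S⟩ (1800 * 4 ^ W)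
        ⟨mem, zst .u { S with
          r := update S.r .Q (p - 1)
          w := update (update (update S.w .mu (bw A A₀ (bits W (2 ^ W / p + 1)))) .p
            (bw A A₀ (bits W p))) .w (bw A A₀ (bits W w)) }⟩ := by
  obtain ⟨-, -, -, g4, -, -, -⟩ := par W h32
  have hpw : (2 * 2 ^ (sPar W + 1)) ^ 5 ≤ 2 ^ W := by
    rw [← pow_succ', ← pow_mul]
    exact Nat.pow_le_pow_right (by norm_num) (by omega)
  obtain ⟨p, w, q1, q2, q3, q4, q5, hrun⟩ := run_setup (d := dd A A₀) (u := .u) (m := mem)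
    (z := zst (T := A.Tape) (T₀ := A₀.Tape) .u S) (bit := bt (A := A) (A₀ := A₀))
    (gsF_inj A.Tape A₀.Tape) (n := 2 ^ (sPar W + 1)) (W := W) Nat.one_le_two_pow hpw
    (by
      intro a b hab
      cases a <;> cases b <;> simp_all [bitL])
    (by
      show ru _ (S.r .C) = _
      rw [hC]
      rfl)
    (by
      show ru _ (S.r .wd) = _
      rw [hwd]
      rfl)
    (by
      intro f hf1 hf2
      cases f
      case R => exact absurd rfl hf1
      case el => exact absurd rfl hf2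
      case wp => exact h2
      case ww => exact h1
      case mu => exact h3
      case Q =>
        show ru _ (S.r .Q) = _
        rw [hQ]
        rfl
      all_goals rfl)
  refine ⟨p, w, q5.prime, ?_, ?_, q5.orderOf, q3, q4, ?_⟩
  · rw [pow_succ] at q1
    omega
  · rw [pow_succ] at q2
    omega
  have e1 : gsF A.Tape A₀.Tape .mu = lz (.w .mu) := rfl
  have e2 : gsF A.Tape A₀.Tape .wp = lz (.w .p) := rfl
  have e3 : gsF A.Tape A₀.Tape .ww = lz (.w .w) := rfl
  have e4 : gsF A.Tape A₀.Tape .Q = lz (.r .Q) := rfl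
  have e5 : rz (.u : Al A A₀) 0 (p - 1) = ru .u (p - 1) := rfl
  unfold setupZ at hrun
  rw [e1, e2, e3, e4, e5, zst_w, zst_w, zst_w, zst_r] at hrun
  exact hrun.mono (setup_cost h32)

/-- The state between the schedule and the search. -/
def sS (A A₀ : MTM) (l W h n : ℕ) (dat : Zip (Al A A₀)) : ZS (Al A A₀) :=
  ⟨dat, ⟨[], []⟩, ⟨[], []⟩, ⟨[], []⟩, ⟨[], []⟩, n, vA l W h 0, fun _ => ⟨[], []⟩⟩

/-- The search of the prime and the constants, as a step between two states. -/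
theorem run_setupA [DecidableEq (LF A.Tape A₀.Tape)] [DecidableEq (Al A A₀)]
    {l W h n : ℕ} (h32 : 32 ≤ W) (dat : Zip (Al A A₀)) :
    ∃ p w : ℕ, p.Prime ∧ 2 * 2 ^ sPar W < p ∧ p ≤ 4 * 2 ^ sPar W ∧
      orderOf (w : ZMod p) = p - 1 ∧ 1 ≤ w ∧ w < p ∧
      Prog.Run (dd A A₀) (setupP A A₀) (sto (sS A A₀ l W h n dat)) (1800 * 4 ^ W)
        (sto (sA l W h n p w dat)) := by
  obtain ⟨p, w, g1, g2, g3, g4, g5, g6, hrun⟩ := run_setupZ (mem0 A, mem0 A₀)
    (sS A A₀ l W h n dat) h32 rfl rfl rfl rfl rfl rfl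
  refine ⟨p, w, g1, g2, g3, g4, g5, g6, ?_⟩
  have e : ({ sS A A₀ l W h n dat with
          r := update (sS A A₀ l W h n dat).r .Q (p - 1)
          w := update (update (update (sS A A₀ l W h n dat).w .mu
            (bw A A₀ (bits W (2 ^ W / p + 1)))) .p (bw A A₀ (bits W p))) .w
            (bw A A₀ (bits W w)) } : ZS (Al A A₀)) = sA l W h n p w dat := by
    unfold sS sA
    simp only [ZS.mk.injEq, true_and]
    constructor
    · funext k
      cases k <;> simp [vA, Function.update]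
    · funext k
      cases k <;> simp [zA, Function.update]
  rw [e] at hrun
  exact hrun

/-- The end of a phase: the constants are cleared. -/
def clrW (A A₀ : MTM) : Prog (Mem A A₀) (LF A.Tape A₀.Tape) (Al A A₀) :=
  .seq (clr (lz (.w .w))) (.seq (clr (lz (.w .p))) (clr (lz (.w .mu))))

theorem run_clrWZ [DecidableEq (LF A.Tape A₀.Tape)] {l W h n p w : ℕ} (dat : Zip (Al A A₀)) :
    Prog.Run (dd A A₀) (clrW A A₀) (sto (sA l W h n p w dat)) 6
      (sto ⟨dat, ⟨[], []⟩, ⟨[], []⟩, ⟨[], []⟩, ⟨[], []⟩, n, vA l W h (p - 1),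
        fun _ => ⟨[], []⟩⟩) := by
  have h1 := run_clr (d := dd A A₀) (lz (.w .w) : LF A.Tape A₀.Tape) (mem0 A, mem0 A₀)
    (zst .u (sA l W h n p w dat))
  rw [zst_w] at h1
  have h2 := run_clr (d := dd A A₀) (lz (.w .p) : LF A.Tape A₀.Tape) (mem0 A, mem0 A₀)
    (zst .u { sA l W h n p w dat with w := update (sA l W h n p w dat).w .w ⟨[], []⟩ })
  rw [zst_w] at h2
  have h3 := run_clr (d := dd A A₀) (lz (.w .mu) : LF A.Tape A₀.Tape) (mem0 A, mem0 A₀)
    (zst .u { sA l W h n p w dat with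
      w := update (update (sA l W h n p w dat).w .w ⟨[], []⟩) .p ⟨[], []⟩ })
  rw [zst_w] at h3
  have e : ({ sA l W h n p w dat with
      w := update (update (update (sA l W h n p w dat).w .w ⟨[], []⟩) .p ⟨[], []⟩) .mu
        ⟨[], []⟩ } : ZS (Al A A₀)) = ⟨dat, ⟨[], []⟩, ⟨[], []⟩, ⟨[], []⟩, ⟨[], []⟩, n,
        vA l W h (p - 1), fun _ => ⟨[], []⟩⟩ := by
    unfold sA
    simp only [ZS.mk.injEq, true_and]
    funext k
    cases k <;> simp [zA, Function.update]
  have h4 := h1.seq (h2.seq h3)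
  rw [← e]
  exact h4

end

end Vale.Agent.P338.R2.H968
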