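import Vale.Agent.P338.R2.H898.Zip

/-!
Small library for programs on files.
-/

namespace Vale.Agent.P338.R2.H968

open Vale.Agent.P338.R2.H898 Prog

variable {M F α : Type} [DecidableEq F] {d : α}

/-- Do nothing. -/
def skip : Prog M F α := .prim fun m _ => (m, none)

/-- One operation on one file. -/
def act (f : F) (o : Op α) : Prog M F α := .prim fun m _ => (m, some (f, o))

/-- Change of the memory. -/
def setM (g : M → M) : Prog M F α := .prim fun m _ => (g m, none)

/-- Sequential composition of a list of programs. -/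
def seqL : List (Prog M F α) → Prog M F α
  | [] => skip
  | p :: ps => .seq p (seqL ps)

theorem run_skip (s : Store M F α) : Run d skip s 1 s := Run.prim' rfl

theorem run_act (f : F) (o : Op α) (s : Store M F α) :
    Run d (act f o) s 1 ⟨s.m, Function.update s.z f (o.app d (s.z f))⟩ := Run.prim' rfl

theorem run_setM (g : M → M) (s : Store M F α) : Run d (setM g) s 1 ⟨g s.m, s.z⟩ := Run.prim' rfl

theorem Run.seq' {p q : Prog M F α} {s s1 s2 : Store M F α} {t t' u : ℕ}
    (h : Run d p s t s1) (h' : Run d q s1 t' s2) (hu : t + t' ≤ u) : Run d (.seq p q) s u s2 :=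
  (Run.seq h h').mono hu

@[simp] theorem app_right_cons (l r : List α) (a : α) :
    (Op.right : Op α).app d ⟨l, a :: r⟩ = ⟨a :: l, r⟩ := rfl

@[simp] theorem app_right_nil (l : List α) :
    (Op.right : Op α).app d ⟨l, []⟩ = ⟨d :: l, []⟩ := rfl

@[simp] theorem app_left_cons (l r : List α) (a : α) :
    (Op.left : Op α).app d ⟨a :: l, r⟩ = ⟨l, a :: r⟩ := rfl

@[simp] theorem app_left_nil (r : List α) :
    (Op.left : Op α).app d ⟨[], r⟩ = ⟨[], r⟩ := rfl

@[simp] theorem app_write_cons (l r : List α) (a b : α) :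
    (Op.write b : Op α).app d ⟨l, a :: r⟩ = ⟨l, b :: r⟩ := rfl

@[simp] theorem app_write_nil (l : List α) (b : α) :
    (Op.write b : Op α).app d ⟨l, []⟩ = ⟨l, [b]⟩ := rfl

@[simp] theorem app_trunc (l r : List α) :
    (Op.trunc : Op α).app d ⟨l, r⟩ = ⟨l, []⟩ := rfl

@[simp] theorem app_rew (l r : List α) :
    (Op.rew : Op α).app d ⟨l, r⟩ = ⟨[], l.reverse ++ r⟩ := rfl

@[simp] theorem peek_cons (l r : List α) (a : α) : (⟨l, a :: r⟩ : Zip α).peek = some a := rfl

@[simp] theorem peek_nil (l : List α) : (⟨l, []⟩ : Zip α).peek = none := rfl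

end Vale.Agent.P338.R2.H968
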