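import Vale.Agent.P338.R2.H968.Sim

/-!
Calling the machine `A` with a clock.
-/

namespace Vale.Agent.P338.R2.H968

open Vale.Agent.P338.R2.H898 Prog

variable {A : MTM}

namespace CallEnv

variable {M F α : Type} [DecidableEq F] {d : α} (E : CallEnv A M F α d)

/-- Operation on a tape of `A`. -/
def opT (i : A.Tape) (o : Op α) : Prog M F α := E.primT fun x _ _ => (x, some (.inl i, o))

/-- Operation on a file. -/
def opF (j : CFile) (o : Op α) : Prog M F α := E.primT fun x _ _ => (x, some (.inr j, o))

/-- Code of a bit on a tape of `A`. -/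
def lb (b : Bool) : α := E.enc (A.letter (bitL b))

/-- Load a word on the input tape. -/
def load (j : CFile) : Prog M F α :=
  .loop (E.cond fun _ _ rf => (rf j).isSome)
    (.seq (E.primT fun x _ rf => (x, some (.inl A.inp, .write (E.lb (E.unbit ((rf j).getD d))))))
      (.seq (E.opT A.inp .right) (E.opF j .right)))

open Classical in
theorem run_load (j : CFile) (x : CallMem A) (z : F → Zip α) (m : M) (bs : List Bool)
    (ta : A.Tape → Zip α) (cf : CFile → Zip α) (l u : List α) (hta : ta A.inp = ⟨l, []⟩)
    (hcf : cf j = ⟨u, bs.map E.bit⟩) :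
    Run d (E.load j) (E.St x ta cf z m) (bs.length * 4 + 1)
      (E.St x (Function.update ta A.inp ⟨(bs.map E.lb).reverse ++ l, []⟩)
        (Function.update cf j ⟨(bs.map E.bit).reverse ++ u, []⟩) z m) := by
  induction bs generalizing ta cf l u with
  | nil =>
    have e1 : Function.update ta A.inp ⟨(([] : List Bool).map E.lb).reverse ++ l, []⟩ = ta := by
      simp [← hta]
    have e2 : Function.update cf j ⟨(([] : List Bool).map E.bit).reverse ++ u, []⟩ = cf := by
      have : cf j = ⟨u, []⟩ := by simpa using hcf
      simp [← this]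
    rw [e1, e2]
    refine (Run.loopF ?_).mono (by simp)
    rw [E.cond_eq]
    change (cf j).peek.isSome = false
    rw [hcf]
    rfl
  | cons b bs ih =>
    have h1 := E.run_primT
      (fun x _ rf => (x, some (.inl A.inp, .write (E.lb (E.unbit ((rf j).getD d)))))) x ta cf z m
      rfl
    simp only [hcf, appT, appF, List.map_cons, peek_cons, Option.getD_some, E.unbit_bit,
      hta, app_write_nil] at h1
    have h2 := E.run_tape A.inp .right x (Function.update ta A.inp ⟨l, [E.lb b]⟩) cf z m
    simp only [Function.update_self, app_right_cons, Function.update_idem] at h2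
    have h3 := E.run_file j .right x (Function.update ta A.inp ⟨E.lb b :: l, []⟩) cf z m
    rw [hcf, List.map_cons, app_right_cons] at h3
    have h4 := ih (Function.update ta A.inp ⟨E.lb b :: l, []⟩)
      (Function.update cf j ⟨E.bit b :: u, bs.map E.bit⟩) (E.lb b :: l) (E.bit b :: u)
      (by simp) (by simp)
    simp only [Function.update_idem] at h4
    have hb := Run.seq h1 (Run.seq h2 h3)
    have hc : E.cond (fun _ _ rf => (rf j).isSome) (E.St x ta cf z m).m
        (E.St x ta cf z m).reads = true := by
      rw [E.cond_eq]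
      change (cf j).peek.isSome = true
      rw [hcf]
      rfl
    have h5 := Run.loopT hc hb h4
    have e1 : (List.map E.lb (b :: bs)).reverse ++ l = (List.map E.lb bs).reverse ++ E.lb b :: l := by
      simp
    have e2 : (List.map E.bit (b :: bs)).reverse ++ u =
        (List.map E.bit bs).reverse ++ E.bit b :: u := by
      simp
    rw [e1, e2]
    exact h5.mono (by rw [List.length_cons]; omega)

open Classical in
/-- Copy the result. -/
noncomputable def unload : Prog M F α :=
  .loop (E.cond fun _ rt _ => decide (E.rd rt A.out = A.letter .zero ∨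
      E.rd rt A.out = A.letter .one))
    (.seq (E.primT fun x rt _ =>
        (x, some (.inr .res, .write (E.bit (decide (E.rd rt A.out = A.letter .one))))))
      (.seq (E.opF .res .right) (E.opT A.out .right)))

open Classical in
theorem run_unload (x : CallMem A) (z : F → Zip α) (m : M) (X Y K : Zip α) (bs : List Bool)
    (ta : A.Tape → Zip α) (l r u : List α) (hta : ta A.out = ⟨l, r⟩)
    (hr : ∀ p : ℕ, ((r[p]?).map E.dec).getD A.blank =
      ((bs[p]?).map fun b => A.letter (bitL b)).getD A.blank) :
    ∃ v, Run d E.unload (E.St x ta (cfs X Y K ⟨u, []⟩) z m) (bs.length * 4 + 1)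
      (E.St x (Function.update ta A.out v) (cfs X Y K ⟨(bs.map E.bit).reverse ++ u, []⟩)
        z m) := by
  have hrd : ∀ ta : A.Tape → Zip α, ∀ l r, ta A.out = ⟨l, r⟩ →
      E.rd (fun i => (ta i).peek) A.out = ((r[0]?).map E.dec).getD A.blank := by
    intro ta l r h
    rw [rd, h]
    cases r <;> rfl
  induction bs generalizing ta l r u with
  | nil =>
    refine ⟨ta A.out, ?_⟩
    rw [Function.update_eq_self]
    simp only [List.length_nil, List.map_nil, List.reverse_nil, List.nil_append]
    refine (Run.loopF ?_).mono (by omega)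
    rw [E.cond_eq, hrd ta l r hta, hr 0]
    simp [(A.letter_ne_blank _).symm]
  | cons b bs ih =>
    obtain ⟨a, r, rfl⟩ : ∃ a r', r = a :: r' := by
      rcases r with _ | ⟨a, r⟩
      · have := hr 0
        simp only [List.getElem?_nil, Option.map_none, Option.getD_none, List.getElem?_cons_zero,
          Option.map_some, Option.getD_some] at this
        exact absurd this.symm (A.letter_ne_blank _)
      · exact ⟨a, r, rfl⟩
    have ha : E.dec a = A.letter (bitL b) := by simpa using hr 0
    have hta' : E.rd (fun i => (ta i).peek) A.out = A.letter (bitL b) := by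
      rw [hrd ta _ _ hta]; simpa using ha
    have hone : decide (A.letter (bitL b) = A.letter .one) = b := by
      cases b
      · rw [decide_eq_false_iff_not]
        intro h
        exact absurd (A.letter_inj h) (by decide)
      · simp [bitL]
    have h1 := E.run_primT
      (fun x rt _ => (x, some (.inr .res, .write (E.bit (decide (E.rd rt A.out =
        A.letter .one)))))) x ta (cfs X Y K ⟨u, []⟩) z m rfl
    simp only [appT, appF, cfs_res, app_write_nil, update_cfs_res, hta', hone] at h1
    have h2 := E.run_file .res .right x ta (cfs X Y K ⟨u, [E.bit b]⟩) z m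
    simp only [cfs_res, app_right_cons, update_cfs_res] at h2
    have h3 := E.run_tape A.out .right x ta (cfs X Y K ⟨E.bit b :: u, []⟩) z m
    rw [hta, app_right_cons] at h3
    obtain ⟨v, h4⟩ := ih (Function.update ta A.out ⟨a :: l, r⟩) (a :: l) r (E.bit b :: u)
      (by simp) (fun p => by simpa using hr (p + 1))
    rw [Function.update_idem] at h4
    have hb := Run.seq h1 (Run.seq h2 h3)
    have hc : E.cond (fun _ rt _ => decide (E.rd rt A.out = A.letter .zero ∨
        E.rd rt A.out = A.letter .one)) (E.St x ta (cfs X Y K ⟨u, []⟩) z m).m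
        (E.St x ta (cfs X Y K ⟨u, []⟩) z m).reads = true := by
      rw [E.cond_eq, hta']
      cases b <;> simp [bitL]
    refine ⟨v, ?_⟩
    have h5 := Run.loopT hc hb h4
    have e2 : (List.map E.bit (b :: bs)).reverse ++ u =
        (List.map E.bit bs).reverse ++ E.bit b :: u := by
      simp
    rw [e2]
    exact h5.mono (by rw [List.length_cons]; omega)

/-- Initial memory of a call. -/
def mem0 (A : MTM) : CallMem A := ⟨A.start, fun _ => (A.blank, .stay)⟩

/-- Empty the tapes of `A`. -/
noncomputable def wipe : Prog M F α :=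
  seqL ((tapes A).map fun i => .seq (E.opT i .rew) (E.opT i .trunc))

theorem run_wipe (x : CallMem A) (ta : A.Tape → Zip α) (cf : CFile → Zip α) (z : F → Zip α)
    (m : M) :
    Run d E.wipe (E.St x ta cf z m) ((tapes A).length * 2 + 1)
      (E.St x (fun _ => Zip.nil) cf z m) := by
  classical
  refine E.run_allTapes (f := fun _ _ => Zip.nil) (fun i ta => ?_) ta
  have h1 := E.run_tape i .rew x ta cf z m
  have h2 := E.run_tape i .trunc x (Function.update ta i ((Op.rew : Op α).app d (ta i))) cf z m
  rw [Function.update_self, Function.update_idem] at h2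
  exact Run.seq' h1 h2 le_rfl

/-- Load the input word. -/
def pre : Prog M F α :=
  seqL [.prim fun m _ => (E.put (mem0 A) m, none),
    E.load .opX,
    E.opT A.inp (.write (E.enc (A.letter .hash))),
    E.opT A.inp .right,
    E.load .opY,
    E.opT A.inp .rew,
    E.opF .opX .rew,
    E.opF .opY .rew]

/-- Evaluate the result. -/
noncomputable def fin : Prog M F α :=
  seqL [E.opT A.out .rew,
    E.unload,
    E.opF .res .rew,
    E.wipe,
    E.primT fun _ _ _ => (mem0 A, none)]

/-- Call `A`: the product of the words on the files `opX` and `opY` is written on the file `res`,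
and for every step of `A` a mark is appended to the file `clk`. -/
noncomputable def call : Prog M F α := seqL [E.pre, E.simLoop, E.fin]

open Classical in
theorem run_pre {x y : List Bool} {K : Zip α} (m : M) (z : F → Zip α)
    (htp : ∀ i, z (E.file (.inl i)) = Zip.nil)
    (hX : z (E.file (.inr .opX)) = ⟨[], x.map E.bit⟩)
    (hY : z (E.file (.inr .opY)) = ⟨[], y.map E.bit⟩)
    (hK : z (E.file (.inr .clk)) = K)
    (hR : z (E.file (.inr .res)) = Zip.nil) :
    Run d E.pre ⟨m, z⟩ (4 * x.length + 4 * y.length + 9) (E.St (mem0 A)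
      (Function.update (fun _ => Zip.nil) A.inp
        ⟨[], (mulWord x y).map fun a => E.enc (A.letter a)⟩)
      (cfs ⟨[], x.map E.bit⟩ ⟨[], y.map E.bit⟩ K Zip.nil) z m) := by
  have e0 : Function.extend E.file (Sum.elim (fun _ => Zip.nil) (cfs ⟨[], x.map E.bit⟩
      ⟨[], y.map E.bit⟩ K Zip.nil)) z = z := by
    funext g
    by_cases hg : ∃ i, E.file i = g
    · obtain ⟨i, rfl⟩ := hg
      rw [E.file_inj.extend_apply]
      rcases i with i | j
      · exact (htp i).symm
      · cases j
        · exact hX.symm
        · exact hY.symm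
        · exact hK.symm
        · exact hR.symm
    · exact Function.extend_apply' _ _ _ hg
  have h0 : Run d (.prim fun m _ => (E.put (mem0 A) m, none)) ⟨m, z⟩ 1
      (E.St (mem0 A) (fun _ => Zip.nil) (cfs ⟨[], x.map E.bit⟩
        ⟨[], y.map E.bit⟩ K Zip.nil) z m) := by
    apply Run.prim'
    simp only [appAct, CallEnv.St, e0]
  have h1 := E.run_load .opX (mem0 A) z m x (fun _ => Zip.nil)
    (cfs ⟨[], x.map E.bit⟩ ⟨[], y.map E.bit⟩ K Zip.nil) [] [] rfl rfl
  simp only [List.append_nil, update_cfs_opX] at h1
  have h2 := E.run_tape A.inp (.write (E.enc (A.letter .hash))) (mem0 A)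
    (Function.update (fun _ => Zip.nil) A.inp ⟨(x.map E.lb).reverse, []⟩)
    (cfs ⟨(x.map E.bit).reverse, []⟩ ⟨[], y.map E.bit⟩ K Zip.nil) z m
  simp only [Function.update_self, Function.update_idem, app_write_nil] at h2
  have h3 := E.run_tape A.inp .right (mem0 A)
    (Function.update (fun _ => Zip.nil) A.inp
      ⟨(x.map E.lb).reverse, [E.enc (A.letter .hash)]⟩)
    (cfs ⟨(x.map E.bit).reverse, []⟩ ⟨[], y.map E.bit⟩ K Zip.nil) z m
  simp only [Function.update_self, Function.update_idem, app_right_cons] at h3
  have h4 := E.run_load .opY (mem0 A) z m y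
    (Function.update (fun _ => Zip.nil) A.inp
      ⟨E.enc (A.letter .hash) :: (x.map E.lb).reverse, []⟩)
    (cfs ⟨(x.map E.bit).reverse, []⟩ ⟨[], y.map E.bit⟩ K Zip.nil)
    (E.enc (A.letter .hash) :: (x.map E.lb).reverse) [] (by simp) rfl
  simp only [Function.update_idem, List.append_nil, update_cfs_opY] at h4
  have h5 := E.run_tape A.inp .rew (mem0 A)
    (Function.update (fun _ => Zip.nil) A.inp
      ⟨(y.map E.lb).reverse ++ E.enc (A.letter .hash) :: (x.map E.lb).reverse, []⟩)
    (cfs ⟨(x.map E.bit).reverse, []⟩ ⟨(y.map E.bit).reverse, []⟩ K Zip.nil) z m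
  have e5 : (Op.rew : Op α).app d
      ⟨(y.map E.lb).reverse ++ E.enc (A.letter .hash) :: (x.map E.lb).reverse, []⟩ =
      ⟨[], (mulWord x y).map fun a => E.enc (A.letter a)⟩ := by
    simp only [app_rew, mulWord, List.append_nil, List.reverse_append, List.reverse_cons,
      List.reverse_reverse, List.map_append, List.map_cons, List.map_map, List.append_assoc,
      List.singleton_append]
    rfl
  simp only [Function.update_self, Function.update_idem, e5] at h5
  have h6 := E.run_file .opX .rew (mem0 A)
    (Function.update (fun _ => Zip.nil) A.inp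
      ⟨[], (mulWord x y).map fun a => E.enc (A.letter a)⟩)
    (cfs ⟨(x.map E.bit).reverse, []⟩ ⟨(y.map E.bit).reverse, []⟩ K Zip.nil) z m
  simp only [cfs_opX, update_cfs_opX, app_rew, List.reverse_reverse, List.append_nil] at h6
  have h7 := E.run_file .opY .rew (mem0 A)
    (Function.update (fun _ => Zip.nil) A.inp
      ⟨[], (mulWord x y).map fun a => E.enc (A.letter a)⟩)
    (cfs ⟨[], x.map E.bit⟩ ⟨(y.map E.bit).reverse, []⟩ K Zip.nil) z m
  simp only [cfs_opY, update_cfs_opY, app_rew, List.reverse_reverse, List.append_nil] at h7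
  refine (Run.seq h0 (Run.seq h1 (Run.seq h2 (Run.seq h3 (Run.seq h4 (Run.seq h5 (Run.seq h6
    (Run.seq h7 (run_skip _))))))))).mono (by omega)

open Classical in
theorem run_fin (x : CallMem A) (z : F → Zip α) (m : M) (X Y K : Zip α)
    {bs : List Bool} {c : A.Conf} {ta : A.Tape → Zip α}
    (hr : ∀ i, Rep A E.dec (c.tape i) (c.head i) (ta i))
    (hv : ∀ p, c.tape A.out p = ((bs[p]?).map fun b => A.letter (bitL b)).getD A.blank) :
    Run d E.fin (E.St x ta (cfs X Y K Zip.nil) z m)
      (bs.length * 4 + (tapes A).length * 2 + 6)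
      (E.St (mem0 A) (fun _ => Zip.nil) (cfs X Y K ⟨[], bs.map E.bit⟩) z m) := by
  have h2 := E.run_tape A.out .rew x ta (cfs X Y K Zip.nil) z m
  have e2 : (Op.rew : Op α).app d (ta A.out) = ⟨[], (ta A.out).full⟩ := rfl
  rw [e2] at h2
  obtain ⟨v, h3⟩ := E.run_unload x z m X Y K bs
    (Function.update ta A.out ⟨[], (ta A.out).full⟩) [] (ta A.out).full []
    (by simp) (fun p => by rw [(hr A.out).2 p, hv p])
  rw [Function.update_idem, List.append_nil] at h3
  have g1 := E.run_file .res .rew x (Function.update ta A.out v)
    (cfs X Y K ⟨(bs.map E.bit).reverse, []⟩) z m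
  simp only [cfs_res, update_cfs_res, app_rew, List.append_nil, List.reverse_reverse] at g1
  have g2 := E.run_wipe x (Function.update ta A.out v) (cfs X Y K ⟨[], bs.map E.bit⟩) z m
  have g5 := E.run_primT (fun _ _ _ => (mem0 A, none)) x
    (fun _ => Zip.nil) (cfs X Y K ⟨[], bs.map E.bit⟩) z m rfl
  simp only [appT, appF] at g5
  exact (Run.seq h2 (Run.seq h3 (Run.seq g1 (Run.seq g2 (Run.seq g5 (run_skip _)))))).mono
    (by omega)

/-- The constant of a call. -/
noncomputable def callC (A : MTM) : ℕ := 4 * (tapes A).length + 40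

theorem extend_update_eq {X Y K K' R R' : Zip α} {z : F → Zip α}
    (htp : ∀ i, z (E.file (.inl i)) = Zip.nil)
    (hX : z (E.file (.inr .opX)) = X)
    (hY : z (E.file (.inr .opY)) = Y)
    (_hK : z (E.file (.inr .clk)) = K)
    (_hR : z (E.file (.inr .res)) = R) :
    Function.extend E.file (Sum.elim (fun _ => Zip.nil) (cfs X Y K' R')) z =
      Function.update (Function.update z (E.file (.inr .res)) R') (E.file (.inr .clk)) K' := by
  have hne : E.file (.inr .res) ≠ E.file (.inr .clk) := fun h => by
    simpa using E.file_inj h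
  funext g
  by_cases hg : ∃ i, E.file i = g
  · obtain ⟨i, rfl⟩ := hg
    rw [E.file_inj.extend_apply]
    rcases i with i | j
    · rw [Function.update_of_ne (fun h => by simpa using E.file_inj h),
        Function.update_of_ne (fun h => by simpa using E.file_inj h)]
      exact (htp i).symm
    · cases j
      · rw [Function.update_of_ne (fun h => by simpa using E.file_inj h),
          Function.update_of_ne (fun h => by simpa using E.file_inj h)]
        exact hX.symm
      · rw [Function.update_of_ne (fun h => by simpa using E.file_inj h),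
          Function.update_of_ne (fun h => by simpa using E.file_inj h)]
        exact hY.symm
      · simp
      · rw [Function.update_of_ne hne]
        simp
  · rw [Function.extend_apply' _ _ _ hg, Function.update_of_ne, Function.update_of_ne]
    · rintro rfl
      exact hg ⟨_, rfl⟩
    · rintro rfl
      exact hg ⟨_, rfl⟩

/-- **A call of `A`**: operands on `opX` and `opY` (kept), the product on `res` (rewound), one
mark on `clk` for every step of `A`, tapes of `A` empty. -/
theorem run_call (hA : Multiplies A) {n : ℕ} (hn : 1 ≤ n) {x y : List Bool}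
    (hx : x.length = n) (hy : y.length = n) {u : List α} (m : M) (z : F → Zip α)
    (htp : ∀ i, z (E.file (.inl i)) = Zip.nil)
    (hX : z (E.file (.inr .opX)) = ⟨[], x.map E.bit⟩)
    (hY : z (E.file (.inr .opY)) = ⟨[], y.map E.bit⟩)
    (hK : z (E.file (.inr .clk)) = ⟨u, []⟩)
    (hR : z (E.file (.inr .res)) = Zip.nil) :
    Run d E.call ⟨m, z⟩ (callC A * (A.time (mulWord x y) + n))
      ⟨E.put (mem0 A) m, Function.update (Function.update z (E.file (.inr .res))
        ⟨[], (bin (2 * n) (val x * val y)).map E.bit⟩) (E.file (.inr .clk))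
        ⟨List.replicate (A.time (mulWord x y)) E.mark ++ u, []⟩⟩ := by
  classical
  obtain ⟨hhalt, hres⟩ := hA n hn x y hx hy
  have hpre := E.run_pre m z htp hX hY hK hR
  set w := mulWord x y with hw
  set T := A.time w with hT
  have hTh : A.Halted (A.next^[T] (A.init w)) :=
    Nat.sInf_mem (s := {t | A.Halted (A.conf w t)}) hhalt
  have hTn : ∀ j < T, ¬ A.Halted (A.next^[j] (A.init w)) := fun j hj =>
    Nat.notMem_of_lt_sInf (s := {t | A.Halted (A.conf w t)}) hj
  have hrep : ∀ i, Rep A E.dec ((A.init w).tape i) ((A.init w).head i)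
      (Function.update (fun _ => Zip.nil) A.inp
        ⟨[], w.map fun a => E.enc (A.letter a)⟩ i : Zip α) := by
    intro i
    refine ⟨?_, fun p => ?_⟩
    · by_cases h : i = A.inp
      · subst h; simp [MTM.init]
      · rw [Function.update_of_ne h]; rfl
    · by_cases h : i = A.inp
      · subst h
        simp only [Function.update_self, Zip.full, List.reverse_nil, List.nil_append, MTM.init,
          if_true, List.getElem?_map, Option.map_map]
        congr 2
        funext a
        exact E.dec_enc _
      · rw [Function.update_of_ne h]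
        simp [Zip.full, Zip.nil, MTM.init, h]
  obtain ⟨ta', ac', hr, hsim⟩ := E.run_simLoop ⟨[], x.map E.bit⟩ ⟨[], y.map E.bit⟩ Zip.nil z m T
      (A.init w) _ u (fun _ => (A.blank, .stay)) hrep hTn hTh
  have hfin := E.run_fin (bs := bin (2 * n) (val x * val y))
    ⟨(A.next^[T] (A.init w)).state, ac'⟩ z m ⟨[], x.map E.bit⟩ ⟨[], y.map E.bit⟩
    ⟨List.replicate T E.mark ++ u, []⟩ hr (fun p => by
      have := hres p
      rw [List.getElem?_map, Option.map_map] at this
      exact this)
  have hall := Run.seq hpre (Run.seq hsim (Run.seq hfin (run_skip _)))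
  simp only [CallEnv.St] at hall
  rw [E.extend_update_eq htp hX hY hK hR] at hall
  refine hall.mono ?_
  have hb : (bin (2 * n) (val x * val y)).length = 2 * n := by simp [bin]
  rw [hb, callC, hx, hy]
  have h1 : 1 ≤ T + n := by omega
  nlinarith [Nat.zero_le ((tapes A).length * T), Nat.zero_le ((tapes A).length * n),
    Nat.mul_le_mul_left (tapes A).length h1]

end CallEnv

end Vale.Agent.P338.R2.H968
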