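import Vale.Agent.P338.R2.H784.Prep

/-!
P338: programs on unary files, with exact statements.
-/

namespace Vale.Agent.P338.R2.H968

open Vale.Agent.P338.R2.H898
open Vale.Agent.P338.R2.H784
open Function (update)

set_option linter.unusedSectionVars false

variable {M F α : Type} [DecidableEq F] {d u : α} {m : M} {v : F → ℕ × ℕ}

/-- The store in which each file `f` consists of `(v f).1` marks to the left of the head and
`(v f).2` marks from the head on. -/
def ps (u : α) (m : M) (v : F → ℕ × ℕ) : Store M F α :=
  ⟨m, fun f => ⟨List.replicate (v f).1 u, List.replicate (v f).2 u⟩⟩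

theorem ps_isSome (f : F) : ((ps u m v).reads f).isSome = decide (0 < (v f).2) := by
  simp only [Store.reads, ps, Zip.peek]
  rcases (v f).2 with _ | j <;> simp [List.replicate_succ]

theorem ps_len (f : F) : Len u (v f).1 (v f).2 ((ps u m v).z f) := rfl

theorem ps_update (f : F) (x : ℕ × ℕ) :
    (⟨m, update (ps u m v).z f ⟨List.replicate x.1 u, List.replicate x.2 u⟩⟩ : Store M F α) =
      ps u m (update v f x) := by
  simp only [ps, Store.mk.injEq, true_and]
  funext g
  by_cases hg : g = f
  · subst hg; simp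
  · rw [Function.update_of_ne hg, Function.update_of_ne hg]

/-- A store that agrees with `ps` outside `f`. -/
theorem eq_ps {f : F} {s : Store M F α} {i j : ℕ} (h1 : Len u i j (s.z f))
    (h2 : Keep [f] (ps u m v) s) : s = ps u m (update v f (i, j)) := by
  rcases s with ⟨m', z⟩
  obtain ⟨h3, h4⟩ := h2
  simp only [ps] at h3
  subst h3
  rw [← ps_update]
  simp only [Store.mk.injEq, true_and]
  funext g
  by_cases hg : g = f
  · subst hg
    rw [Function.update_self]
    exact h1
  · rw [Function.update_of_ne hg]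
    exact h4 g (by simpa using hg)

theorem run_of_tri1 {f : F} {p : Prog M F α} {c i j : ℕ}
    (h : Tri d p (ps u m v) c (fun s' => Len u i j (s'.z f) ∧ Keep [f] (ps u m v) s')) :
    Prog.Run d p (ps u m v) c (ps u m (update v f (i, j))) := by
  obtain ⟨s', h1, h2, h3⟩ := h
  rw [← eq_ps h2 h3]
  exact h1

theorem runp_right {f : F} {i j : ℕ} (h : v f = (i, j + 1)) :
    Prog.Run d (op f .right) (ps u m v) 1 (ps u m (update v f (i + 1, j))) := by
  refine run_of_tri1 (tri_right ?_)
  have := ps_len (u := u) (m := m) (v := v) f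
  rwa [h] at this

theorem runp_put {f : F} {i : ℕ} (h : v f = (i, 0)) :
    Prog.Run d (put f u) (ps u m v) 2 (ps u m (update v f (i + 1, 0))) := by
  refine run_of_tri1 (tri_put ?_)
  have := ps_len (u := u) (m := m) (v := v) f
  rwa [h] at this

theorem runp_rew (f : F) :
    Prog.Run d (op f .rew) (ps u m v) 1 (ps u m (update v f (0, (v f).1 + (v f).2))) :=
  run_of_tri1 (tri_rew (ps_len f))

theorem runp_clr (f : F) :
    Prog.Run d (clr f) (ps u m v) 2 (ps u m (update v f (0, 0))) :=
  run_of_tri1 ((tri_clr f _).post fun _ ⟨h1, h2⟩ => ⟨h1, h2⟩)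

theorem runp_nop : Prog.Run d (nop : Prog M F α) (ps u m v) 1 (ps u m v) := run_nop _ _

theorem runp_inc {f : F} {n : ℕ} (h : v f = (0, n)) :
    Prog.Run d (incU f u) (ps u m v) (2 * n + 4) (ps u m (update v f (0, n + 1))) := by
  refine run_of_tri1 (tri_incU ?_)
  have := ps_len (u := u) (m := m) (v := v) f
  rwa [h] at this

/-- Two files change. -/
theorem eq_ps2 {f g : F} (hfg : f ≠ g) {s : Store M F α} {i j i' j' : ℕ}
    (h1 : Len u i j (s.z f)) (h1' : Len u i' j' (s.z g))
    (h2 : Keep [f, g] (ps u m v) s) : s = ps u m (update (update v f (i, j)) g (i', j')) := by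
  rcases s with ⟨m', z⟩
  obtain ⟨h3, h4⟩ := h2
  simp only [ps] at h3
  subst h3
  simp only [ps, Store.mk.injEq, true_and]
  funext x
  by_cases hx : x = g
  · subst hx
    rw [Function.update_self]
    exact h1'
  · rw [Function.update_of_ne hx]
    by_cases hx2 : x = f
    · subst hx2
      rw [Function.update_self]
      exact h1
    · rw [Function.update_of_ne hx2]
      exact h4 x (by simp [hx, hx2])

theorem runp_cp {a b : F} (hab : a ≠ b) {n : ℕ} (h : v a = (0, n)) :
    Prog.Run d (cpU a b u) (ps u m v) (4 * n + 5) (ps u m (update v b (0, n))) := by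
  have h1 := ps_len (u := u) (m := m) (v := v) a
  rw [h] at h1
  obtain ⟨s', h2, h3, h4, h5⟩ := tri_cpU (d := d) hab h1
  have h6 := eq_ps2 hab h4 h3 h5
  have h7 : update v a (0, n) = v := by
    rw [← h]
    exact Function.update_eq_self _ _
  simp only [h7] at h6
  rw [← h6]
  exact h2

theorem runp_mv {a b : F} (hab : a ≠ b) {i j k : ℕ} (ha : v a = (i, j)) (hb : v b = (k, 0)) :
    Prog.Run d (mvU a b u) (ps u m v) (4 * j + 1)
      (ps u m (update (update v a (i + j, 0)) b (k + j, 0))) := by
  have h1 := ps_len (u := u) (m := m) (v := v) a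
  have h2 := ps_len (u := u) (m := m) (v := v) b
  rw [ha] at h1
  rw [hb] at h2
  obtain ⟨s', h3, h4, h5, h6⟩ := tri_mvU (d := d) hab h1 h2
  rw [← eq_ps2 hab h4 h5 h6]
  exact h3

/-- Loops over a ruler. -/
theorem runp_for {f : F} {p : Prog M F α} {n t : ℕ} (V : ℕ → F → ℕ × ℕ)
    (h : ∀ i < n, Prog.Run d p (ps u m (update (V i) f (i, n - i))) t
      (ps u m (update (V (i + 1)) f (i, n - i)))) :
    Prog.Run d (forU f p) (ps u m (update (V 0) f (0, n))) (n * (t + 2) + 2)
      (ps u m (update (V n) f (0, n))) := by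
  have h1 := Prog.Run.loop_const (d := d) (c := fun _ r => (r f).isSome)
    (p := .seq p (op f .right)) n (fun i => ps u m (update (V i) f (i, n - i))) (t + 1) ?_ ?_ ?_
  · have h2 := runp_rew (d := d) (u := u) (m := m) (v := update (V n) f (n, n - n)) f
    have h3 := h1.seq h2
    simp only [Function.update_self, Nat.sub_zero, Nat.sub_self, Nat.add_zero,
      Function.update_idem] at h3
    exact h3.mono (by ring_nf; omega)
  · intro i hi
    rw [ps_isSome]
    simp only [Function.update_self, decide_eq_true_eq]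
    omega
  · rw [ps_isSome]
    simp
  · intro i hi
    obtain ⟨j, hj⟩ : ∃ j, n - i = j + 1 := ⟨n - i - 1, by omega⟩
    have h2 := runp_right (d := d) (u := u) (m := m) (v := update (V (i + 1)) f (i, n - i))
      (f := f) (i := i) (j := j) (by rw [Function.update_self, hj])
    rw [Function.update_idem] at h2
    have e : n - (i + 1) = j := by omega
    rw [e]
    exact (h i hi).seq h2

/-- Loops over a ruler, for a function given by its values. -/
theorem runp_for' {f : F} {p : Prog M F α} {n t : ℕ} (V : ℕ → F → ℕ × ℕ) {v w : F → ℕ × ℕ}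
    (hv : v = update (V 0) f (0, n)) (hw : w = update (V n) f (0, n))
    (h : ∀ i < n, Prog.Run d p (ps u m (update (V i) f (i, n - i))) t
      (ps u m (update (V (i + 1)) f (i, n - i)))) :
    Prog.Run d (forU f p) (ps u m v) (n * (t + 2) + 2) (ps u m w) := by
  rw [hv, hw]
  exact runp_for V h

theorem runp_congr {p : Prog M F α} {v v' w w' : F → ℕ × ℕ} {t t' : ℕ}
    (h : Prog.Run d p (ps u m v) t (ps u m w)) (hv : v' = v) (hw : w = w') (ht : t ≤ t') :
    Prog.Run d p (ps u m v') t' (ps u m w') := by
  subst hv hw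
  exact h.mono ht

end Vale.Agent.P338.R2.H968
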