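import Vale.Agent.P338.R2.H968.Ruler

/-!
The direct pass: exchange of two index bits by copying.
-/

namespace Vale.Agent.P338.R2.H968

open Vale.Agent.P338.R2.H898 Prog

section lists

variable {α : Type}

/-- The first `i` blocks. -/
def don (f : ℕ → List α) (i : ℕ) : List α := (List.range i).flatMap f

/-- The blocks from the `i`-th on. -/
def rem (f : ℕ → List α) (i n : ℕ) : List α := (List.range' i (n - i)).flatMap f

theorem don_zero (f : ℕ → List α) : don f 0 = [] := rfl

theorem don_succ (f : ℕ → List α) (i : ℕ) : don f (i + 1) = don f i ++ f i := by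
  simp [don, List.range_succ, List.flatMap_append]

theorem rem_zero (f : ℕ → List α) (n : ℕ) : rem f 0 n = don f n := by
  simp [rem, don, List.range_eq_range']

theorem rem_self (f : ℕ → List α) (n : ℕ) : rem f n n = [] := by
  simp [rem]

theorem rem_succ (f : ℕ → List α) {i n : ℕ} (h : i < n) : rem f i n = f i ++ rem f (i + 1) n := by
  rw [rem, rem]
  obtain ⟨k, hk⟩ : ∃ k, n - i = k + 1 := ⟨n - i - 1, by omega⟩
  have hk' : n - (i + 1) = k := by omega
  rw [hk, hk', List.range'_succ, List.flatMap_cons]

theorem don_length (f : ℕ → List α) (n c : ℕ) (h : ∀ i < n, (f i).length = c) :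
    (don f n).length = n * c := by
  induction n with
  | zero => simp [don_zero]
  | succ n ih =>
    rw [don_succ, List.length_append, ih (fun i hi => h i (by omega)), h n (by omega)]
    ring

end lists

variable {M F α : Type} [DecidableEq F] {d : α}

/-- Distribute blocks alternately to `A` and `B`. -/
def dist2 (e : α) (src A B rG rL : F) : Prog M F α :=
  forR rG (.seq (copyN e src A rL) (copyN e src B rL))

/-- Collect blocks alternately from `A` and `B`. -/
def gath2 (e : α) (A B dst rG rL : F) : Prog M F α :=
  forR rG (.seq (copyN e A dst rL) (copyN e B dst rL))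

theorem run_dist2 {e : α} {src A B rG rL : F} (hnd : [src, A, B, rG, rL].Nodup)
    {P Q : ℕ → List α} {u va vb rest RG RL : List α} {m : M} {z : F → Zip α}
    (hP : ∀ i < RG.length, (P i).length = RL.length)
    (hQ : ∀ i < RG.length, (Q i).length = RL.length)
    (hs : z src = ⟨u, don (fun i => P i ++ Q i) RG.length ++ rest⟩)
    (hA : z A = ⟨va, []⟩) (hB : z B = ⟨vb, []⟩) (hG : z rG = ⟨[], RG⟩) (hL : z rL = ⟨[], RL⟩) :
    Run d (dist2 e src A B rG rL) ⟨m, z⟩ (RG.length * (RL.length * 10 + 6) + 2)
      ⟨m, Function.update (Function.update (Function.update z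
        src ⟨(don (fun i => P i ++ Q i) RG.length).reverse ++ u, rest⟩)
        A ⟨(don P RG.length).reverse ++ va, []⟩) B ⟨(don Q RG.length).reverse ++ vb, []⟩⟩ := by
  simp only [List.nodup_cons, List.mem_cons, List.not_mem_nil, or_false, not_or, not_false_eq_true,
    List.nodup_nil, and_true] at hnd
  obtain ⟨⟨n1, n2, n3, n4⟩, ⟨n5, n6, n7⟩, ⟨n8, n9⟩, n10⟩ := hnd
  set n := RG.length with hn
  have h1 := run_forR (d := d) (r := rG) (p := .seq (copyN e src A rL) (copyN e src B rL))
    (R := RG) (m := m)
    (fun i => Function.update (Function.update (Function.update z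
        src ⟨(don (fun i => P i ++ Q i) i).reverse ++ u, rem (fun i => P i ++ Q i) i n ++ rest⟩)
        A ⟨(don P i).reverse ++ va, []⟩) B ⟨(don Q i).reverse ++ vb, []⟩) (RL.length * 10 + 4)
    (fun i => by
      rw [Function.update_of_ne (Ne.symm n8), Function.update_of_ne (Ne.symm n6),
        Function.update_of_ne (Ne.symm n3), hG])
    (fun i hi => by
      have h2 := run_copyN (d := d) (e := e) (f := src) (g := A) (r := rL) n1 n4 n7
        (x := P i) (u := (don (fun i => P i ++ Q i) i).reverse ++ u)
        (y := Q i ++ (rem (fun i => P i ++ Q i) (i + 1) n ++ rest))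
        (v := (don P i).reverse ++ va) (R := RL) (m := m)
        (z := Function.update (Function.update (Function.update (Function.update z
          src ⟨(don (fun i => P i ++ Q i) i).reverse ++ u, rem (fun i => P i ++ Q i) i n ++ rest⟩)
          A ⟨(don P i).reverse ++ va, []⟩) B ⟨(don Q i).reverse ++ vb, []⟩) rG (zipAt RG i))
        (hP i hi)
        (by
          rw [Function.update_of_ne n3, Function.update_of_ne n2, Function.update_of_ne n1,
            Function.update_self, rem_succ _ hi]
          simp
          rfl)
        (by
          rw [Function.update_of_ne n6, Function.update_of_ne n5, Function.update_self])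
        (by
          rw [Function.update_of_ne (Ne.symm n10), Function.update_of_ne (Ne.symm n9),
            Function.update_of_ne (Ne.symm n7), Function.update_of_ne (Ne.symm n4), hL])
      have h3 := run_copyN (d := d) (e := e) (f := src) (g := B) (r := rL) n2 n4 n9
        (x := Q i) (u := (P i).reverse ++ ((don (fun i => P i ++ Q i) i).reverse ++ u))
        (y := rem (fun i => P i ++ Q i) (i + 1) n ++ rest)
        (v := (don Q i).reverse ++ vb) (R := RL) (m := m)
        (z := Function.update (Function.update (Function.update (Function.update
          (Function.update (Function.update z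
          src ⟨(don (fun i => P i ++ Q i) i).reverse ++ u, rem (fun i => P i ++ Q i) i n ++ rest⟩)
          A ⟨(don P i).reverse ++ va, []⟩) B ⟨(don Q i).reverse ++ vb, []⟩) rG (zipAt RG i))
          src ⟨(P i).reverse ++ ((don (fun i => P i ++ Q i) i).reverse ++ u),
            Q i ++ (rem (fun i => P i ++ Q i) (i + 1) n ++ rest)⟩)
          A ⟨(P i).reverse ++ ((don P i).reverse ++ va), []⟩)
        (hQ i hi)
        (by
          rw [Function.update_of_ne n1, Function.update_self])
        (by
          rw [Function.update_of_ne (Ne.symm n5), Function.update_of_ne (Ne.symm n2),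
            Function.update_of_ne n8, Function.update_self])
        (by
          rw [Function.update_of_ne (Ne.symm n7), Function.update_of_ne (Ne.symm n4),
            Function.update_of_ne (Ne.symm n10), Function.update_of_ne (Ne.symm n9),
            Function.update_of_ne (Ne.symm n7), Function.update_of_ne (Ne.symm n4), hL])
      have h4 := Run.seq h2 h3
      have e0 : (don (fun i => P i ++ Q i) (i + 1)).reverse ++ u = (Q i).reverse ++
          ((P i).reverse ++ ((don (fun i => P i ++ Q i) i).reverse ++ u)) := by
        rw [don_succ]; simp
      have e1 : (don P (i + 1)).reverse ++ va = (P i).reverse ++ ((don P i).reverse ++ va) := by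
        rw [don_succ]; simp
      have e2 : (don Q (i + 1)).reverse ++ vb = (Q i).reverse ++ ((don Q i).reverse ++ vb) := by
        rw [don_succ]; simp
      rw [e0, e1, e2]
      have h5 := h4.mono (t' := RL.length * 10 + 4) (by omega)
      convert h5 using 2
      funext k
      simp only [Function.update_apply]
      split_ifs <;> simp_all)
  simp only [don_zero, rem_zero, rem_self, List.reverse_nil, List.nil_append, ← hn] at h1
  rw [upd_self z src _ hs, upd_self z A _ hA, upd_self z B _ hB] at h1
  exact h1.mono (by ring_nf; omega)

theorem run_gath2 {e : α} {A B dst rG rL : F} (hnd : [A, B, dst, rG, rL].Nodup)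
    {P Q : ℕ → List α} {ua ub ra rb v RG RL : List α} {m : M} {z : F → Zip α}
    (hP : ∀ i < RG.length, (P i).length = RL.length)
    (hQ : ∀ i < RG.length, (Q i).length = RL.length)
    (hA : z A = ⟨ua, don P RG.length ++ ra⟩) (hB : z B = ⟨ub, don Q RG.length ++ rb⟩)
    (hd : z dst = ⟨v, []⟩) (hG : z rG = ⟨[], RG⟩) (hL : z rL = ⟨[], RL⟩) :
    Run d (gath2 e A B dst rG rL) ⟨m, z⟩ (RG.length * (RL.length * 10 + 6) + 2)
      ⟨m, Function.update (Function.update (Function.update z
        A ⟨(don P RG.length).reverse ++ ua, ra⟩) B ⟨(don Q RG.length).reverse ++ ub, rb⟩)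
        dst ⟨(don (fun i => P i ++ Q i) RG.length).reverse ++ v, []⟩⟩ := by
  simp only [List.nodup_cons, List.mem_cons, List.not_mem_nil, or_false, not_or, not_false_eq_true,
    List.nodup_nil, and_true] at hnd
  obtain ⟨⟨n1, n2, n3, n4⟩, ⟨n5, n6, n7⟩, ⟨n8, n9⟩, n10⟩ := hnd
  set n := RG.length with hn
  have h1 := run_forR (d := d) (r := rG) (p := .seq (copyN e A dst rL) (copyN e B dst rL))
    (R := RG) (m := m)
    (fun i => Function.update (Function.update (Function.update z
        A ⟨(don P i).reverse ++ ua, rem P i n ++ ra⟩)
        B ⟨(don Q i).reverse ++ ub, rem Q i n ++ rb⟩)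
        dst ⟨(don (fun i => P i ++ Q i) i).reverse ++ v, []⟩) (RL.length * 10 + 4)
    (fun i => by
      rw [Function.update_of_ne (Ne.symm n8), Function.update_of_ne (Ne.symm n6),
        Function.update_of_ne (Ne.symm n3), hG])
    (fun i hi => by
      have h2 := run_copyN (d := d) (e := e) (f := A) (g := dst) (r := rL) n2 n4 n9
        (x := P i) (u := (don P i).reverse ++ ua)
        (y := rem P (i + 1) n ++ ra)
        (v := (don (fun i => P i ++ Q i) i).reverse ++ v) (R := RL) (m := m)
        (z := Function.update (Function.update (Function.update (Function.update z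
          A ⟨(don P i).reverse ++ ua, rem P i n ++ ra⟩)
          B ⟨(don Q i).reverse ++ ub, rem Q i n ++ rb⟩)
          dst ⟨(don (fun i => P i ++ Q i) i).reverse ++ v, []⟩) rG (zipAt RG i))
        (hP i hi)
        (by
          rw [Function.update_of_ne n3, Function.update_of_ne n2, Function.update_of_ne n1,
            Function.update_self, rem_succ _ hi]
          simp
          rfl)
        (by
          rw [Function.update_of_ne n8, Function.update_self])
        (by
          rw [Function.update_of_ne (Ne.symm n10), Function.update_of_ne (Ne.symm n9),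
            Function.update_of_ne (Ne.symm n7), Function.update_of_ne (Ne.symm n4), hL])
      have h3 := run_copyN (d := d) (e := e) (f := B) (g := dst) (r := rL) n5 n7 n9
        (x := Q i) (u := (don Q i).reverse ++ ub)
        (y := rem Q (i + 1) n ++ rb)
        (v := (P i).reverse ++ ((don (fun i => P i ++ Q i) i).reverse ++ v)) (R := RL) (m := m)
        (z := Function.update (Function.update (Function.update (Function.update
          (Function.update (Function.update z
          A ⟨(don P i).reverse ++ ua, rem P i n ++ ra⟩)
          B ⟨(don Q i).reverse ++ ub, rem Q i n ++ rb⟩)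
          dst ⟨(don (fun i => P i ++ Q i) i).reverse ++ v, []⟩) rG (zipAt RG i))
          A ⟨(P i).reverse ++ ((don P i).reverse ++ ua), rem P (i + 1) n ++ ra⟩)
          dst ⟨(P i).reverse ++ ((don (fun i => P i ++ Q i) i).reverse ++ v), []⟩)
        (hQ i hi)
        (by
          rw [Function.update_of_ne n5, Function.update_of_ne (Ne.symm n1),
            Function.update_of_ne n6, Function.update_of_ne n5, Function.update_self,
            rem_succ _ hi]
          simp
          rfl)
        (by
          rw [Function.update_self])
        (by
          rw [Function.update_of_ne (Ne.symm n9), Function.update_of_ne (Ne.symm n4),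
            Function.update_of_ne (Ne.symm n10), Function.update_of_ne (Ne.symm n9),
            Function.update_of_ne (Ne.symm n7), Function.update_of_ne (Ne.symm n4), hL])
      have h4 := Run.seq h2 h3
      have e0 : (don (fun i => P i ++ Q i) (i + 1)).reverse ++ v = (Q i).reverse ++
          ((P i).reverse ++ ((don (fun i => P i ++ Q i) i).reverse ++ v)) := by
        rw [don_succ]; simp
      have e1 : (don P (i + 1)).reverse ++ ua = (P i).reverse ++ ((don P i).reverse ++ ua) := by
        rw [don_succ]; simp
      have e2 : (don Q (i + 1)).reverse ++ ub = (Q i).reverse ++ ((don Q i).reverse ++ ub) := by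
        rw [don_succ]; simp
      rw [e0, e1, e2]
      have h5 := h4.mono (t' := RL.length * 10 + 4) (by omega)
      convert h5 using 2
      funext k
      simp only [Function.update_apply]
      split_ifs <;> simp_all)
  simp only [don_zero, rem_zero, rem_self, List.reverse_nil, List.nil_append, ← hn] at h1
  rw [upd_self z A _ hA, upd_self z B _ hB, upd_self z dst _ hd] at h1
  exact h1.mono (by ring_nf; omega)

end Vale.Agent.P338.R2.H968
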