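import Vale.Agent.P338.R2.H968.Direct
import Vale.Agent.P338.R2.H898.Frame

/-!
The direct pass as a program.
-/

namespace Vale.Agent.P338.R2.H968

open Vale.Agent.P338.R2.H898 Prog

/-- Files of the direct pass. -/
inductive DFile
  | dat
  | a
  | b
  | c
  | e
  | rK
  | rG
  | rL
  deriving DecidableEq

/-- Stores of the direct pass. -/
def ds {α : Type} (D A B C E : Zip α) (K G L : List α) : DFile → Zip α
  | .dat => D
  | .a => A
  | .b => B
  | .c => C
  | .e => E
  | .rK => ⟨[], K⟩
  | .rG => ⟨[], G⟩
  | .rL => ⟨[], L⟩

section ds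

variable {α : Type} (D A B C E v : Zip α) (K G L : List α)

@[simp] theorem ds_dat : ds D A B C E K G L .dat = D := rfl
@[simp] theorem ds_a : ds D A B C E K G L .a = A := rfl
@[simp] theorem ds_b : ds D A B C E K G L .b = B := rfl
@[simp] theorem ds_c : ds D A B C E K G L .c = C := rfl
@[simp] theorem ds_e : ds D A B C E K G L .e = E := rfl
@[simp] theorem ds_rK : ds D A B C E K G L .rK = ⟨[], K⟩ := rfl
@[simp] theorem ds_rG : ds D A B C E K G L .rG = ⟨[], G⟩ := rfl
@[simp] theorem ds_rL : ds D A B C E K G L .rL = ⟨[], L⟩ := rfl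

@[simp] theorem update_ds_dat :
    Function.update (ds D A B C E K G L) .dat v = ds v A B C E K G L := by
  funext j; cases j <;> rfl
@[simp] theorem update_ds_a :
    Function.update (ds D A B C E K G L) .a v = ds D v B C E K G L := by
  funext j; cases j <;> rfl
@[simp] theorem update_ds_b :
    Function.update (ds D A B C E K G L) .b v = ds D A v C E K G L := by
  funext j; cases j <;> rfl
@[simp] theorem update_ds_c :
    Function.update (ds D A B C E K G L) .c v = ds D A B v E K G L := by
  funext j; cases j <;> rfl
@[simp] theorem update_ds_e :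
    Function.update (ds D A B C E K G L) .e v = ds D A B C v K G L := by
  funext j; cases j <;> rfl

end ds

/-- The array with index bits `x` and `y`. -/
def arr {α : Type} (V : ℕ → ℕ → ℕ → ℕ → List α) (K G : ℕ) : List α :=
  don (fun k => don (fun g => V k 0 g 0 ++ V k 0 g 1) G ++
    don (fun g => V k 1 g 0 ++ V k 1 g 1) G) K

theorem arr_eq {α : Type} (V : ℕ → ℕ → ℕ → ℕ → List α) (K G : ℕ) :
    arr V K G = (List.range K).flatMap fun k => (List.range 2).flatMap fun x =>
      (List.range G).flatMap fun g => (List.range 2).flatMap fun y => V k x g y := by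
  simp [arr, don, List.range_succ]

variable {M F α : Type} [DecidableEq F] {d : α}

/-- Distribute the array to four files. -/
def distD (e : α) : Prog M DFile α :=
  forR .rK (.seq (dist2 e .dat .a .b .rG .rL) (dist2 e .dat .c .e .rG .rL))

/-- Collect the array with the index bits exchanged. -/
def gathD (e : α) : Prog M DFile α :=
  forR .rK (.seq (gath2 e .a .c .dat .rG .rL) (gath2 e .b .e .dat .rG .rL))

/-- The direct pass. -/
def directD (e : α) : Prog M DFile α :=
  seqL [distD e, act .dat .rew, act .dat .trunc, act .a .rew, act .b .rew, act .c .rew,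
    act .e .rew, gathD e, act .dat .rew, act .a .rew, act .a .trunc, act .b .rew, act .b .trunc,
    act .c .rew, act .c .trunc, act .e .rew, act .e .trunc]

theorem step_act {f : F} {o : Op α} {z z' : F → Zip α} {m : M} {p : Prog M F α} {t : ℕ}
    {s' : Store M F α} (hz : Function.update z f (o.app d (z f)) = z')
    (h : Run d p ⟨m, z'⟩ t s') : Run d (.seq (act f o) p) ⟨m, z⟩ (t + 1) s' := by
  subst hz
  exact Run.seq' (run_act f o _) h (by omega)

theorem run_distD {e : α} {V : ℕ → ℕ → ℕ → ℕ → List α} {K G L : List α} {m : M}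
    (hV : ∀ k < K.length, ∀ x < 2, ∀ g < G.length, ∀ y < 2, (V k x g y).length = L.length) :
    Run d (distD e) ⟨m, ds ⟨[], arr V K.length G.length⟩ Zip.nil Zip.nil Zip.nil Zip.nil K G L⟩
      (K.length * (2 * (G.length * (L.length * 10 + 6) + 2) + 2) + 2)
      ⟨m, ds ⟨(arr V K.length G.length).reverse, []⟩
        ⟨(don (fun k => don (fun g => V k 0 g 0) G.length) K.length).reverse, []⟩
        ⟨(don (fun k => don (fun g => V k 0 g 1) G.length) K.length).reverse, []⟩
        ⟨(don (fun k => don (fun g => V k 1 g 0) G.length) K.length).reverse, []⟩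
        ⟨(don (fun k => don (fun g => V k 1 g 1) G.length) K.length).reverse, []⟩ K G L⟩ := by
  obtain ⟨W, hW⟩ : ∃ W : ℕ → List α, W = fun k =>
    don (fun g => V k 0 g 0 ++ V k 0 g 1) G.length ++
    don (fun g => V k 1 g 0 ++ V k 1 g 1) G.length := ⟨_, rfl⟩
  have harr : arr V K.length G.length = don W K.length := by rw [hW]; rfl
  have h1 := run_forR (d := d) (r := DFile.rK)
    (p := .seq (dist2 e .dat .a .b .rG .rL) (dist2 e .dat .c .e .rG .rL)) (R := K) (m := m)
    (fun i => ds ⟨(don W i).reverse, rem W i K.length⟩
      ⟨(don (fun k => don (fun g => V k 0 g 0) G.length) i).reverse, []⟩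
      ⟨(don (fun k => don (fun g => V k 0 g 1) G.length) i).reverse, []⟩
      ⟨(don (fun k => don (fun g => V k 1 g 0) G.length) i).reverse, []⟩
      ⟨(don (fun k => don (fun g => V k 1 g 1) G.length) i).reverse, []⟩ K G L)
    (2 * (G.length * (L.length * 10 + 6) + 2)) (fun i => rfl)
    (fun i hi => by
      have h2 := run_dist2 (d := d) (e := e) (src := DFile.dat) (A := .a) (B := .b) (rG := .rG)
        (rL := .rL) (by decide) (P := fun g => V i 0 g 0) (Q := fun g => V i 0 g 1)
        (u := (don W i).reverse)
        (va := (don (fun k => don (fun g => V k 0 g 0) G.length) i).reverse)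
        (vb := (don (fun k => don (fun g => V k 0 g 1) G.length) i).reverse)
        (rest := don (fun g => V i 1 g 0 ++ V i 1 g 1) G.length ++ rem W (i + 1) K.length)
        (RG := G) (RL := L) (m := m)
        (z := Function.update (ds ⟨(don W i).reverse, rem W i K.length⟩
          ⟨(don (fun k => don (fun g => V k 0 g 0) G.length) i).reverse, []⟩
          ⟨(don (fun k => don (fun g => V k 0 g 1) G.length) i).reverse, []⟩
          ⟨(don (fun k => don (fun g => V k 1 g 0) G.length) i).reverse, []⟩
          ⟨(don (fun k => don (fun g => V k 1 g 1) G.length) i).reverse, []⟩ K G L)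
          .rK (zipAt K i))
        (fun g hg => hV i hi 0 (by omega) g hg 0 (by omega))
        (fun g hg => hV i hi 0 (by omega) g hg 1 (by omega))
        (by
          rw [Function.update_of_ne (by decide), ds_dat, rem_succ _ hi]
          simp only [hW, List.append_assoc])
        rfl rfl rfl rfl
      have e2 : (don (fun g => V i 1 g 0 ++ V i 1 g 1) G.length).reverse ++
          ((don (fun g => V i 0 g 0 ++ V i 0 g 1) G.length).reverse ++ (don W i).reverse) =
          (don W (i + 1)).reverse := by
        rw [don_succ, hW]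
        simp only [List.reverse_append, List.append_assoc]
      have h3 := run_dist2 (d := d) (e := e) (src := DFile.dat) (A := .c) (B := .e) (rG := .rG)
        (rL := .rL) (by decide) (P := fun g => V i 1 g 0) (Q := fun g => V i 1 g 1)
        (u := (don (fun g => V i 0 g 0 ++ V i 0 g 1) G.length).reverse ++ (don W i).reverse)
        (va := (don (fun k => don (fun g => V k 1 g 0) G.length) i).reverse)
        (vb := (don (fun k => don (fun g => V k 1 g 1) G.length) i).reverse)
        (rest := rem W (i + 1) K.length)
        (RG := G) (RL := L) (m := m)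
        (z := Function.update (ds
          ⟨(don (fun g => V i 0 g 0 ++ V i 0 g 1) G.length).reverse ++ (don W i).reverse,
            don (fun g => V i 1 g 0 ++ V i 1 g 1) G.length ++ rem W (i + 1) K.length⟩
          ⟨(don (fun k => don (fun g => V k 0 g 0) G.length) (i + 1)).reverse, []⟩
          ⟨(don (fun k => don (fun g => V k 0 g 1) G.length) (i + 1)).reverse, []⟩
          ⟨(don (fun k => don (fun g => V k 1 g 0) G.length) i).reverse, []⟩
          ⟨(don (fun k => don (fun g => V k 1 g 1) G.length) i).reverse, []⟩ K G L)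
          .rK (zipAt K i))
        (fun g hg => hV i hi 1 (by omega) g hg 0 (by omega))
        (fun g hg => hV i hi 1 (by omega) g hg 1 (by omega))
        rfl rfl rfl rfl rfl
      have h2' : Run d (dist2 e .dat .a .b .rG .rL) ⟨m, Function.update (ds
          ⟨(don W i).reverse, rem W i K.length⟩
          ⟨(don (fun k => don (fun g => V k 0 g 0) G.length) i).reverse, []⟩
          ⟨(don (fun k => don (fun g => V k 0 g 1) G.length) i).reverse, []⟩
          ⟨(don (fun k => don (fun g => V k 1 g 0) G.length) i).reverse, []⟩
          ⟨(don (fun k => don (fun g => V k 1 g 1) G.length) i).reverse, []⟩ K G L)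
          .rK (zipAt K i)⟩ (G.length * (L.length * 10 + 6) + 2)
          ⟨m, Function.update (ds
          ⟨(don (fun g => V i 0 g 0 ++ V i 0 g 1) G.length).reverse ++ (don W i).reverse,
            don (fun g => V i 1 g 0 ++ V i 1 g 1) G.length ++ rem W (i + 1) K.length⟩
          ⟨(don (fun k => don (fun g => V k 0 g 0) G.length) (i + 1)).reverse, []⟩
          ⟨(don (fun k => don (fun g => V k 0 g 1) G.length) (i + 1)).reverse, []⟩
          ⟨(don (fun k => don (fun g => V k 1 g 0) G.length) i).reverse, []⟩
          ⟨(don (fun k => don (fun g => V k 1 g 1) G.length) i).reverse, []⟩ K G L)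
          .rK (zipAt K i)⟩ := by
        convert h2 using 2
        rw [don_succ, don_succ, List.reverse_append, List.reverse_append]
        funext j
        cases j <;> rfl
      have h3' := Run.seq h2' h3
      convert h3' using 2
      · ring
      · rw [don_succ (fun k => don (fun g => V k 1 g 0) G.length),
          don_succ (fun k => don (fun g => V k 1 g 1) G.length), List.reverse_append,
          List.reverse_append, e2]
        funext j
        cases j <;> rfl)
  rw [rem_zero, rem_self, ← harr] at h1
  exact h1

theorem run_gathD {e : α} {V : ℕ → ℕ → ℕ → ℕ → List α} {K G L : List α} {m : M}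
    (hV : ∀ k < K.length, ∀ x < 2, ∀ g < G.length, ∀ y < 2, (V k x g y).length = L.length) :
    Run d (gathD e) ⟨m, ds Zip.nil
        ⟨[], don (fun k => don (fun g => V k 0 g 0) G.length) K.length⟩
        ⟨[], don (fun k => don (fun g => V k 0 g 1) G.length) K.length⟩
        ⟨[], don (fun k => don (fun g => V k 1 g 0) G.length) K.length⟩
        ⟨[], don (fun k => don (fun g => V k 1 g 1) G.length) K.length⟩ K G L⟩
      (K.length * (2 * (G.length * (L.length * 10 + 6) + 2) + 2) + 2)
      ⟨m, ds ⟨(arr (fun k x g y => V k y g x) K.length G.length).reverse, []⟩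
        ⟨(don (fun k => don (fun g => V k 0 g 0) G.length) K.length).reverse, []⟩
        ⟨(don (fun k => don (fun g => V k 0 g 1) G.length) K.length).reverse, []⟩
        ⟨(don (fun k => don (fun g => V k 1 g 0) G.length) K.length).reverse, []⟩
        ⟨(don (fun k => don (fun g => V k 1 g 1) G.length) K.length).reverse, []⟩ K G L⟩ := by
  obtain ⟨W, hW⟩ : ∃ W : ℕ → List α, W = fun k =>
    don (fun g => V k 0 g 0 ++ V k 1 g 0) G.length ++
    don (fun g => V k 0 g 1 ++ V k 1 g 1) G.length := ⟨_, rfl⟩
  have harr : arr (fun k x g y => V k y g x) K.length G.length = don W K.length := by rw [hW]; rfl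
  obtain ⟨a, ha⟩ : ∃ a : ℕ → List α, a = fun k => don (fun g => V k 0 g 0) G.length := ⟨_, rfl⟩
  obtain ⟨b, hb⟩ : ∃ b : ℕ → List α, b = fun k => don (fun g => V k 0 g 1) G.length := ⟨_, rfl⟩
  obtain ⟨c, hc⟩ : ∃ c : ℕ → List α, c = fun k => don (fun g => V k 1 g 0) G.length := ⟨_, rfl⟩
  obtain ⟨f, hf⟩ : ∃ f : ℕ → List α, f = fun k => don (fun g => V k 1 g 1) G.length := ⟨_, rfl⟩
  rw [← ha, ← hb, ← hc, ← hf]
  have ea : ∀ i, a i = don (fun g => V i 0 g 0) G.length := fun i => by rw [ha]
  have eb : ∀ i, b i = don (fun g => V i 0 g 1) G.length := fun i => by rw [hb]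
  have ec : ∀ i, c i = don (fun g => V i 1 g 0) G.length := fun i => by rw [hc]
  have ef : ∀ i, f i = don (fun g => V i 1 g 1) G.length := fun i => by rw [hf]
  have h1 := run_forR (d := d) (r := DFile.rK)
    (p := .seq (gath2 e .a .c .dat .rG .rL) (gath2 e .b .e .dat .rG .rL)) (R := K) (m := m)
    (fun i => ds ⟨(don W i).reverse, []⟩
      ⟨(don a i).reverse, rem a i K.length⟩
      ⟨(don b i).reverse, rem b i K.length⟩
      ⟨(don c i).reverse, rem c i K.length⟩
      ⟨(don f i).reverse, rem f i K.length⟩ K G L)
    (2 * (G.length * (L.length * 10 + 6) + 2)) (fun i => rfl)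
    (fun i hi => by
      have h2 := run_gath2 (d := d) (e := e) (A := DFile.a) (B := .c) (dst := .dat) (rG := .rG)
        (rL := .rL) (by decide) (P := fun g => V i 0 g 0) (Q := fun g => V i 1 g 0)
        (ua := (don a i).reverse) (ub := (don c i).reverse)
        (ra := rem a (i + 1) K.length) (rb := rem c (i + 1) K.length)
        (v := (don W i).reverse)
        (RG := G) (RL := L) (m := m)
        (z := Function.update (ds ⟨(don W i).reverse, []⟩
          ⟨(don a i).reverse, rem a i K.length⟩
          ⟨(don b i).reverse, rem b i K.length⟩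
          ⟨(don c i).reverse, rem c i K.length⟩
          ⟨(don f i).reverse, rem f i K.length⟩ K G L)
          .rK (zipAt K i))
        (fun g hg => hV i hi 0 (by omega) g hg 0 (by omega))
        (fun g hg => hV i hi 1 (by omega) g hg 0 (by omega))
        (by rw [Function.update_of_ne (by decide), ds_a, rem_succ _ hi, ea i])
        (by rw [Function.update_of_ne (by decide), ds_c, rem_succ _ hi, ec i])
        rfl rfl rfl
      have e2 : (don (fun g => V i 0 g 1 ++ V i 1 g 1) G.length).reverse ++
          ((don (fun g => V i 0 g 0 ++ V i 1 g 0) G.length).reverse ++ (don W i).reverse) =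
          (don W (i + 1)).reverse := by
        rw [don_succ, hW]
        simp only [List.reverse_append, List.append_assoc]
      have h3 := run_gath2 (d := d) (e := e) (A := DFile.b) (B := .e) (dst := .dat) (rG := .rG)
        (rL := .rL) (by decide) (P := fun g => V i 0 g 1) (Q := fun g => V i 1 g 1)
        (ua := (don b i).reverse) (ub := (don f i).reverse)
        (ra := rem b (i + 1) K.length) (rb := rem f (i + 1) K.length)
        (v := (don (fun g => V i 0 g 0 ++ V i 1 g 0) G.length).reverse ++ (don W i).reverse)
        (RG := G) (RL := L) (m := m)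
        (z := Function.update (ds
          ⟨(don (fun g => V i 0 g 0 ++ V i 1 g 0) G.length).reverse ++ (don W i).reverse, []⟩
          ⟨(don a (i + 1)).reverse, rem a (i + 1) K.length⟩
          ⟨(don b i).reverse, rem b i K.length⟩
          ⟨(don c (i + 1)).reverse, rem c (i + 1) K.length⟩
          ⟨(don f i).reverse, rem f i K.length⟩ K G L)
          .rK (zipAt K i))
        (fun g hg => hV i hi 0 (by omega) g hg 1 (by omega))
        (fun g hg => hV i hi 1 (by omega) g hg 1 (by omega))
        (by rw [Function.update_of_ne (by decide), ds_b, rem_succ _ hi, eb i])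
        (by rw [Function.update_of_ne (by decide), ds_e, rem_succ _ hi, ef i])
        rfl rfl rfl
      have h2' : Run d (gath2 e .a .c .dat .rG .rL) ⟨m, Function.update (ds
          ⟨(don W i).reverse, []⟩
          ⟨(don a i).reverse, rem a i K.length⟩
          ⟨(don b i).reverse, rem b i K.length⟩
          ⟨(don c i).reverse, rem c i K.length⟩
          ⟨(don f i).reverse, rem f i K.length⟩ K G L)
          .rK (zipAt K i)⟩ (G.length * (L.length * 10 + 6) + 2)
          ⟨m, Function.update (ds
          ⟨(don (fun g => V i 0 g 0 ++ V i 1 g 0) G.length).reverse ++ (don W i).reverse, []⟩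
          ⟨(don a (i + 1)).reverse, rem a (i + 1) K.length⟩
          ⟨(don b i).reverse, rem b i K.length⟩
          ⟨(don c (i + 1)).reverse, rem c (i + 1) K.length⟩
          ⟨(don f i).reverse, rem f i K.length⟩ K G L)
          .rK (zipAt K i)⟩ := by
        convert h2 using 2
        rw [don_succ, don_succ, List.reverse_append, List.reverse_append, ea, ec]
        funext j
        cases j <;> rfl
      have h3' := Run.seq h2' h3
      convert h3' using 2
      · ring
      · rw [don_succ b, don_succ f, List.reverse_append,
          List.reverse_append, e2, eb, ef]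
        funext j
        cases j <;> rfl)
  simp only [rem_zero, rem_self, don_zero, List.reverse_nil, ← harr] at h1
  exact h1

theorem run_directD {e : α} {V : ℕ → ℕ → ℕ → ℕ → List α} {K G L : List α} {m : M}
    (hV : ∀ k < K.length, ∀ x < 2, ∀ g < G.length, ∀ y < 2, (V k x g y).length = L.length) :
    Run d (directD e)
      ⟨m, ds ⟨[], arr V K.length G.length⟩ Zip.nil Zip.nil Zip.nil Zip.nil K G L⟩
      (2 * (K.length * (2 * (G.length * (L.length * 10 + 6) + 2) + 2) + 2) + 16)
      ⟨m, ds ⟨[], arr (fun k x g y => V k y g x) K.length G.length⟩ Zip.nil Zip.nil Zip.nil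
        Zip.nil K G L⟩ := by
  have h1 := run_distD (d := d) (e := e) (m := m) hV
  have h2 := run_gathD (d := d) (e := e) (m := m) hV
  have e1 : ∀ w : List α, (Op.rew : Op α).app d ⟨w.reverse, []⟩ = ⟨[], w⟩ := by simp
  have e2 : ∀ z : Zip α, (Op.trunc : Op α).app d ((Op.rew : Op α).app d z) = Zip.nil := by
    intro z; rfl
  have e3 : ∀ w : List α, (Op.trunc : Op α).app d ⟨[], w⟩ = Zip.nil := by
    intro z; rfl
  generalize K.length * (2 * (G.length * (L.length * 10 + 6) + 2) + 2) + 2 = T at *
  refine Run.seq' (t' := T + 16) h1 ?_ (by omega)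
  refine step_act rfl ?_
  simp only [ds_dat, update_ds_dat, e1]
  refine step_act rfl ?_
  simp only [ds_dat, update_ds_dat, e3]
  refine step_act rfl ?_
  simp only [ds_a, update_ds_a, e1]
  refine step_act rfl ?_
  simp only [ds_b, update_ds_b, e1]
  refine step_act rfl ?_
  simp only [ds_c, update_ds_c, e1]
  refine step_act rfl ?_
  simp only [ds_e, update_ds_e, e1]
  refine Run.seq' (t' := 10) h2 ?_ le_rfl
  refine step_act rfl ?_
  simp only [ds_dat, update_ds_dat, e1]
  refine step_act rfl ?_
  simp only [ds_a, update_ds_a, e1]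
  refine step_act rfl ?_
  simp only [ds_a, update_ds_a, e3]
  refine step_act rfl ?_
  simp only [ds_b, update_ds_b, e1]
  refine step_act rfl ?_
  simp only [ds_b, update_ds_b, e3]
  refine step_act rfl ?_
  simp only [ds_c, update_ds_c, e1]
  refine step_act rfl ?_
  simp only [ds_c, update_ds_c, e3]
  refine step_act rfl ?_
  simp only [ds_e, update_ds_e, e1]
  refine step_act rfl ?_
  simp only [ds_e, update_ds_e, e3]
  exact run_skip _

/-- The direct pass on a store with arbitrary files. -/
def direct (e : α) (ι : DFile → F) : Prog M F α := (directD e).map (Lens.idL M) ι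

/-- **The direct pass**: the array on `dat` is replaced by the array with the index bits `x`, `y`
exchanged; nothing else is changed. -/
theorem run_direct {e : α} {ι : DFile → F} (hι : Function.Injective ι)
    {V : ℕ → ℕ → ℕ → ℕ → List α} {K G L : List α} {m : M} {z : F → Zip α}
    (hV : ∀ k < K.length, ∀ x < 2, ∀ g < G.length, ∀ y < 2, (V k x g y).length = L.length)
    (hd : z (ι .dat) = ⟨[], arr V K.length G.length⟩)
    (ha : z (ι .a) = Zip.nil) (hb : z (ι .b) = Zip.nil) (hc : z (ι .c) = Zip.nil)
    (he : z (ι .e) = Zip.nil) (hK : z (ι .rK) = ⟨[], K⟩) (hG : z (ι .rG) = ⟨[], G⟩)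
    (hL : z (ι .rL) = ⟨[], L⟩) :
    Run d (direct e ι) ⟨m, z⟩
      (2 * (K.length * (2 * (G.length * (L.length * 10 + 6) + 2) + 2) + 2) + 16)
      ⟨m, Function.update z (ι .dat)
        ⟨[], arr (fun k x g y => V k y g x) K.length G.length⟩⟩ := by
  have h1 := run_directD (d := d) (e := e) (m := m) hV
  have h2 := Run.map (L := Lens.idL M) hι h1 (S := ⟨m, z⟩) (by
    simp only [Store.pull, Lens.idL, Store.mk.injEq, true_and]
    funext f
    cases f
    · exact hd
    · exact ha
    · exact hb
    · exact hc
    · exact he
    · exact hK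
    · exact hG
    · exact hL)
  have h3 : (Store.put (Lens.idL M) ι ⟨m, z⟩
      ⟨m, ds ⟨[], arr (fun k x g y => V k y g x) K.length G.length⟩ Zip.nil Zip.nil Zip.nil
        Zip.nil K G L⟩ : Store M F α) = ⟨m, Function.update z (ι .dat)
        ⟨[], arr (fun k x g y => V k y g x) K.length G.length⟩⟩ := by
    simp only [Store.put, Lens.idL, Store.mk.injEq, true_and]
    funext f
    by_cases hf : ∃ g, ι g = f
    · obtain ⟨g, rfl⟩ := hf
      rw [hι.extend_apply]
      by_cases hg : g = .dat
      · subst hg
        rw [Function.update_self]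
        rfl
      · rw [Function.update_of_ne (fun h => hg (hι h))]
        cases g
        · exact absurd rfl hg
        · exact ha.symm
        · exact hb.symm
        · exact hc.symm
        · exact he.symm
        · exact hK.symm
        · exact hG.symm
        · exact hL.symm
    · rw [Function.extend_apply' _ _ _ hf, Function.update_of_ne]
      rintro rfl
      exact hf ⟨_, rfl⟩
  rw [h3] at h2
  exact h2

theorem direct_cost (K G L : ℕ) (hK : 1 ≤ K) (hG : 1 ≤ G) (hL : 1 ≤ L) :
    2 * (K * (2 * (G * (L * 10 + 6) + 2) + 2) + 2) + 16 ≤ 96 * (K * G * L) := by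
  have h1 : K ≤ K * G := Nat.le_mul_of_pos_right K hG
  have h2 : K * G ≤ K * G * L := Nat.le_mul_of_pos_right _ hL
  have h3 : 1 ≤ K * G * L := Nat.one_le_iff_ne_zero.mpr (by positivity)
  have e : 2 * (K * (2 * (G * (L * 10 + 6) + 2) + 2) + 2) + 16 =
      40 * (K * G * L) + 24 * (K * G) + 12 * K + 20 := by ring
  omega

end Vale.Agent.P338.R2.H968
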