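import Vale.Agent.P338.R2.H968.Endgame

/-!
P338, unconditional lower bound: real forms.
-/

namespace Vale.Agent.P338.R2.H968

theorem log_bound {n : ℕ} (hn : 3 ≤ n) : ((Nat.log 2 n + 1 : ℕ) : ℝ) ≤ 3 * Real.log n ∧
    1 ≤ Real.log n := by
  have h1 : (1 : ℝ) ≤ Real.log n := by
    rw [Real.le_log_iff_exp_le (by positivity)]
    have h3 : Real.exp 1 < 3 := Real.exp_one_lt_three
    have : (3 : ℝ) ≤ n := by exact_mod_cast hn
    linarith
  refine ⟨?_, h1⟩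
  have h2 : (Nat.log 2 n : ℝ) * Real.log 2 ≤ Real.log n := by
    rw [← Real.log_pow]
    apply Real.log_le_log (by positivity)
    exact_mod_cast Nat.pow_log_le_self 2 (by omega)
  have h3 : (0.6931471803 : ℝ) < Real.log 2 := Real.log_two_gt_d9
  push_cast
  nlinarith [Nat.cast_nonneg (α := ℝ) (Nat.log 2 n)]

theorem real_form {C n T σ : ℕ} (hn : 3 ≤ n)
    (h : n ^ 3 ≤ C * (Nat.log 2 n + 1) ^ 2 * (σ + (Nat.log 2 n + 1)) * T ^ 2) :
    (n : ℝ) ^ 3 ≤ 27 * C * Real.log n ^ 2 * (σ + Real.log n) * T ^ 2 := by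
  obtain ⟨h1, h2⟩ := log_bound hn
  have h3 : (n : ℝ) ^ 3 ≤ C * ((Nat.log 2 n + 1 : ℕ) : ℝ) ^ 2 *
      (σ + ((Nat.log 2 n + 1 : ℕ) : ℝ)) * T ^ 2 := by exact_mod_cast h
  have h0 : (0 : ℝ) ≤ ((Nat.log 2 n + 1 : ℕ) : ℝ) := Nat.cast_nonneg _
  calc (n : ℝ) ^ 3 ≤ C * ((Nat.log 2 n + 1 : ℕ) : ℝ) ^ 2 *
        (σ + ((Nat.log 2 n + 1 : ℕ) : ℝ)) * T ^ 2 := h3
    _ ≤ C * (3 * Real.log n) ^ 2 * (3 * σ + 3 * Real.log n) * T ^ 2 := by
        have h4 : (0 : ℝ) ≤ σ := Nat.cast_nonneg _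
        gcongr
        linarith
    _ = 27 * C * Real.log n ^ 2 * (σ + Real.log n) * T ^ 2 := by ring

/-- The square root form. -/
theorem sqrt_form {C n T σ : ℕ} (hn : 3 ≤ n)
    (h : n ^ 3 ≤ C * (Nat.log 2 n + 1) ^ 2 * (σ + (Nat.log 2 n + 1)) * T ^ 2) :
    (n : ℝ) * Real.sqrt n ≤
      Real.sqrt (27 * C) * (Real.log n * Real.sqrt (σ + Real.log n) * T) := by
  have h1 := real_form hn h
  have h2 := (log_bound hn).2
  have hσ : (0 : ℝ) ≤ σ := Nat.cast_nonneg _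
  have e1 : ((n : ℝ) * Real.sqrt n) ^ 2 = (n : ℝ) ^ 3 := by
    rw [mul_pow, Real.sq_sqrt (Nat.cast_nonneg _)]
    ring
  have e2 : (Real.sqrt (27 * C) * (Real.log n * Real.sqrt (σ + Real.log n) * T)) ^ 2 =
      27 * C * Real.log n ^ 2 * (σ + Real.log n) * T ^ 2 := by
    rw [mul_pow, Real.sq_sqrt (by positivity), mul_pow, mul_pow, Real.sq_sqrt (by linarith)]
    ring
  rw [← e1, ← e2] at h1
  exact (pow_le_pow_iff_left₀ (by positivity) (by positivity) two_ne_zero).mp h1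

theorem exists_const {C : ℕ} :
    ∃ c : ℝ, 0 < c ∧ ∀ n T σ : ℕ, 3 ≤ n →
      n ^ 3 ≤ C * (Nat.log 2 n + 1) ^ 2 * (σ + (Nat.log 2 n + 1)) * T ^ 2 →
      c * ((n : ℝ) * Real.sqrt n) ≤ Real.log n * Real.sqrt (σ + Real.log n) * T := by
  refine ⟨1 / (Real.sqrt (27 * C) + 1), by positivity, fun n T σ hn h => ?_⟩
  have h1 := sqrt_form hn h
  have h2 := (log_bound hn).2
  have h3 : 0 ≤ Real.log n * Real.sqrt (σ + Real.log n) * T := by positivity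
  rw [div_mul_eq_mul_div, one_mul, div_le_iff₀ (by positivity)]
  nlinarith

/-- Small auxiliary tapes: the lower bound `n log n`. -/
theorem exists_const_nlogn {C : ℕ} :
    ∃ c : ℝ, 0 < c ∧ ∀ n T σ : ℕ, 3 ≤ n →
      n ^ 3 ≤ C * (Nat.log 2 n + 1) ^ 2 * (σ + (Nat.log 2 n + 1)) * T ^ 2 →
      (σ : ℝ) * Real.log n ^ 4 ≤ n → Real.log n ^ 5 ≤ n →
      c * (n * Real.log n) ≤ T := by
  refine ⟨1 / (Real.sqrt (54 * C) + 1), by positivity, fun n T σ hn h hσ hL => ?_⟩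
  have h1 := real_form hn h
  obtain ⟨-, h2⟩ := log_bound hn
  set L := Real.log n with hLdef
  have hn0 : (0 : ℝ) < n := by
    have : 0 < n := by omega
    exact_mod_cast this
  have hL0 : 0 < L := by linarith
  have h3 : (σ + L) * L ^ 4 ≤ 2 * n := by
    have : L * L ^ 4 ≤ (n : ℝ) := by
      calc L * L ^ 4 = L ^ 5 := by ring
        _ ≤ (n : ℝ) := hL
    nlinarith
  have h4 : (n * L) ^ 2 ≤ 54 * C * T ^ 2 := by
    have h5 : (n : ℝ) ^ 3 * L ^ 4 ≤ 54 * C * L ^ 2 * n * T ^ 2 := by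
      calc (n : ℝ) ^ 3 * L ^ 4 ≤ 27 * C * L ^ 2 * (σ + L) * T ^ 2 * L ^ 4 := by gcongr
        _ = 27 * C * L ^ 2 * T ^ 2 * ((σ + L) * L ^ 4) := by ring
        _ ≤ 27 * C * L ^ 2 * T ^ 2 * (2 * n) := by gcongr
        _ = 54 * C * L ^ 2 * n * T ^ 2 := by ring
    have h6 : (n * L ^ 2) * (n * L) ^ 2 ≤ (n * L ^ 2) * (54 * C * T ^ 2) := by
      calc (n * L ^ 2) * (n * L) ^ 2 = (n : ℝ) ^ 3 * L ^ 4 := by ring
        _ ≤ 54 * C * L ^ 2 * n * T ^ 2 := h5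
        _ = (n * L ^ 2) * (54 * C * T ^ 2) := by ring
    exact le_of_mul_le_mul_left h6 (by positivity)
  have h7 : n * L ≤ Real.sqrt (54 * C) * T := by
    have e : (Real.sqrt (54 * C) * T) ^ 2 = 54 * C * (T : ℝ) ^ 2 := by
      rw [mul_pow, Real.sq_sqrt (by positivity)]
    rw [← e] at h4
    exact (pow_le_pow_iff_left₀ (by positivity) (by positivity) two_ne_zero).mp h4
  rw [div_mul_eq_mul_div, one_mul, div_le_iff₀ (by positivity)]
  have hT : (0 : ℝ) ≤ T := Nat.cast_nonneg _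
  nlinarith

/-- `(log n)^k ≤ n` for large `n`. -/
theorem log_pow_le (k : ℕ) : ∃ N : ℕ, ∀ n : ℕ, N ≤ n → Real.log n ^ k ≤ n := by
  have h := (Real.isLittleO_pow_log_id_atTop (n := k)).bound (c := 1) one_pos
  have h2 := (tendsto_natCast_atTop_atTop (R := ℝ)).eventually h
  obtain ⟨N, hN⟩ := Filter.eventually_atTop.mp h2
  refine ⟨N, fun n hn => ?_⟩
  have h3 := hN n hn
  rw [one_mul] at h3
  have h4 : ‖(id (n : ℝ) : ℝ)‖ = n := by simp
  rw [h4] at h3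
  exact (Real.le_norm_self _).trans h3

end Vale.Agent.P338.R2.H968
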