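import Mathlib

/-!
P338, unconditional lower bound: the choice of the parameters.
-/

namespace Vale.Agent.P338.R2.H968

/-- The optimal width. -/
theorem core_ineq {a mu q lam gam T : ℕ} (h1 : 1 ≤ lam) (h2 : lam ≤ q) (h3 : q ≤ T)
    (h : ∀ w, 1 ≤ w → w ≤ q → mu ≤ a * lam * (1 + T / w + T / q) + gam * w * (T / q)) :
    mu ^ 2 * q ≤ 4 * (3 * a + gam) ^ 2 * lam * T ^ 2 := by
  set w := Nat.sqrt (lam * q) with hw
  have hw1 : 1 ≤ w := by
    rw [hw, Nat.le_sqrt]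
    nlinarith
  have hwq : w ≤ q := by
    rw [hw]
    calc Nat.sqrt (lam * q) ≤ Nat.sqrt (q * q) := Nat.sqrt_le_sqrt (Nat.mul_le_mul_right q h2)
      _ = q := Nat.sqrt_eq q
  have hww : w * w ≤ lam * q := Nat.sqrt_le _
  have hww2 : lam * q < (w + 1) * (w + 1) := Nat.lt_succ_sqrt _
  have hww3 : lam * q ≤ 4 * (w * w) := by nlinarith
  have hq1 : 1 ≤ q := h1.trans h2
  have key := h w hw1 hwq
  have e1 : T / w * w ≤ T := Nat.div_mul_le_self T w
  have e2 : T / q * q ≤ T := Nat.div_mul_le_self T q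
  have e3 : T / q * w ≤ T := (Nat.mul_le_mul_left _ hwq).trans e2
  -- multiply by w
  have k1 : mu * w ≤ a * lam * (3 * T) + gam * (lam * T) := by
    calc mu * w ≤ (a * lam * (1 + T / w + T / q) + gam * w * (T / q)) * w :=
          Nat.mul_le_mul_right w key
      _ = a * lam * (w + T / w * w + T / q * w) + gam * (T / q * (w * w)) := by ring
      _ ≤ a * lam * (T + T + T) + gam * (T / q * (lam * q)) := by
          gcongr
          exact hwq.trans h3
      _ = a * lam * (3 * T) + gam * (lam * (T / q * q)) := by ring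
      _ ≤ a * lam * (3 * T) + gam * (lam * T) := by gcongr
  have k2 : mu * w ≤ (3 * a + gam) * lam * T := by
    calc mu * w ≤ a * lam * (3 * T) + gam * (lam * T) := k1
      _ = (3 * a + gam) * lam * T := by ring
  have k3 : (mu * w) ^ 2 ≤ ((3 * a + gam) * lam * T) ^ 2 := Nat.pow_le_pow_left k2 2
  have k4 : lam * (mu ^ 2 * q) ≤ lam * (4 * (3 * a + gam) ^ 2 * lam * T ^ 2) := by
    calc lam * (mu ^ 2 * q) = mu ^ 2 * (lam * q) := by ring
      _ ≤ mu ^ 2 * (4 * (w * w)) := Nat.mul_le_mul_left _ hww3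
      _ = 4 * (mu * w) ^ 2 := by ring
      _ ≤ 4 * ((3 * a + gam) * lam * T) ^ 2 := Nat.mul_le_mul_left _ k3
      _ = lam * (4 * (3 * a + gam) ^ 2 * lam * T ^ 2) := by ring
  exact Nat.le_of_mul_le_mul_left k4 (by omega)

theorem two_mul_le_two_pow (k : ℕ) : 2 * k ≤ 2 ^ (k + 1) := by
  have := (Nat.lt_two_pow_self (n := k)).le
  rw [pow_succ]
  omega

/-- The constant of the advice length. -/
def advC (k gam cQ : ℕ) : ℕ := cQ + 4 * k + gam * k + 5

theorem advice_ok {k g gam cQ n T σ D q mu w : ℕ} (hg : g ≤ 2 ^ gam)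
    (hD : n < 2 ^ D) (hD1 : 1 ≤ D) (hT : T ≤ n ^ 2) (hq : q ≤ n) (hmu : mu ≤ n) (hw : w ≤ q) :
    cQ * (T + 2) ^ k * g ^ (k * σ) * (q + 1) ≤ 2 ^ (advC k gam cQ * (σ + D)) ∧
      2 * k * (mu + 1) * (1 + w * (T + w + 2)) < 2 ^ (2 * (advC k gam cQ * (σ + D))) := by
  have hn2 : n + 1 ≤ 2 ^ D := hD
  have hn22 : n ^ 2 + 2 ≤ 2 ^ (2 * D + 1) := by
    have h1 : n ^ 2 < (2 ^ D) ^ 2 := Nat.pow_lt_pow_left hD (by norm_num)
    have h2 : (2 ^ D) ^ 2 = 2 ^ (2 * D) := by rw [← pow_mul]; congr 1; ring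
    have h3 : 2 ≤ 2 ^ (2 * D) := by
      calc 2 = 2 ^ 1 := by norm_num
        _ ≤ 2 ^ (2 * D) := Nat.pow_le_pow_right (by norm_num) (by omega)
    have h4 : 2 ^ (2 * D + 1) = 2 * 2 ^ (2 * D) := pow_succ' 2 (2 * D)
    omega
  constructor
  · have a1 : cQ ≤ 2 ^ cQ := Nat.lt_two_pow_self.le
    have a2 : (T + 2) ^ k ≤ 2 ^ ((2 * D + 1) * k) := by
      rw [pow_mul]
      exact Nat.pow_le_pow_left (by omega) k
    have a3 : g ^ (k * σ) ≤ 2 ^ (gam * (k * σ)) := by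
      calc g ^ (k * σ) ≤ (2 ^ gam) ^ (k * σ) := Nat.pow_le_pow_left hg _
        _ = 2 ^ (gam * (k * σ)) := by rw [← pow_mul]
    have a4 : q + 1 ≤ 2 ^ D := by omega
    calc cQ * (T + 2) ^ k * g ^ (k * σ) * (q + 1)
        ≤ 2 ^ cQ * 2 ^ ((2 * D + 1) * k) * 2 ^ (gam * (k * σ)) * 2 ^ D := by gcongr
      _ = 2 ^ (cQ + (2 * D + 1) * k + gam * (k * σ) + D) := by
          rw [← pow_add, ← pow_add, ← pow_add]
      _ ≤ 2 ^ (advC k gam cQ * (σ + D)) := by
          apply Nat.pow_le_pow_right (by norm_num)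
          unfold advC
          nlinarith [Nat.zero_le (cQ * σ), Nat.zero_le (k * σ), Nat.mul_le_mul_left cQ hD1,
            Nat.mul_le_mul_left k hD1, Nat.zero_le (gam * k * D), Nat.zero_le σ]
  · have b1 : 2 * k ≤ 2 ^ (k + 1) := two_mul_le_two_pow k
    have b2 : mu + 1 ≤ 2 ^ D := by omega
    have b3 : 1 + w * (T + w + 2) ≤ 2 ^ (3 * D + 2) := by
      have c1 : w ≤ 2 ^ D - 1 := by omega
      have c2 : T + w + 2 ≤ 2 ^ (2 * D + 2) := by
        have : 2 ^ D ≤ 2 ^ (2 * D + 1) := Nat.pow_le_pow_right (by norm_num) (by omega)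
        rw [show 2 * D + 2 = 2 * D + 1 + 1 by ring, pow_succ]
        omega
      calc 1 + w * (T + w + 2) ≤ 2 ^ (2 * D + 2) + (2 ^ D - 1) * 2 ^ (2 * D + 2) := by
            have : 1 ≤ 2 ^ (2 * D + 2) := Nat.one_le_two_pow
            gcongr
        _ = 2 ^ D * 2 ^ (2 * D + 2) := by
            have h1 : 1 ≤ 2 ^ D := Nat.one_le_two_pow
            obtain ⟨x, hx⟩ : ∃ x, 2 ^ D = x + 1 := ⟨2 ^ D - 1, by omega⟩
            rw [hx]
            simp only [Nat.add_sub_cancel]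
            ring
        _ = 2 ^ (3 * D + 2) := by rw [← pow_add]; congr 1; ring
    calc 2 * k * (mu + 1) * (1 + w * (T + w + 2)) ≤ 2 ^ (k + 1) * 2 ^ D * 2 ^ (3 * D + 2) := by
          gcongr
      _ = 2 ^ (k + 1 + D + (3 * D + 2)) := by rw [← pow_add, ← pow_add]
      _ < 2 ^ (2 * (advC k gam cQ * (σ + D))) := by
          apply Nat.pow_lt_pow_right (by norm_num)
          unfold advC
          nlinarith [Nat.zero_le (cQ * σ), Nat.zero_le (k * σ), Nat.mul_le_mul_left cQ hD1,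
            Nat.mul_le_mul_left k hD1, Nat.zero_le (gam * k * D), Nat.zero_le σ,
            Nat.zero_le (gam * k * σ)]

/-- **Endgame**: the lower bound from the inequalities for all widths and all advice lengths. -/
theorem endgame (k g gam cQ : ℕ) (hg : g ≤ 2 ^ gam) :
    ∃ C : ℕ, ∀ n T σ D mu q : ℕ, n < 2 ^ D → 1 ≤ D → mu ≤ n → q ≤ n → n ≤ T →
      n ≤ 10 * D * mu → n ≤ 40 * q →
      (∀ w, 1 ≤ w → w ≤ q → ∀ lam, cQ * (T + 2) ^ k * g ^ (k * σ) * (q + 1) ≤ 2 ^ lam →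
        2 * k * (mu + 1) * (1 + w * (T + w + 2)) < 2 ^ (2 * lam) →
        mu ≤ 3 * lam * (1 + T / w + T / q) + gam * w * (T / q)) →
      n ^ 3 ≤ C * D ^ 2 * (σ + D) * T ^ 2 := by
  set A := advC k gam cQ with hA
  have hA1 : 5 ≤ A := by rw [hA, advC]; omega
  refine ⟨4000 * (4 * (3 * 3 + gam) ^ 2 * A), ?_⟩
  intro n T σ D mu q hD hD1 hmu hq hT hmun hqn h
  rcases Nat.eq_zero_or_pos n with hn0 | hn0
  · subst hn0
    simp
  have hT1 : 1 ≤ T := hn0.trans_le hT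
  have hcoef : 4000 ≤ 4000 * (4 * (3 * 3 + gam) ^ 2 * A) := by
    have : 1 ≤ 4 * (3 * 3 + gam) ^ 2 * A := Nat.one_le_iff_ne_zero.mpr (by positivity)
    omega
  rcases Nat.lt_or_ge (n ^ 2) T with hbig | hsmall
  · -- large T
    calc n ^ 3 ≤ T ^ 2 := by
          have h1 : n ^ 3 ≤ (n ^ 2) ^ 2 := by
            rw [← pow_mul]
            exact Nat.pow_le_pow_right hn0 (by norm_num)
          exact h1.trans (Nat.pow_le_pow_left hbig.le 2)
      _ = 1 * 1 * 1 * T ^ 2 := by ring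
      _ ≤ 4000 * (4 * (3 * 3 + gam) ^ 2 * A) * D ^ 2 * (σ + D) * T ^ 2 := by
          gcongr
          · omega
          · exact Nat.one_le_pow _ _ hD1
          · omega
  rcases Nat.lt_or_ge q (A * (σ + D)) with hlam | hlam
  · -- large σ
    have h1 : n ≤ 40 * (A * (σ + D)) := by omega
    calc n ^ 3 = n * n ^ 2 := by ring
      _ ≤ (40 * (A * (σ + D))) * T ^ 2 := by gcongr
      _ = (40 * A) * 1 * (σ + D) * T ^ 2 := by ring
      _ ≤ 4000 * (4 * (3 * 3 + gam) ^ 2 * A) * D ^ 2 * (σ + D) * T ^ 2 := by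
          have e1 : 40 * A ≤ 4000 * (4 * (3 * 3 + gam) ^ 2 * A) := by
            nlinarith [Nat.zero_le (gam * A), Nat.zero_le (gam ^ 2 * A)]
          have e2 : 1 ≤ D ^ 2 := Nat.one_le_pow _ _ hD1
          exact Nat.mul_le_mul_right _ (Nat.mul_le_mul_right _ (Nat.mul_le_mul e1 e2))
  · -- the main case
    have h1 : 1 ≤ A * (σ + D) := Nat.one_le_iff_ne_zero.mpr (by positivity)
    have hqT : q ≤ T := hq.trans hT
    have key := core_ineq (a := 3) (mu := mu) (q := q) (lam := A * (σ + D)) (gam := gam) (T := T)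
      h1 hlam hqT (fun w hw1 hwq => by
        obtain ⟨c1, c2⟩ := advice_ok (k := k) (g := g) (gam := gam) (cQ := cQ) (n := n) (T := T)
          (σ := σ) (D := D) (q := q) (mu := mu) (w := w) hg hD hD1 hsmall hq hmu hwq
        exact h w hw1 hwq _ c1 c2)
    calc n ^ 3 = n ^ 2 * n := by ring
      _ ≤ (10 * D * mu) ^ 2 * (40 * q) := by gcongr
      _ = 4000 * D ^ 2 * (mu ^ 2 * q) := by ring
      _ ≤ 4000 * D ^ 2 * (4 * (3 * 3 + gam) ^ 2 * (A * (σ + D)) * T ^ 2) := by gcongr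
      _ = 4000 * (4 * (3 * 3 + gam) ^ 2 * A) * D ^ 2 * (σ + D) * T ^ 2 := by ring

/-- The parameters of the lower bound. -/
theorem params {n : ℕ} (hn : 1000 ≤ n) (D mu q : ℕ) (hD : D = Nat.log 2 n + 1)
    (hmu : mu = n / (5 * D)) (hq : q = D * mu / 2) :
    n < 2 ^ D ∧ 1 ≤ D ∧ mu ≤ n ∧ q ≤ n ∧ n ≤ 10 * D * mu ∧ n ≤ 40 * q := by
  have h1 : n < 2 ^ D := by rw [hD]; exact Nat.lt_pow_succ_log_self (by norm_num) n
  have h2 : 1 ≤ D := by omega
  have h3 : 5 * D * mu ≤ n := by rw [hmu]; exact Nat.mul_div_le n (5 * D)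
  have h4 : n < 5 * D * (mu + 1) := by
    rw [hmu]
    exact Nat.lt_mul_div_succ n (by omega)
  have h5 : 2 ^ (D - 1) ≤ n := by
    rw [hD, Nat.add_sub_cancel]
    exact Nat.pow_log_le_self 2 (by omega)
  -- D is small compared with n
  have h6 : 10 * D ≤ n := by
    rcases Nat.lt_or_ge D 12 with h | h
    · omega
    · have h7 : ∀ e, 12 ≤ e → 10 * e ≤ 2 ^ (e - 1) := by
        intro e he
        induction e, he using Nat.le_induction with
        | base => norm_num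
        | succ e he ih =>
          have : 2 ^ (e + 1 - 1) = 2 * 2 ^ (e - 1) := by
            rw [← pow_succ']; congr 1; omega
          omega
      exact (h7 D h).trans h5
  have hmu1 : 1 ≤ mu := by
    rw [hmu, Nat.one_le_div_iff (by omega)]
    omega
  have hDmu : D * mu ≤ n := by nlinarith
  have h40 : n ≤ 10 * (D * mu) := by
    have e1 : 5 * D * (mu + 1) = 5 * (D * mu) + 5 * D := by ring
    have e2 : D ≤ D * mu := Nat.le_mul_of_pos_right D (by omega)
    omega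
  refine ⟨h1, h2, ?_, ?_, ?_, ?_⟩
  · exact (Nat.le_mul_of_pos_left mu (by omega)).trans hDmu
  · rw [hq]; omega
  · rw [Nat.mul_assoc]; exact h40
  · rw [hq]; omega

end Vale.Agent.P338.R2.H968
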