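import Vale.Agent.P338.R2.H968.Basic

/-!
Environment for calling a machine `A` from a program on files.
-/

namespace Vale.Agent.P338.R2.H968

open Vale.Agent.P338.R2.H898 Prog

theorem update_extend {ι κ γ : Type} [DecidableEq ι] [DecidableEq κ] {f : ι → κ}
    (hf : Function.Injective f) (g : ι → γ) (e : κ → γ) (a : ι) (v : γ) :
    Function.update (Function.extend f g e) (f a) v =
      Function.extend f (Function.update g a v) e := by
  funext b
  by_cases hb : ∃ i, f i = b
  · obtain ⟨i, rfl⟩ := hb
    rw [hf.extend_apply]
    by_cases h : i = a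
    · subst h; simp
    · rw [Function.update_of_ne (fun h' => h (hf h')), hf.extend_apply,
        Function.update_of_ne h]
  · rw [Function.extend_apply' _ _ _ hb, Function.update_of_ne, Function.extend_apply' _ _ _ hb]
    rintro rfl
    exact hb ⟨a, rfl⟩

/-- Memory used by a call of `A`. -/
structure CallMem (A : MTM) where
  /-- state -/
  st : A.State
  /-- pending action -/
  ac : A.Tape → A.Sym × Move

/-- The files used by a call besides the tapes of `A`. -/
inductive CFile
  | opX
  | opY
  | clk
  | res
  deriving DecidableEq

/-- Files, memory and symbols used by a call. -/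
structure CallEnv (A : MTM) (M F α : Type) (d : α) where
  /-- the files -/
  file : A.Tape ⊕ CFile → F
  file_inj : Function.Injective file
  /-- coding of symbols -/
  enc : A.Sym → α
  /-- decoding of symbols -/
  dec : α → A.Sym
  dec_enc : ∀ a, dec (enc a) = a
  dec_d : dec d = A.blank
  /-- bits -/
  bit : Bool → α
  /-- decoding of bits -/
  unbit : α → Bool
  unbit_bit : ∀ b, unbit (bit b) = b
  /-- the symbol written on the clock file -/
  mark : α
  /-- memory lens -/
  get : M → CallMem A
  /-- memory lens -/
  put : CallMem A → M → M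
  get_put : ∀ x m, get (put x m) = x
  put_put : ∀ x y m, put x (put y m) = put x m

section

variable {A : MTM} {M F α : Type} [DecidableEq F] {d : α} (E : CallEnv A M F α d)

/-- The store of a call. -/
noncomputable def CallEnv.St (x : CallMem A) (ta : A.Tape → Zip α) (cf : CFile → Zip α)
    (z : F → Zip α) (m : M) : Store M F α :=
  ⟨E.put x m, Function.extend E.file (Sum.elim ta cf) z⟩

omit [DecidableEq F] in
theorem CallEnv.reads_tape (x : CallMem A) (ta : A.Tape → Zip α) (cf : CFile → Zip α)
    (z : F → Zip α) (m : M) (i : A.Tape) :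
    (E.St x ta cf z m).reads (E.file (.inl i)) = (ta i).peek := by
  simp [CallEnv.St, Store.reads, E.file_inj.extend_apply]

omit [DecidableEq F] in
theorem CallEnv.reads_file (x : CallMem A) (ta : A.Tape → Zip α) (cf : CFile → Zip α)
    (z : F → Zip α) (m : M) (j : CFile) :
    (E.St x ta cf z m).reads (E.file (.inr j)) = (cf j).peek := by
  simp [CallEnv.St, Store.reads, E.file_inj.extend_apply]

omit [DecidableEq F] in
@[simp] theorem CallEnv.get_m (x : CallMem A) (ta : A.Tape → Zip α) (cf : CFile → Zip α)
    (z : F → Zip α) (m : M) : E.get (E.St x ta cf z m).m = x := E.get_put x m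

/-- Effect of an optional operation. -/
def oapp {α : Type} (d : α) : Option (Op α) → Zip α → Zip α
  | none, z => z
  | some o, z => o.app d z

open Classical in
theorem CallEnv.appAct_tape (x y : CallMem A) (ta : A.Tape → Zip α) (cf : CFile → Zip α)
    (z : F → Zip α) (m : M) (i : A.Tape) (o : Op α) :
    appAct d (E.St x ta cf z m) (E.put y (E.St x ta cf z m).m, some (E.file (.inl i), o)) =
      E.St y (Function.update ta i (o.app d (ta i))) cf z m := by
  simp only [appAct, CallEnv.St, E.put_put, E.file_inj.extend_apply, Sum.elim_inl]
  rw [update_extend E.file_inj, Sum.update_elim_inl]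

theorem CallEnv.appAct_file (x y : CallMem A) (ta : A.Tape → Zip α) (cf : CFile → Zip α)
    (z : F → Zip α) (m : M) (j : CFile) (o : Op α) :
    appAct d (E.St x ta cf z m) (E.put y (E.St x ta cf z m).m, some (E.file (.inr j), o)) =
      E.St y ta (Function.update cf j (o.app d (cf j))) z m := by
  classical
  simp only [appAct, CallEnv.St, E.put_put, E.file_inj.extend_apply, Sum.elim_inr]
  rw [update_extend E.file_inj, Sum.update_elim_inr]

theorem CallEnv.appAct_none (x y : CallMem A) (ta : A.Tape → Zip α) (cf : CFile → Zip α)
    (z : F → Zip α) (m : M) :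
    appAct d (E.St x ta cf z m) (E.put y (E.St x ta cf z m).m, none) = E.St y ta cf z m := by
  simp only [appAct, CallEnv.St, E.put_put]

/-- Primitive of a call: new memory of the call and an operation on a tape. -/
def CallEnv.primT (g : CallMem A → (A.Tape → Option α) → (CFile → Option α) →
    CallMem A × Option ((A.Tape ⊕ CFile) × Op α)) : Prog M F α :=
  .prim fun m r =>
    let u := g (E.get m) (fun i => r (E.file (.inl i))) (fun j => r (E.file (.inr j)))
    (E.put u.1 m, u.2.map fun p => (E.file p.1, p.2))

/-- Condition of a call. -/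
def CallEnv.cond (c : CallMem A → (A.Tape → Option α) → (CFile → Option α) → Bool) :
    M → (F → Option α) → Bool :=
  fun m r => c (E.get m) (fun i => r (E.file (.inl i))) (fun j => r (E.file (.inr j)))

omit [DecidableEq F] in
theorem CallEnv.cond_eq (c : CallMem A → (A.Tape → Option α) → (CFile → Option α) → Bool)
    (x : CallMem A) (ta : A.Tape → Zip α) (cf : CFile → Zip α) (z : F → Zip α) (m : M) :
    E.cond c (E.St x ta cf z m).m (E.St x ta cf z m).reads =
      c x (fun i => (ta i).peek) (fun j => (cf j).peek) := by
  simp only [CallEnv.cond, CallEnv.get_m]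
  congr 1
  · funext i; exact E.reads_tape x ta cf z m i
  · funext j; exact E.reads_file x ta cf z m j

open Classical in
/-- Effect of a primitive. -/
noncomputable def appT (d : α) (ta : A.Tape → Zip α) : Option ((A.Tape ⊕ CFile) × Op α) →
    A.Tape → Zip α
  | some (.inl i, o) => Function.update ta i (o.app d (ta i))
  | _ => ta

/-- Effect of a primitive. -/
def appF (A : MTM) {α : Type} (d : α) (cf : CFile → Zip α) :
    Option ((A.Tape ⊕ CFile) × Op α) → CFile → Zip α
  | some (.inr j, o) => Function.update cf j (o.app d (cf j))
  | _ => cf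

theorem CallEnv.run_primT (g : CallMem A → (A.Tape → Option α) → (CFile → Option α) →
    CallMem A × Option ((A.Tape ⊕ CFile) × Op α))
    (x : CallMem A) (ta : A.Tape → Zip α) (cf : CFile → Zip α) (z : F → Zip α) (m : M)
    {u : CallMem A × Option ((A.Tape ⊕ CFile) × Op α)}
    (hu : g x (fun i => (ta i).peek) (fun j => (cf j).peek) = u) :
    Run d (E.primT g) (E.St x ta cf z m) 1 (E.St u.1 (appT d ta u.2) (appF A d cf u.2) z m) := by
  subst hu
  apply Run.prim'
  have h1 : (fun i => (E.St x ta cf z m).reads (E.file (.inl i))) = fun i => (ta i).peek := by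
    funext i; exact E.reads_tape x ta cf z m i
  have h2 : (fun j => (E.St x ta cf z m).reads (E.file (.inr j))) = fun j => (cf j).peek := by
    funext j; exact E.reads_file x ta cf z m j
  simp only [h1, h2, CallEnv.get_m]
  rcases hg : g x (fun i => (ta i).peek) (fun j => (cf j).peek) with ⟨y, _ | ⟨i | j, o⟩⟩
  · exact E.appAct_none x y ta cf z m
  · exact E.appAct_tape x y ta cf z m i o
  · exact E.appAct_file x y ta cf z m j o

end

end Vale.Agent.P338.R2.H968
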