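import Mathlib

/-!
P338: primes with a primitive root, by an elementary test.
-/

namespace Vale.Agent.P338.R2.H968

/-- The test for a prime `p` with primitive root `w`. -/
def Good (p w : ℕ) : Prop :=
  2 ≤ p ∧ (∀ i, 1 ≤ i → i ≤ p - 2 → w ^ i % p ≠ 1) ∧ w ^ (p - 1) % p = 1

theorem pow_mod_eq_one_iff {p : ℕ} (hp : 2 ≤ p) (w i : ℕ) :
    w ^ i % p = 1 ↔ (w : ZMod p) ^ i = 1 := by
  have h1 : (w : ZMod p) ^ i = ((w ^ i : ℕ) : ZMod p) := by push_cast; rfl
  have h2 : (1 : ZMod p) = ((1 : ℕ) : ZMod p) := by simp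
  rw [h1, h2, ZMod.natCast_eq_natCast_iff, Nat.ModEq, Nat.mod_eq_of_lt (by omega : 1 < p)]

theorem Good.prime {p w : ℕ} (h : Good p w) : p.Prime := by
  obtain ⟨hp, h1, h2⟩ := h
  refine lucas_primality p (w : ZMod p) ((pow_mod_eq_one_iff hp w _).mp h2) ?_
  intro q hq hqd h3
  have h4 := (pow_mod_eq_one_iff hp w _).mpr h3
  refine h1 _ ?_ ?_ h4
  · exact Nat.div_pos (Nat.le_of_dvd (by omega) hqd) hq.pos
  · have h5 : (p - 1) / q < p - 1 := Nat.div_lt_self (by omega) hq.one_lt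
    omega

theorem Good.orderOf {p w : ℕ} (h : Good p w) : orderOf (w : ZMod p) = p - 1 := by
  obtain ⟨hp, h1, h2⟩ := h
  rw [orderOf_eq_iff (by omega)]
  refine ⟨(pow_mod_eq_one_iff hp w _).mp h2, fun m hm hm0 h3 => ?_⟩
  exact h1 m hm0 (by omega) ((pow_mod_eq_one_iff hp w _).mpr h3)

theorem Good.w_pos {p w : ℕ} (h : Good p w) : 1 ≤ w := by
  by_contra hcon
  have hw : w = 0 := by omega
  subst hw
  obtain ⟨hp, h1, h2⟩ := h
  rw [zero_pow (by omega), Nat.zero_mod] at h2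
  omega

/-- A good pair exists between `n + 1` and `2 n`. -/
theorem exists_good {n : ℕ} (hn : 1 ≤ n) :
    ∃ p w, n < p ∧ p ≤ 2 * n ∧ 1 ≤ w ∧ w < p ∧ Good p w := by
  obtain ⟨p, hp, h1, h2⟩ := Nat.exists_prime_lt_and_le_two_mul n (by omega)
  have : Fact p.Prime := ⟨hp⟩
  obtain ⟨g, hg⟩ := IsCyclic.exists_generator (α := (ZMod p)ˣ)
  have hord : orderOf g = p - 1 := by
    rw [orderOf_eq_card_of_forall_mem_zpowers hg, Nat.card_eq_fintype_card, ZMod.card_units]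
  set w := (g : ZMod p).val with hw
  have hcast : (w : ZMod p) = (g : ZMod p) := by rw [hw, ZMod.natCast_val, ZMod.cast_id]
  have hword : _root_.orderOf (w : ZMod p) = p - 1 := by
    rw [hcast, orderOf_units, hord]
  have hp2 := hp.two_le
  have hg' : Good p w := by
    refine ⟨hp2, fun i hi1 hi2 h3 => ?_, ?_⟩
    · rw [pow_mod_eq_one_iff hp2] at h3
      have h4 := orderOf_dvd_of_pow_eq_one h3
      rw [hword] at h4
      have := Nat.le_of_dvd (by omega) h4
      omega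
    · rw [pow_mod_eq_one_iff hp2, ← hword]
      exact pow_orderOf_eq_one _
  exact ⟨p, w, h1, h2, hg'.w_pos, ZMod.val_lt _, hg'⟩

end Vale.Agent.P338.R2.H968
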