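import Mathlib

/-!
P338, unconditional lower bound: rarely crossed boundaries.
-/

namespace Vale.Agent.P338.R2.H968

open Finset

theorem div_ne_unique {a b l : ℕ} (h1 : b ≤ a + 1) (h2 : a ≤ b + 1) :
    (((range l).filter fun o => (a + o) / l ≠ (b + o) / l)).card ≤ 1 := by
  rw [Finset.card_le_one]
  intro o ho o' ho'
  simp only [Finset.mem_filter, Finset.mem_range] at ho ho'
  obtain ⟨ho1, ho2⟩ := ho
  obtain ⟨ho1', ho2'⟩ := ho'
  have key : ∀ x y o : ℕ, y = x + 1 → (x + o) / l ≠ (y + o) / l → l ∣ x + 1 + o := by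
    intro x y o hy h
    subst hy
    by_contra hd
    apply h
    have h3 : x + 1 + o = (x + o) + 1 := by ring
    rw [h3, Nat.succ_div, if_neg (by rwa [h3] at hd)]
    rfl
  have uniq : ∀ x : ℕ, l ∣ x + 1 + o → l ∣ x + 1 + o' → o = o' := by
    intro x hx hx'
    have h4 : (x + 1 + o) % l = 0 := Nat.mod_eq_zero_of_dvd hx
    have h5 : (x + 1 + o') % l = 0 := Nat.mod_eq_zero_of_dvd hx'
    have h6 : (x + 1 + o) ≡ (x + 1 + o') [MOD l] := by
      rw [Nat.ModEq, h4, h5]
    have h7 : o ≡ o' [MOD l] := Nat.ModEq.add_left_cancel' _ h6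
    rw [Nat.ModEq, Nat.mod_eq_of_lt ho1, Nat.mod_eq_of_lt ho1'] at h7
    exact h7
  rcases Nat.lt_trichotomy a b with h | h | h
  · have hb : b = a + 1 := by omega
    exact uniq a (key a b o hb ho2) (key a b o' hb ho2')
  · subst h
    exact absurd rfl ho2
  · have hb : a = b + 1 := by omega
    exact uniq b (key b a o hb ho2.symm) (key b a o' hb ho2'.symm)

/-- There is an offset such that the boundaries of the blocks of length `l` are crossed at most
`T / l` times in `T` steps. -/
theorem exists_offset (h : ℕ → ℕ) (hh : ∀ t, h (t + 1) ≤ h t + 1 ∧ h t ≤ h (t + 1) + 1)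
    {l : ℕ} (hl : 1 ≤ l) (T : ℕ) :
    ∃ o < l, l * ((range T).filter fun t => (h t + o) / l ≠ (h (t + 1) + o) / l).card ≤ T := by
  by_contra hcon
  push Not at hcon
  have h1 : ∑ o ∈ range l, ((range T).filter fun t =>
      (h t + o) / l ≠ (h (t + 1) + o) / l).card ≤ T := by
    calc ∑ o ∈ range l, ((range T).filter fun t => (h t + o) / l ≠ (h (t + 1) + o) / l).card
        = ∑ o ∈ range l, ∑ t ∈ range T,
            if (h t + o) / l ≠ (h (t + 1) + o) / l then 1 else 0 := by
          apply Finset.sum_congr rfl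
          intro o _
          rw [Finset.card_filter]
      _ = ∑ t ∈ range T, ∑ o ∈ range l,
            if (h t + o) / l ≠ (h (t + 1) + o) / l then 1 else 0 := Finset.sum_comm
      _ = ∑ t ∈ range T, ((range l).filter fun o =>
            (h t + o) / l ≠ (h (t + 1) + o) / l).card := by
          apply Finset.sum_congr rfl
          intro t _
          rw [Finset.card_filter]
      _ ≤ ∑ _t ∈ range T, 1 := by
          apply Finset.sum_le_sum
          intro t _
          exact div_ne_unique (hh t).1 (hh t).2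
      _ = T := by simp
  have h2 : ∑ _o ∈ range l, (T + 1) ≤ ∑ o ∈ range l, l * ((range T).filter fun t =>
      (h t + o) / l ≠ (h (t + 1) + o) / l).card := by
    apply Finset.sum_le_sum
    intro o ho
    exact hcon o (Finset.mem_range.mp ho)
  rw [← Finset.mul_sum, Finset.sum_const, Finset.card_range, smul_eq_mul] at h2
  have h3 := Nat.mul_le_mul_left l h1
  have h4 : l * (T + 1) ≤ l * T := h2.trans h3
  have h5 := Nat.le_of_mul_le_mul_left h4 (by omega)
  omega

end Vale.Agent.P338.R2.H968
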