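import Vale.Agent.P338.R2.H968.Counters
import Vale.Agent.P338.R2.H968.Good

/-!
P338: a program that finds a prime with a primitive root, with unary files.
-/

namespace Vale.Agent.P338.R2.H968

open Vale.Agent.P338.R2.H898
open Vale.Agent.P338.R2.H784
open Function (update)

set_option linter.unusedSectionVars false

/-- The files of the search: the input ruler, the candidate `p` and a ruler of length `p - 1`,
the candidate `w` and a ruler of length `p - 2`, the counter modulo `p` (two files), the current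
power, the flag, and the two results. -/
inductive SF
  | R | P | D | W | E | C | V | V2 | B | PO | WO
  deriving DecidableEq

variable {M α : Type} {d u : α} {m : M} {v : SF → ℕ × ℕ}

/-- One step of the counter modulo `p`. -/
def cyc (u : α) : Prog M SF α :=
  .seq (op .C .right) (.seq (put .V2 u)
    (.ite (fun _ r => (r .C).isSome) nop (.seq (op .C .rew) (clr .V2))))

/-- The state with counter value `r` modulo `p`. -/
def CS (v : SF → ℕ × ℕ) (p r : ℕ) : SF → ℕ × ℕ :=
  update (update v .C (r, p - r)) .V2 (r, 0)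

theorem run_cyc {p r : ℕ} (hr : r < p) :
    Prog.Run d (cyc u) (ps u m (CS v p r)) 7 (ps u m (CS v p ((r + 1) % p))) := by
  obtain ⟨j, hj⟩ : ∃ j, p - r = j + 1 := ⟨p - r - 1, by omega⟩
  have h1 := runp_right (d := d) (u := u) (m := m) (v := CS v p r) (f := .C) (i := r) (j := j)
    (by simp [CS, hj])
  have h2 := runp_put (d := d) (u := u) (m := m) (v := update (CS v p r) .C (r + 1, j))
    (f := .V2) (i := r) (by simp [CS])
  rcases Nat.eq_zero_or_pos j with hj0 | hj0
  · -- wrap
    have h3 := runp_rew (d := d) (u := u) (m := m)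
      (v := update (update (CS v p r) .C (r + 1, j)) .V2 (r + 1, 0)) .C
    have h4 := runp_clr (d := d) (u := u) (m := m)
      (v := update (update (update (CS v p r) .C (r + 1, j)) .V2 (r + 1, 0)) .C
        (0, (update (update (CS v p r) .C (r + 1, j)) .V2 (r + 1, 0) .C).1 +
          (update (update (CS v p r) .C (r + 1, j)) .V2 (r + 1, 0) .C).2)) .V2
    have h5 := h1.seq (h2.seq (Prog.Run.iteF (c := fun _ r => (r .C).isSome) (p := nop) (by
      rw [ps_isSome]
      simp [hj0]) (h3.seq h4)))
    refine runp_congr h5 rfl ?_ (by norm_num)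
    have e1 : (r + 1) % p = 0 := by
      have : r + 1 = p := by omega
      rw [this, Nat.mod_self]
    rw [e1]
    funext f
    cases f <;> simp [CS, hj0]
    omega
  · have h5 := h1.seq (h2.seq (Prog.Run.iteT (c := fun _ r => (r .C).isSome)
      (q := .seq (op .C .rew) (clr .V2)) (by
      rw [ps_isSome]
      simp [hj0]) (runp_nop (d := d))))
    refine runp_congr h5 rfl ?_ (by norm_num)
    have e1 : (r + 1) % p = r + 1 := Nat.mod_eq_of_lt (by omega)
    rw [e1]
    funext f
    cases f <;> simp [CS]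
    omega

theorem run_cycW {p r b : ℕ} (hr : r < p) (hb : v .W = (0, b)) :
    Prog.Run d (forU .W (cyc u)) (ps u m (CS v p r)) (9 * b + 2)
      (ps u m (CS v p ((r + b) % p))) := by
  refine (runp_for' (d := d) (u := u) (m := m) (f := .W) (p := cyc u) (n := b) (t := 7)
    (fun i => CS v p ((r + i) % p)) ?_ ?_ ?_).mono (by ring_nf; omega)
  · funext f
    cases f <;> simp [CS, hb, Nat.mod_eq_of_lt hr]
  · funext f
    cases f <;> simp [CS, hb]
  · intro i hi
    have h1 := run_cyc (d := d) (u := u) (m := m) (v := update v .W (i, b - i)) (p := p)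
      (r := (r + i) % p) (Nat.mod_lt _ (by omega))
    refine runp_congr h1 ?_ ?_ le_rfl
    · funext f
      cases f <;> simp [CS]
    · rw [Nat.mod_add_mod]
      funext f
      cases f <;> simp [CS, Nat.add_assoc]

theorem run_mulmod {p a b : ℕ} (hp : 0 < p) (ha : v .V = (0, a)) (hb : v .W = (0, b)) :
    Prog.Run d (forU .V (forU .W (cyc u))) (ps u m (CS v p 0)) (9 * (a * b) + 4 * a + 2)
      (ps u m (CS v p ((a * b) % p))) := by
  refine (runp_for' (d := d) (u := u) (m := m) (f := .V) (p := forU .W (cyc u)) (n := a)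
    (t := 9 * b + 2) (fun i => CS v p ((i * b) % p)) ?_ ?_ ?_).mono (by ring_nf; omega)
  · funext f
    cases f <;> simp [CS, ha]
  · funext f
    cases f <;> simp [CS, ha]
  · intro i hi
    have h1 := run_cycW (d := d) (u := u) (m := m) (v := update v .V (i, a - i)) (p := p)
      (r := (i * b) % p) (b := b) (Nat.mod_lt _ hp) (by simp [hb])
    refine runp_congr h1 ?_ ?_ le_rfl
    · funext f
      cases f <;> simp [CS]
    · rw [Nat.mod_add_mod]
      have e : i * b + b = (i + 1) * b := by ring
      rw [e]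
      funext f
      cases f <;> simp [CS]

/-- `V := V * W mod p` (with `C = p`, `V2` empty). -/
def powStep (u : α) : Prog M SF α :=
  .seq (forU .V (forU .W (cyc u))) (.seq (clr .V) (.seq (op .V2 .rew) (.seq (mvU .V2 .V u)
    (.seq (clr .V2) (.seq (op .V .rew) (op .C .rew))))))

theorem run_powStep {p a b : ℕ} (hp : 0 < p) (ha : v .V = (0, a)) (hb : v .W = (0, b))
    (hC : v .C = (0, p)) (hV2 : v .V2 = (0, 0)) (hap : a < p) (hbp : b < p) :
    Prog.Run d (powStep u) (ps u m v) (17 * p ^ 2 + 10) (ps u m (update v .V (0, (a * b) % p))) := by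
  have h0 : v = CS v p 0 := by
    funext f
    cases f <;> simp [CS, hC, hV2]
  set r := (a * b) % p with hr
  have hrp : r < p := Nat.mod_lt _ hp
  have h1 := run_mulmod (d := d) (u := u) (m := m) (v := v) hp ha hb
  rw [← h0, ← hr] at h1
  have h2 := runp_clr (d := d) (u := u) (m := m) (v := CS v p r) .V
  set v2 := update (CS v p r) .V (0, 0) with hv2
  have h3 := runp_rew (d := d) (u := u) (m := m) (v := v2) .V2
  set v3 := update v2 .V2 (0, (v2 .V2).1 + (v2 .V2).2) with hv3
  have e3 : v3 .V2 = (0, r) := by simp [hv3, hv2, CS]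
  have h4 := runp_mv (d := d) (u := u) (m := m) (v := v3) (a := .V2) (b := .V) (by decide)
    (i := 0) (j := r) (k := 0) e3 (by simp [hv3, hv2])
  set v4 := update (update v3 .V2 (0 + r, 0)) .V (0 + r, 0) with hv4
  have h5 := runp_clr (d := d) (u := u) (m := m) (v := v4) .V2
  set v5 := update v4 .V2 (0, 0) with hv5
  have h6 := runp_rew (d := d) (u := u) (m := m) (v := v5) .V
  set v6 := update v5 .V (0, (v5 .V).1 + (v5 .V).2) with hv6
  have h7 := runp_rew (d := d) (u := u) (m := m) (v := v6) .C
  refine runp_congr (h1.seq (h2.seq (h3.seq (h4.seq (h5.seq (h6.seq h7)))))) rfl ?_ ?_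
  · funext f
    cases f <;> simp [hv6, hv5, hv4, hv3, hv2, CS, hC, hV2]
    omega
  · have e1 : a * b ≤ p ^ 2 := by
      rw [pow_two]
      exact Nat.mul_le_mul hap.le hbp.le
    have e2 : a ≤ p ^ 2 := hap.le.trans (Nat.le_self_pow (by norm_num) p)
    have e4 : r ≤ p ^ 2 := hrp.le.trans (Nat.le_self_pow (by norm_num) p)
    omega

/-- Is the number of marks of `V` equal to one? -/
def isOne (a b : Prog M SF α) : Prog M SF α :=
  .ite (fun _ r => (r .V).isSome)
    (.seq (op .V .right) (.ite (fun _ r => (r .V).isSome) (.seq (op .V .rew) b)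
      (.seq (op .V .rew) a))) b

theorem run_isOne {a b : Prog M SF α} {n t : ℕ} {s' : Store M SF α} (hV : v .V = (0, n))
    (h : Prog.Run d (if n = 1 then a else b) (ps u m v) t s') :
    Prog.Run d (isOne a b) (ps u m v) (t + 4) s' := by
  rcases Nat.lt_or_ge n 1 with h0 | h0
  · have hn : n = 0 := by omega
    rw [if_neg (by omega)] at h
    refine (Prog.Run.iteF ?_ h).mono (by omega)
    rw [ps_isSome]
    simp [hV, hn]
  · obtain ⟨j, hj⟩ : ∃ j, n = j + 1 := ⟨n - 1, by omega⟩
    have h1 := runp_right (d := d) (u := u) (m := m) (v := v) (f := .V) (i := 0) (j := j)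
      (by rw [hV, hj])
    have h2 := runp_rew (d := d) (u := u) (m := m) (v := update v .V (0 + 1, j)) .V
    have e2 : update (update v .V (0 + 1, j)) .V (0, (update v .V (0 + 1, j) .V).1 +
        (update v .V (0 + 1, j) .V).2) = v := by
      funext f
      cases f <;> simp [hV, hj]
      omega
    rw [e2] at h2
    have hc : ((ps u m v).reads .V).isSome = true := by
      rw [ps_isSome]
      simp [hV, hj]
    rcases Nat.eq_zero_or_pos j with hj0 | hj0
    · rw [if_pos (by omega)] at h
      refine (Prog.Run.iteT hc (h1.seq (Prog.Run.iteF ?_ (h2.seq h)))).mono (by omega)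
      rw [ps_isSome]
      simp [hj0]
    · rw [if_neg (by omega)] at h
      refine (Prog.Run.iteT hc (h1.seq (Prog.Run.iteT ?_ (h2.seq h)))).mono (by omega)
      rw [ps_isSome]
      simp [hj0]

/-- Raise the flag. -/
def flag (u : α) : Prog M SF α := op .B (.write u)

theorem run_flag {b : ℕ} (hB : v .B = (0, b)) (hb : b ≤ 1) :
    Prog.Run d (flag u) (ps u m v) 1 (ps u m (update v .B (0, 1))) := by
  refine run_of_tri1 ((tri_op SF.B (.write u) _).post ?_)
  rintro s' ⟨h1, h2⟩
  refine ⟨?_, h2⟩
  rw [h1]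
  have h3 : (ps u m v).z SF.B = ⟨[], List.replicate b u⟩ := by simp [ps, hB]
  rw [h3]
  rcases (show b = 0 ∨ b = 1 by omega) with hb | hb <;> subst hb <;> simp [Len, Op.app]


open Classical in
/-- Has a power of `w` with exponent between `1` and `i` the residue `1`? -/
noncomputable def fl (p w i : ℕ) : ℕ := if ∃ j, 1 ≤ j ∧ j ≤ i ∧ w ^ j % p = 1 then 1 else 0

theorem fl_le (p w i : ℕ) : fl p w i ≤ 1 := by
  unfold fl
  split_ifs <;> omega

theorem fl_zero (p w : ℕ) : fl p w 0 = 0 := by
  unfold fl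
  rw [if_neg]
  rintro ⟨j, h1, h2, -⟩
  omega

theorem fl_succ (p w i : ℕ) : fl p w (i + 1) = if w ^ (i + 1) % p = 1 then 1 else fl p w i := by
  unfold fl
  by_cases h : w ^ (i + 1) % p = 1
  · rw [if_pos h, if_pos ⟨i + 1, by omega, le_rfl, h⟩]
  · rw [if_neg h]
    congr 1
    apply propext
    constructor
    · rintro ⟨j, h1, h2, h3⟩
      refine ⟨j, h1, ?_, h3⟩
      by_contra hcon
      have : j = i + 1 := by omega
      exact h (this ▸ h3)
    · rintro ⟨j, h1, h2, h3⟩
      exact ⟨j, h1, by omega, h3⟩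

/-- The loop over the exponents. -/
def powLoop (u : α) : Prog M SF α := forU .E (.seq (isOne (flag u) nop) (powStep u))

/-- The state of the loop over the exponents. -/
noncomputable def LS (v : SF → ℕ × ℕ) (p w i : ℕ) : SF → ℕ × ℕ :=
  update (update v .V (0, w ^ (i + 1) % p)) .B (0, fl p w i)

theorem run_powLoop {p w n : ℕ} (hp : 2 ≤ p) (hw : w < p) (hn : n ≤ p) (hE : v .E = (0, n))
    (hC : v .C = (0, p)) (hV2 : v .V2 = (0, 0)) (hW : v .W = (0, w)) :
    Prog.Run d (powLoop u) (ps u m (LS v p w 0)) (17 * p ^ 3 + 17 * p + 2)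
      (ps u m (LS v p w n)) := by
  refine (runp_for' (d := d) (u := u) (m := m) (f := .E) (p := .seq (isOne (flag u) nop)
    (powStep u)) (n := n) (t := (1 + 4) + (17 * p ^ 2 + 10)) (fun i => LS v p w i) ?_ ?_
    ?_).mono ?_
  · funext f
    cases f <;> simp [LS, hE]
  · funext f
    cases f <;> simp [LS, hE]
  · intro i hi
    set v1 := update (LS v p w i) .E (i, n - i) with hv1
    set v2 := update v1 .B (0, fl p w (i + 1)) with hv2
    have h1 : Prog.Run d (isOne (flag u) nop) (ps u m v1) (1 + 4) (ps u m v2) := by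
      refine run_isOne (n := w ^ (i + 1) % p) (by simp [hv1, LS]) ?_
      by_cases h : w ^ (i + 1) % p = 1
      · rw [if_pos h]
        have h2 := run_flag (d := d) (u := u) (m := m) (v := v1) (b := fl p w i)
          (by simp [hv1, LS]) (fl_le _ _ _)
        refine runp_congr h2 rfl ?_ le_rfl
        rw [hv2, fl_succ, if_pos h]
      · rw [if_neg h]
        refine runp_congr (runp_nop (d := d) (v := v1)) rfl ?_ le_rfl
        rw [hv2, fl_succ, if_neg h]
        funext f
        cases f <;> simp [hv1, LS]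
    have h2 := run_powStep (d := d) (u := u) (m := m) (v := v2) (p := p)
      (a := w ^ (i + 1) % p) (b := w) (by omega) (by simp [hv2, hv1, LS])
      (by simp [hv2, hv1, LS, hW]) (by simp [hv2, hv1, LS, hC]) (by simp [hv2, hv1, LS, hV2])
      (Nat.mod_lt _ (by omega)) hw
    refine runp_congr (h1.seq h2) rfl ?_ le_rfl
    have e : w ^ (i + 1) % p * w % p = w ^ (i + 1 + 1) % p := by
      rw [Nat.mod_mul_mod, ← pow_succ]
    rw [e]
    funext f
    cases f <;> simp [hv2, hv1, LS]
  · have : n * (1 + 4 + (17 * p ^ 2 + 10) + 2) ≤ p * (1 + 4 + (17 * p ^ 2 + 10) + 2) :=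
      Nat.mul_le_mul_right _ hn
    calc n * (1 + 4 + (17 * p ^ 2 + 10) + 2) + 2 ≤ p * (1 + 4 + (17 * p ^ 2 + 10) + 2) + 2 := by
          omega
      _ = 17 * p ^ 3 + 17 * p + 2 := by ring

/-- The test of the candidate. -/
def chk (u : α) : Prog M SF α :=
  .seq (cpU .P .C u) (.seq (cpU .W .V u) (.seq (op .P .right) (.seq (op .P .right)
    (.seq (mvU .P .E u) (.seq (op .P .rew) (.seq (op .E .rew) (.seq (powLoop u)
    (.seq (isOne nop (flag u)) (.seq (.ite (fun _ r => (r .B).isSome) nop
      (.seq (cpU .P .PO u) (cpU .W .WO u))) (.seq (clr .V) (.seq (clr .E)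
      (.seq (clr .C) (clr .B)))))))))))))

/-- The state with the results `o`. -/
def outV (v : SF → ℕ × ℕ) : Option (ℕ × ℕ) → SF → ℕ × ℕ
  | none => v
  | some (p, w) => update (update v .PO (0, p)) .WO (0, w)

open Classical in
/-- The results after the test of the candidate `(p, w)`. -/
noncomputable def nxt (p w : ℕ) (o : Option (ℕ × ℕ)) : Option (ℕ × ℕ) :=
  if Good p w then some (p, w) else o

theorem good_iff {p w : ℕ} (hp : 2 ≤ p) :
    Good p w ↔ fl p w (p - 2) = 0 ∧ w ^ (p - 1) % p = 1 := by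
  unfold Good fl
  constructor
  · rintro ⟨-, h1, h2⟩
    refine ⟨?_, h2⟩
    rw [if_neg]
    rintro ⟨j, h3, h4, h5⟩
    exact h1 j h3 h4 h5
  · rintro ⟨h1, h2⟩
    refine ⟨hp, fun i h3 h4 h5 => ?_, h2⟩
    rw [if_pos ⟨i, h3, h4, h5⟩] at h1
    omega

theorem run_chk {p w : ℕ} (hp : 2 ≤ p) (hw : w < p) {v : SF → ℕ × ℕ} {o : Option (ℕ × ℕ)}
    (hP : v .P = (0, p)) (hW : v .W = (0, w)) (hE : v .E = (0, 0)) (hC : v .C = (0, 0))
    (hV : v .V = (0, 0)) (hV2 : v .V2 = (0, 0)) (hB : v .B = (0, 0)) :
    Prog.Run d (chk u) (ps u m (outV v o)) (40 * p ^ 3) (ps u m (outV v (nxt p w o))) := by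
  classical
  have hoP : ∀ f, f ≠ SF.PO → f ≠ SF.WO → outV v o f = v f := by
    intro f h1 h2
    rcases o with _ | ⟨p', w'⟩
    · rfl
    · simp [outV, h1, h2]
  obtain ⟨j, hj⟩ : ∃ j, p = j + 2 := ⟨p - 2, by omega⟩
  set v0 := outV v o with hv0
  have h1 := runp_cp (d := d) (u := u) (m := m) (v := v0) (a := .P) (b := .C) (by decide)
    (n := p) (by rw [hoP _ (by decide) (by decide), hP])
  set v1 := update v0 .C (0, p) with hv1
  have h2 := runp_cp (d := d) (u := u) (m := m) (v := v1) (a := .W) (b := .V) (by decide)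
    (n := w) (by simp [hv1, hoP, hW])
  set v2 := update v1 .V (0, w) with hv2
  have h3 := runp_right (d := d) (u := u) (m := m) (v := v2) (f := .P) (i := 0) (j := j + 1)
    (by simp [hv2, hv1, hoP, hP, hj])
  set v3 := update v2 .P (0 + 1, j + 1) with hv3
  have h4 := runp_right (d := d) (u := u) (m := m) (v := v3) (f := .P) (i := 1) (j := j)
    (by simp [hv3])
  set v4 := update v3 .P (1 + 1, j) with hv4
  have h5 := runp_mv (d := d) (u := u) (m := m) (v := v4) (a := .P) (b := .E) (by decide)
    (i := 2) (j := j) (k := 0) (by simp [hv4]) (by simp [hv4, hv3, hv2, hv1, hoP, hE])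
  set v5 := update (update v4 .P (2 + j, 0)) .E (0 + j, 0) with hv5
  have h6 := runp_rew (d := d) (u := u) (m := m) (v := v5) .P
  set v6 := update v5 .P (0, (v5 .P).1 + (v5 .P).2) with hv6
  have h7 := runp_rew (d := d) (u := u) (m := m) (v := v6) .E
  set v7 := update v6 .E (0, (v6 .E).1 + (v6 .E).2) with hv7
  have e7 : v7 = LS v7 p w 0 := by
    funext f
    cases f <;> simp [hv7, hv6, hv5, hv4, hv3, hv2, hv1, LS, hoP, hB, fl_zero,
      Nat.mod_eq_of_lt hw]
  have h8 := run_powLoop (d := d) (u := u) (m := m) (v := v7) (p := p) (w := w) (n := p - 2) hp hw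
    (by omega) (by simp [hv7, hv6, hv5, hj]) (by simp [hv7, hv6, hv5, hv4, hv3, hv2, hv1])
    (by simp [hv7, hv6, hv5, hv4, hv3, hv2, hv1, hoP, hV2])
    (by simp [hv7, hv6, hv5, hv4, hv3, hv2, hv1, hoP, hW])
  rw [← e7] at h8
  set v8 := LS v7 p w (p - 2) with hv8
  set b : ℕ := if Good p w then 0 else 1 with hb
  set v9 := update v8 .B (0, b) with hv9
  have hV8 : v8 .V = (0, w ^ (p - 1) % p) := by
    have : p - 2 + 1 = p - 1 := by omega
    simp [hv8, LS, this]
  have hB8 : v8 .B = (0, fl p w (p - 2)) := by simp [hv8, LS]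
  have h9 : Prog.Run d (isOne nop (flag u)) (ps u m v8) (1 + 4) (ps u m v9) := by
    refine run_isOne hV8 ?_
    by_cases h : w ^ (p - 1) % p = 1
    · rw [if_pos h]
      refine runp_congr (runp_nop (d := d) (v := v8)) rfl ?_ le_rfl
      have e : b = fl p w (p - 2) := by
        rw [hb]
        by_cases hg : Good p w
        · rw [if_pos hg, ((good_iff hp).mp hg).1]
        · rw [if_neg hg]
          have h10 : fl p w (p - 2) ≠ 0 := fun h0 => hg ((good_iff hp).mpr ⟨h0, h⟩)
          have h11 := fl_le p w (p - 2)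
          omega
      rw [hv9, e, ← hB8, Function.update_eq_self]
    · rw [if_neg h]
      have h10 := run_flag (d := d) (u := u) (m := m) (v := v8) hB8 (fl_le _ _ _)
      refine runp_congr h10 rfl ?_ le_rfl
      have e : b = 1 := by
        rw [hb, if_neg]
        exact fun hg => h ((good_iff hp).mp hg).2
      rw [hv9, e]
  have hP9 : v9 .P = (0, p) := by
    simp [hv9, hv8, LS, hv7, hv6, hv5, hj, Nat.add_comm]
  have hW9 : v9 .W = (0, w) := by
    simp [hv9, hv8, LS, hv7, hv6, hv5, hv4, hv3, hv2, hv1, hoP, hW]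
  set v10 := if Good p w then update (update v9 .PO (0, p)) .WO (0, w) else v9 with hv10
  have h10 : Prog.Run d (.ite (fun _ r => (r .B).isSome) nop
      (.seq (cpU .P .PO u) (cpU .W .WO u))) (ps u m v9) (1 + (8 * p + 10)) (ps u m v10) := by
    by_cases hg : Good p w
    · rw [hv10, if_pos hg]
      have e1 := runp_cp (d := d) (u := u) (m := m) (v := v9) (a := .P) (b := .PO) (by decide) hP9
      have e2 := runp_cp (d := d) (u := u) (m := m) (v := update v9 .PO (0, p)) (a := .W)
        (b := .WO) (by decide) (n := w) (by simp [hW9])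
      refine (Prog.Run.iteF ?_ (e1.seq e2)).mono (by omega)
      rw [ps_isSome]
      simp [hv9, hb, hg]
    · rw [hv10, if_neg hg]
      refine (Prog.Run.iteT ?_ (runp_nop (d := d))).mono (by omega)
      rw [ps_isSome]
      simp [hv9, hb, hg]
  have h11 := runp_clr (d := d) (u := u) (m := m) (v := v10) .V
  set v11 := update v10 .V (0, 0) with hv11
  have h12 := runp_clr (d := d) (u := u) (m := m) (v := v11) .E
  set v12 := update v11 .E (0, 0) with hv12
  have h13 := runp_clr (d := d) (u := u) (m := m) (v := v12) .C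
  set v13 := update v12 .C (0, 0) with hv13
  have h14 := runp_clr (d := d) (u := u) (m := m) (v := v13) .B
  refine runp_congr (h1.seq (h2.seq (h3.seq (h4.seq (h5.seq (h6.seq (h7.seq (h8.seq (h9.seq
    (h10.seq (h11.seq (h12.seq (h13.seq h14))))))))))))) rfl ?_ ?_
  · by_cases hg : Good p w
    · have e1 : nxt p w o = some (p, w) := by simp [nxt, hg]
      rw [e1]
      simp only [hv13, hv12, hv11, hv10, if_pos hg]
      funext f
      cases f <;> simp [hv9, hv8, LS, hv7, hv6, hv5, hv4, hv3, hv2, hv1, outV, hoP, hP, hW, hE,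
        hC, hV, hV2, hB, hj, Nat.add_comm]
    · have e1 : nxt p w o = o := by simp [nxt, hg]
      rw [e1, ← hv0]
      simp only [hv13, hv12, hv11, hv10, if_neg hg]
      funext f
      cases f <;> simp [hv9, hv8, LS, hv7, hv6, hv5, hv4, hv3, hv2, hv1, hoP, hP, hW, hE,
        hC, hV, hV2, hB, hj, Nat.add_comm]
  · have e1 : p ≤ p ^ 3 := Nat.le_self_pow (by norm_num) p
    have e2 : 4 * p ≤ p ^ 3 := by
      calc 4 * p = 2 * 2 * p := by ring
        _ ≤ p * p * p := by gcongr
        _ = p ^ 3 := by ring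
    omega

end Vale.Agent.P338.R2.H968
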