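import Vale.Agent.P338.R2.H968.Search
import Vale.Agent.P338.R2.H898.Frame

/-!
P338: a program that finds a prime with a primitive root: the loops over the candidates.
-/

namespace Vale.Agent.P338.R2.H968

open Vale.Agent.P338.R2.H898
open Vale.Agent.P338.R2.H784
open Function (update)

set_option linter.unusedSectionVars false

variable {M α : Type} {d u : α} {m : M} {v : SF → ℕ × ℕ}

/-- The results after the candidates `w = 1, …, k`. -/
noncomputable def wl (p : ℕ) : ℕ → Option (ℕ × ℕ) → Option (ℕ × ℕ)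
  | 0, o => o
  | k + 1, o => nxt p (k + 1) (wl p k o)

/-- The results after the candidates `p = n + 1, …, n + k`. -/
noncomputable def pl (n : ℕ) : ℕ → Option (ℕ × ℕ)
  | 0 => none
  | k + 1 => wl (n + k + 1) (n + k) (pl n k)

theorem wl_some {p k : ℕ} {o : Option (ℕ × ℕ)} {x : ℕ × ℕ} (h : wl p k o = some x) :
    o = some x ∨ (x.1 = p ∧ 1 ≤ x.2 ∧ x.2 ≤ k ∧ Good x.1 x.2) := by
  induction k with
  | zero => exact Or.inl h
  | succ k ih =>
    rw [wl, nxt] at h
    split_ifs at h with hg
    · right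
      simp only [Option.some.injEq] at h
      subst h
      exact ⟨rfl, by omega, le_rfl, hg⟩
    · rcases ih h with h1 | ⟨h1, h2, h3, h4⟩
      · exact Or.inl h1
      · exact Or.inr ⟨h1, h2, by omega, h4⟩

theorem wl_ne_none {p k : ℕ} {o : Option (ℕ × ℕ)} (h : o ≠ none) : wl p k o ≠ none := by
  induction k with
  | zero => exact h
  | succ k ih =>
    rw [wl, nxt]
    split_ifs
    · simp
    · exact ih

theorem wl_ne_none' {p k w : ℕ} {o : Option (ℕ × ℕ)} (h1 : 1 ≤ w) (h2 : w ≤ k)
    (hg : Good p w) : wl p k o ≠ none := by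
  induction k with
  | zero => omega
  | succ k ih =>
    rw [wl, nxt]
    rcases Nat.lt_or_ge k w with h3 | h3
    · have : w = k + 1 := by omega
      subst this
      rw [if_pos hg]
      simp
    · split_ifs
      · simp
      · exact ih h3

theorem pl_some {n k : ℕ} {x : ℕ × ℕ} (h : pl n k = some x) :
    n < x.1 ∧ x.1 ≤ n + k ∧ 1 ≤ x.2 ∧ x.2 < x.1 ∧ Good x.1 x.2 := by
  induction k with
  | zero => simp [pl] at h
  | succ k ih =>
    rw [pl] at h
    rcases wl_some h with h1 | ⟨h1, h2, h3, h4⟩
    · obtain ⟨h5, h6, h7⟩ := ih h1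
      exact ⟨h5, by omega, h7⟩
    · exact ⟨by omega, by omega, h2, by omega, h4⟩

theorem pl_ne_none {n k p w : ℕ} (h1 : n < p) (h2 : p ≤ n + k) (h3 : 1 ≤ w) (h4 : w < p)
    (hg : Good p w) : pl n k ≠ none := by
  induction k with
  | zero => omega
  | succ k ih =>
    rw [pl]
    rcases Nat.lt_or_ge (n + k) p with h5 | h5
    · have : p = n + k + 1 := by omega
      subst this
      exact wl_ne_none' h3 (by omega) hg
    · exact wl_ne_none (ih h5)

theorem pl_final {n : ℕ} (hn : 1 ≤ n) : ∃ p w, pl n n = some (p, w) ∧ n < p ∧ p ≤ 2 * n ∧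
    1 ≤ w ∧ w < p ∧ Good p w := by
  obtain ⟨p, w, h1, h2, h3, h4, h5⟩ := exists_good hn
  have h6 := pl_ne_none (n := n) (k := n) h1 (by omega) h3 h4 h5
  obtain ⟨⟨p', w'⟩, hx⟩ := Option.ne_none_iff_exists'.mp h6
  obtain ⟨h7, h8, h9, h10, h11⟩ := pl_some hx
  exact ⟨p', w', hx, h7, by simp only at h8; omega, h9, h10, h11⟩

/-- The loop over the candidates `w` for a given `p`. -/
def wLoop (u : α) : Prog M SF α :=
  .seq (op .P .right) (.seq (mvU .P .D u) (.seq (op .P .rew) (.seq (op .D .rew)
    (.seq (forU .D (.seq (incU .W u) (chk u))) (.seq (clr .D) (clr .W))))))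

/-- The clean states. -/
structure Cln (v : SF → ℕ × ℕ) : Prop where
  D : v .D = (0, 0)
  W : v .W = (0, 0)
  E : v .E = (0, 0)
  C : v .C = (0, 0)
  V : v .V = (0, 0)
  V2 : v .V2 = (0, 0)
  B : v .B = (0, 0)

theorem outV_of_ne {o : Option (ℕ × ℕ)} {f : SF} (h1 : f ≠ .PO) (h2 : f ≠ .WO) :
    outV v o f = v f := by
  rcases o with _ | ⟨p', w'⟩
  · rfl
  · simp [outV, h1, h2]

theorem outV_update {o : Option (ℕ × ℕ)} {f : SF} (h1 : f ≠ .PO) (h2 : f ≠ .WO) (x : ℕ × ℕ) :
    update (outV v o) f x = outV (update v f x) o := by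
  rcases o with _ | ⟨p', w'⟩
  · rfl
  · simp only [outV]
    rw [Function.update_comm h2.symm, Function.update_comm h1.symm]

theorem run_wLoop {p : ℕ} (hp : 2 ≤ p) {o : Option (ℕ × ℕ)} (hP : v .P = (0, p)) (hv : Cln v) :
    Prog.Run d (wLoop u) (ps u m (outV v o)) (50 * p ^ 4)
      (ps u m (outV v (wl p (p - 1) o))) := by
  obtain ⟨j, hj⟩ : ∃ j, p = j + 1 := ⟨p - 1, by omega⟩
  set v0 := outV v o with hv0
  have h1 := runp_right (d := d) (u := u) (m := m) (v := v0) (f := .P) (i := 0) (j := j)
    (by rw [hv0, outV_of_ne (by decide) (by decide), hP, hj])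
  set v1 := update v0 .P (0 + 1, j) with hv1
  have h2 := runp_mv (d := d) (u := u) (m := m) (v := v1) (a := .P) (b := .D) (by decide)
    (i := 1) (j := j) (k := 0) (by simp [hv1])
    (by simp [hv1, hv0, outV_of_ne, hv.D])
  set v2 := update (update v1 .P (1 + j, 0)) .D (0 + j, 0) with hv2
  have h3 := runp_rew (d := d) (u := u) (m := m) (v := v2) .P
  set v3 := update v2 .P (0, (v2 .P).1 + (v2 .P).2) with hv3
  have h4 := runp_rew (d := d) (u := u) (m := m) (v := v3) .D
  set v4 := update v3 .D (0, (v3 .D).1 + (v3 .D).2) with hv4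
  have h5 := runp_for' (d := d) (u := u) (m := m) (f := .D) (p := .seq (incU .W u) (chk u))
    (n := p - 1) (t := (2 * p + 4) + 40 * p ^ 3)
    (fun i => update (outV v (wl p i o)) .W (0, i)) (v := v4)
    (w := update (update (outV v (wl p (p - 1) o)) .W (0, p - 1)) .D (0, p - 1)) ?_ rfl ?_
  · set v5 := update (update (outV v (wl p (p - 1) o)) .W (0, p - 1)) .D (0, p - 1) with hv5
    have h6 := runp_clr (d := d) (u := u) (m := m) (v := v5) .D
    have h7 := runp_clr (d := d) (u := u) (m := m) (v := update v5 .D (0, 0)) .W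
    refine runp_congr (h1.seq (h2.seq (h3.seq (h4.seq (h5.seq (h6.seq h7)))))) rfl ?_ ?_
    · rw [hv5, Function.update_idem, Function.update_comm (by decide : (SF.W : SF) ≠ .D),
        Function.update_idem, outV_update (by decide) (by decide),
        outV_update (by decide) (by decide)]
      congr 1
      funext f
      cases f <;> simp [hv.D, hv.W]
    · have e1 : (p - 1) * (2 * p + 4 + 40 * p ^ 3 + 2) ≤ p * (2 * p + 4 + 40 * p ^ 3 + 2) :=
        Nat.mul_le_mul_right _ (by omega)
      have e2 : p * (2 * p + 4 + 40 * p ^ 3 + 2) = 40 * p ^ 4 + 2 * p ^ 2 + 6 * p := by ring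
      have e3 : 4 * p ^ 2 ≤ p ^ 4 := by
        calc 4 * p ^ 2 = 2 * 2 * p ^ 2 := by ring
          _ ≤ p * p * p ^ 2 := by gcongr
          _ = p ^ 4 := by ring
      have e4 : 2 * p ≤ p ^ 2 := by nlinarith
      omega
  · funext f
    cases f <;> simp [hv4, hv3, hv2, hv1, hv0, outV_of_ne, hj, hv.W, wl, hP, Nat.add_comm]
  · intro i hi
    set w0 := update (update (outV v (wl p i o)) .W (0, i)) .D (i, p - 1 - i) with hw0
    have g1 := runp_inc (d := d) (u := u) (m := m) (v := w0) (f := .W) (n := i) (by simp [hw0])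
    set v' := update (update v .W (0, i + 1)) .D (i, p - 1 - i) with hv'
    have e1 : update w0 .W (0, i + 1) = outV v' (wl p i o) := by
      rw [hv', ← outV_update (by decide) (by decide), ← outV_update (by decide) (by decide), hw0]
      funext f
      cases f <;> simp
    have g2 := run_chk (d := d) (u := u) (m := m) (v := v') (p := p) (w := i + 1)
      (o := wl p i o) hp (by omega) (by simp [hv', hP]) (by simp [hv']) (by simp [hv', hv.E])
      (by simp [hv', hv.C]) (by simp [hv', hv.V]) (by simp [hv', hv.V2]) (by simp [hv', hv.B])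
    rw [← e1] at g2
    refine runp_congr (g1.seq g2) rfl ?_ (by omega)
    rw [hv', ← outV_update (by decide) (by decide), ← outV_update (by decide) (by decide)]
    rfl

/-- The whole search. -/
def searchPW (u : α) : Prog M SF α :=
  .seq (cpU .R .P u) (.seq (forU .R (.seq (incU .P u) (wLoop u))) (clr .P))

/-- The input state. -/
def inV (n : ℕ) : SF → ℕ × ℕ := fun f => if f = .R then (0, n) else (0, 0)

theorem run_searchPW {n : ℕ} (hn : 1 ≤ n) :
    ∃ p w, n < p ∧ p ≤ 2 * n ∧ 1 ≤ w ∧ w < p ∧ Good p w ∧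
      Prog.Run d (searchPW u) (ps u m (inV n)) (830 * n ^ 5)
        (ps u m (update (update (inV n) .PO (0, p)) .WO (0, w))) := by
  obtain ⟨p, w, hpw, h1, h2, h3, h4, h5⟩ := pl_final hn
  refine ⟨p, w, h1, h2, h3, h4, h5, ?_⟩
  have g1 := runp_cp (d := d) (u := u) (m := m) (v := inV n) (a := .R) (b := .P) (by decide)
    (n := n) (by simp [inV])
  set v1 := update (inV n) .P (0, n) with hv1
  have g2 := runp_for' (d := d) (u := u) (m := m) (f := .R) (p := .seq (incU .P u) (wLoop u))
    (n := n) (t := (2 * (2 * n) + 4) + 50 * (2 * n) ^ 4)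
    (fun i => outV (update v1 .P (0, n + i)) (pl n i)) (v := v1)
    (w := outV (update v1 .P (0, n + n)) (pl n n)) ?_ ?_ ?_
  · have g3 := runp_clr (d := d) (u := u) (m := m)
      (v := outV (update v1 .P (0, n + n)) (pl n n)) .P
    refine runp_congr (g1.seq (g2.seq g3)) rfl ?_ ?_
    · rw [outV_update (by decide) (by decide), hpw]
      funext f
      cases f <;> simp [outV, hv1, inV]
    · have e1 : n * (2 * (2 * n) + 4 + 50 * (2 * n) ^ 4 + 2) = 800 * n ^ 5 + 4 * n ^ 2 + 6 * n := by
        ring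
      have e2 : n ^ 2 ≤ n ^ 5 := Nat.pow_le_pow_right hn (by norm_num)
      have e3 : n ≤ n ^ 5 := Nat.le_self_pow (by norm_num) n
      omega
  · funext f
    cases f <;> simp [pl, outV, hv1, inV]
  · rw [outV_update (by decide) (by decide)]
    congr 1
    funext f
    cases f <;> simp [hv1, inV]
  · intro i hi
    set w0 := update (outV (update v1 .P (0, n + i)) (pl n i)) .R (i, n - i) with hw0
    have k1 := runp_inc (d := d) (u := u) (m := m) (v := w0) (f := .P) (n := n + i)
      (by simp [hw0, outV_of_ne])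
    set v' := update (update v1 .P (0, n + i + 1)) .R (i, n - i) with hv'
    have e1 : update w0 .P (0, n + i + 1) = outV v' (pl n i) := by
      rw [hw0, outV_update (by decide) (by decide), outV_update (by decide) (by decide), hv']
      congr 1
      funext f
      cases f <;> simp
    have k2 := run_wLoop (d := d) (u := u) (m := m) (v := v') (p := n + i + 1) (o := pl n i)
      (by omega) (by simp [hv']) (by
        constructor <;> simp [hv', hv1, inV])
    rw [← e1] at k2
    refine runp_congr (k1.seq k2) rfl ?_ ?_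
    · have e2 : n + i + 1 - 1 = n + i := by omega
      rw [e2, outV_update (by decide) (by decide)]
      rfl
    · have e3 : (n + i + 1) ^ 4 ≤ (2 * n) ^ 4 := Nat.pow_le_pow_left (by omega) 4
      omega

/-- The search inside a larger set of files. -/
def searchIn {F : Type} (ι : SF → F) (u : α) : Prog M F α :=
  (searchPW u : Prog M SF α).map (Lens.idL M) ι

theorem run_searchIn {F : Type} [DecidableEq F] {ι : SF → F} (hι : Function.Injective ι)
    {z : F → Zip α} {n : ℕ} (hn : 1 ≤ n) (hR : z (ι .R) = ⟨[], List.replicate n u⟩)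
    (h0 : ∀ f, f ≠ SF.R → z (ι f) = ⟨[], []⟩) :
    ∃ p w, n < p ∧ p ≤ 2 * n ∧ 1 ≤ w ∧ w < p ∧ Good p w ∧
      Prog.Run d (searchIn ι u) ⟨m, z⟩ (830 * n ^ 5)
        ⟨m, update (update z (ι .PO) ⟨[], List.replicate p u⟩) (ι .WO)
          ⟨[], List.replicate w u⟩⟩ := by
  obtain ⟨p, w, h1, h2, h3, h4, h5, h6⟩ := run_searchPW (d := d) (u := u) (m := m) hn
  refine ⟨p, w, h1, h2, h3, h4, h5, ?_⟩
  have hpull : Store.pull (Lens.idL M) ι (⟨m, z⟩ : Store M F α) = ps u m (inV n) := by
    simp only [Store.pull, Lens.idL, ps, Store.mk.injEq, true_and]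
    funext f
    by_cases hf : f = SF.R
    · subst hf
      simp [inV, hR]
    · simp [inV, hf, h0 f hf]
  have h7 := Prog.Run.map (L := Lens.idL M) hι h6 hpull
  have h8 : Store.put (Lens.idL M) ι (⟨m, z⟩ : Store M F α)
      (ps u m (update (update (inV n) .PO (0, p)) .WO (0, w))) =
      ⟨m, update (update z (ι .PO) ⟨[], List.replicate p u⟩) (ι .WO)
        ⟨[], List.replicate w u⟩⟩ := by
    simp only [Store.put, Lens.idL, ps, Store.mk.injEq, true_and]
    funext g
    by_cases hg : ∃ f, ι f = g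
    · obtain ⟨f, rfl⟩ := hg
      rw [hι.extend_apply]
      by_cases hf1 : f = SF.WO
      · subst hf1
        simp
      · rw [Function.update_of_ne (fun h => hf1 (hι h))]
        by_cases hf2 : f = SF.PO
        · subst hf2
          simp
        · rw [Function.update_of_ne (fun h => hf2 (hι h))]
          by_cases hf3 : f = SF.R
          · subst hf3
            simp [inV, hR]
          · simp [inV, hf1, hf2, hf3, h0 f hf3]
    · rw [Function.extend_apply' _ _ _ hg, Function.update_of_ne, Function.update_of_ne]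
      · rintro rfl
        exact hg ⟨_, rfl⟩
      · rintro rfl
        exact hg ⟨_, rfl⟩
  rw [← h8]
  exact h7

end Vale.Agent.P338.R2.H968
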