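import Vale.Agent.P338.R2.H968.Env

/-!
Simulation of the machine `A` on files, with a clock.
-/

namespace Vale.Agent.P338.R2.H968

open Vale.Agent.P338.R2.H898 Prog

variable {A : MTM}

section rep

variable {α : Type} {d : α} {dec : α → A.Sym} {enc : A.Sym → α} {c : ℕ → A.Sym} {h : ℕ}
  {z : Zip α}

/-- The file `z` represents the tape contents `c` with head position `h`. -/
def Rep (A : MTM) {α : Type} (dec : α → A.Sym) (c : ℕ → A.Sym) (h : ℕ) (z : Zip α) : Prop :=
  z.l.length = h ∧ ∀ p, ((z.full[p]?).map dec).getD A.blank = c p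

theorem Rep.peek (hz : Rep A dec c h z) : (z.peek.map dec).getD A.blank = c h := by
  obtain ⟨h1, h2⟩ := hz
  rw [← h2 h, ← h1]
  rcases z with ⟨l, _ | ⟨a, r⟩⟩ <;> simp [Zip.full, Zip.peek]

theorem Rep.write (hz : Rep A dec c h z) (he : ∀ a, dec (enc a) = a) (s : A.Sym) :
    Rep A dec (Function.update c h s) h ((Op.write (enc s)).app d z) := by
  obtain ⟨h1, h2⟩ := hz
  subst h1
  rcases z with ⟨l, _ | ⟨a, r⟩⟩
  · refine ⟨rfl, fun p => ?_⟩
    simp only [app_write_nil, Zip.full] at h2 ⊢
    rcases lt_trichotomy p l.length with hp | hp | hp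
    · rw [Function.update_of_ne (by omega), ← h2 p, List.getElem?_append_left (by simpa using hp),
        List.getElem?_append_left (by simpa using hp)]
    · subst hp
      simp [he]
    · rw [Function.update_of_ne (by omega), ← h2 p, List.getElem?_eq_none (by simp; omega),
        List.getElem?_eq_none (by simp; omega)]
  · refine ⟨rfl, fun p => ?_⟩
    simp only [app_write_cons, Zip.full] at h2 ⊢
    rcases lt_trichotomy p l.length with hp | hp | hp
    · rw [Function.update_of_ne (by omega), ← h2 p, List.getElem?_append_left (by simpa using hp),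
        List.getElem?_append_left (by simpa using hp)]
    · subst hp
      simp [he]
    · rw [Function.update_of_ne (by omega), ← h2 p,
        List.getElem?_append_right (by simp; omega),
        List.getElem?_append_right (by simp; omega)]
      obtain ⟨q, rfl⟩ : ∃ q, p = l.length + 1 + q := ⟨p - (l.length + 1), by omega⟩
      have : l.length + 1 + q - l.reverse.length = q + 1 := by simp; omega
      rw [this, List.getElem?_cons_succ, List.getElem?_cons_succ]

theorem Rep.right (hz : Rep A dec c h z) (hd : dec d = A.blank) :
    Rep A dec c (h + 1) ((Op.right).app d z) := by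
  obtain ⟨h1, h2⟩ := hz
  subst h1
  rcases z with ⟨l, _ | ⟨a, r⟩⟩
  · refine ⟨by simp, fun p => ?_⟩
    simp only [app_right_nil, Zip.full] at h2 ⊢
    rw [← h2 p]
    rcases lt_trichotomy p l.length with hp | hp | hp
    · rw [List.reverse_cons, List.append_assoc, List.getElem?_append_left (by simpa using hp),
        List.getElem?_append_left (by simpa using hp)]
    · subst hp
      simp [hd]
    · rw [List.getElem?_eq_none (by simp; omega), List.getElem?_eq_none (by simp; omega)]
  · refine ⟨by simp, fun p => ?_⟩
    simp only [app_right_cons, Zip.full] at h2 ⊢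
    rw [← h2 p, List.reverse_cons, List.append_assoc]
    rfl

theorem Rep.left (hz : Rep A dec c h z) : Rep A dec c (h - 1) ((Op.left).app d z) := by
  obtain ⟨h1, h2⟩ := hz
  subst h1
  rcases z with ⟨_ | ⟨a, l⟩, r⟩
  · exact ⟨by simp, fun p => by simpa using h2 p⟩
  · refine ⟨by simp, fun p => ?_⟩
    simp only [app_left_cons, Zip.full] at h2 ⊢
    rw [← h2 p, List.reverse_cons, List.append_assoc]
    rfl

/-- The operation of a move. -/
def mvOp {α : Type} : Move → Option (Op α)
  | .left => some .left
  | .stay => none
  | .right => some .right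

theorem Rep.move (hz : Rep A dec c h z) (hd : dec d = A.blank) (mv : Move) :
    Rep A dec c (mv.app h) (oapp d (mvOp mv) z) := by
  cases mv
  · exact hz.left
  · exact hz
  · exact hz.right hd

/-- The effect of an action of `A` on a file. -/
def actZ (enc : A.Sym → α) (d : α) (a : A.Sym × Move) (z : Zip α) : Zip α :=
  oapp d (mvOp a.2) ((Op.write (enc a.1)).app d z)

theorem Rep.actZ (hz : Rep A dec c h z) (he : ∀ a, dec (enc a) = a) (hd : dec d = A.blank)
    (a : A.Sym × Move) :
    Rep A dec (Function.update c h a.1) (a.2.app h) (actZ enc d a z) :=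
  (hz.write he a.1).move hd a.2

end rep

theorem appF_map {α : Type} (d : α) (cf : CFile → Zip α) (i : A.Tape) (w : Option (Op α)) :
    appF A d cf (w.map fun o => (.inl i, o)) = cf := by
  cases w <;> rfl

open Classical in
theorem appT_map {α : Type} (d : α) (ta : A.Tape → Zip α) (i : A.Tape) (w : Option (Op α)) :
    appT d ta (w.map fun o => (.inl i, o)) = Function.update ta i (oapp d w (ta i)) := by
  cases w
  · simp [appT, oapp]
  · rfl

/-- The list of the tapes of `A`. -/
noncomputable def tapes (A : MTM) : List A.Tape :=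
  haveI := A.finTape
  haveI := Fintype.ofFinite A.Tape
  (Finset.univ : Finset A.Tape).toList

theorem tapes_nodup (A : MTM) : (tapes A).Nodup := Finset.nodup_toList _

theorem mem_tapes {A : MTM} (i : A.Tape) : i ∈ tapes A := by
  simp [tapes]

/-- The four files. -/
def cfs {α : Type} (X Y K R : Zip α) : CFile → Zip α
  | .opX => X
  | .opY => Y
  | .clk => K
  | .res => R

section cfs

variable {α : Type} (X Y K R v : Zip α)

@[simp] theorem cfs_opX : cfs X Y K R .opX = X := rfl
@[simp] theorem cfs_opY : cfs X Y K R .opY = Y := rfl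
@[simp] theorem cfs_clk : cfs X Y K R .clk = K := rfl
@[simp] theorem cfs_res : cfs X Y K R .res = R := rfl

@[simp] theorem update_cfs_opX : Function.update (cfs X Y K R) .opX v = cfs v Y K R := by
  funext j; cases j <;> rfl
@[simp] theorem update_cfs_opY : Function.update (cfs X Y K R) .opY v = cfs X v K R := by
  funext j; cases j <;> rfl
@[simp] theorem update_cfs_clk : Function.update (cfs X Y K R) .clk v = cfs X Y v R := by
  funext j; cases j <;> rfl
@[simp] theorem update_cfs_res : Function.update (cfs X Y K R) .res v = cfs X Y K v := by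
  funext j; cases j <;> rfl

end cfs

namespace CallEnv

variable {M F α : Type} [DecidableEq F] {d : α} (E : CallEnv A M F α d)

open Classical in
theorem run_tape (i : A.Tape) (o : Op α) (x : CallMem A) (ta : A.Tape → Zip α)
    (cf : CFile → Zip α) (z : F → Zip α) (m : M) :
    Run d (E.primT fun x _ _ => (x, some (.inl i, o))) (E.St x ta cf z m) 1
      (E.St x (Function.update ta i (o.app d (ta i))) cf z m) :=
  E.run_primT _ x ta cf z m rfl

theorem run_file (j : CFile) (o : Op α) (x : CallMem A) (ta : A.Tape → Zip α)
    (cf : CFile → Zip α) (z : F → Zip α) (m : M) :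
    Run d (E.primT fun x _ _ => (x, some (.inr j, o))) (E.St x ta cf z m) 1
      (E.St x ta (Function.update cf j (o.app d (cf j))) z m) :=
  E.run_primT _ x ta cf z m rfl

open Classical in
theorem run_forTapes {P : A.Tape → Prog M F α} {f : A.Tape → Zip α → Zip α} {x : CallMem A}
    {cf : CFile → Zip α} {z : F → Zip α} {m : M} {c : ℕ}
    (hP : ∀ i ta, Run d (P i) (E.St x ta cf z m) c
      (E.St x (Function.update ta i (f i (ta i))) cf z m)) (ts : List A.Tape) (hts : ts.Nodup)
    (ta : A.Tape → Zip α) :
    Run d (seqL (ts.map P)) (E.St x ta cf z m) (ts.length * c + 1)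
      (E.St x (fun i => if i ∈ ts then f i (ta i) else ta i) cf z m) := by
  induction ts generalizing ta with
  | nil =>
    have h0 : (fun i => if i ∈ ([] : List A.Tape) then f i (ta i) else ta i) = ta := by
      funext i; simp
    rw [h0]
    exact (run_skip _).mono (by simp)
  | cons i ts ih =>
    rw [List.nodup_cons] at hts
    have h1 := ih hts.2 (Function.update ta i (f i (ta i)))
    have h2 : (fun j => if j ∈ ts then f j (Function.update ta i (f i (ta i)) j)
        else Function.update ta i (f i (ta i)) j) =
        fun j => if j ∈ i :: ts then f j (ta j) else ta j := by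
      funext j
      by_cases hj : j = i
      · subst hj
        simp [hts.1]
      · simp [List.mem_cons, hj]
    rw [h2] at h1
    refine Run.seq' (hP i ta) h1 ?_
    rw [List.length_cons]
    ring_nf
    omega

open Classical in
theorem run_allTapes {P : A.Tape → Prog M F α} {f : A.Tape → Zip α → Zip α} {x : CallMem A}
    {cf : CFile → Zip α} {z : F → Zip α} {m : M} {c : ℕ}
    (hP : ∀ i ta, Run d (P i) (E.St x ta cf z m) c
      (E.St x (Function.update ta i (f i (ta i))) cf z m))
    (ta : A.Tape → Zip α) :
    Run d (seqL ((tapes A).map P)) (E.St x ta cf z m) ((tapes A).length * c + 1)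
      (E.St x (fun i => f i (ta i)) cf z m) := by
  have := E.run_forTapes hP (tapes A) (tapes_nodup A) ta
  simpa [mem_tapes] using this

/-- Symbols of `A` from the symbols under the heads. -/
def rd (rt : A.Tape → Option α) (i : A.Tape) : A.Sym := ((rt i).map E.dec).getD A.blank

/-- Fetch the action of `A`. -/
def fetch : Prog M F α := E.primT fun x rt _ =>
  (match A.step x.st (E.rd rt) with
    | none => x
    | some (q, a) => ⟨q, a⟩, none)

/-- Carry out the pending action on one tape. -/
def doTape (i : A.Tape) : Prog M F α :=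
  .seq (E.primT fun x _ _ => (x, some (.inl i, .write (E.enc (x.ac i).1))))
    (E.primT fun x _ _ => (x, (mvOp (x.ac i).2).map fun o => (.inl i, o)))

open Classical in
theorem run_doTape (i : A.Tape) (x : CallMem A) (ta : A.Tape → Zip α)
    (cf : CFile → Zip α) (z : F → Zip α) (m : M) :
    Run d (E.doTape i) (E.St x ta cf z m) 2
      (E.St x (Function.update ta i (actZ E.enc d (x.ac i) (ta i))) cf z m) := by
  have h1 := E.run_primT (fun x _ _ => (x, some (.inl i, .write (E.enc (x.ac i).1)))) x ta cf z m
    rfl
  have h2 := E.run_primT (fun x _ _ => (x, (mvOp (x.ac i).2).map fun o => (.inl i, o))) x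
    (Function.update ta i ((Op.write (E.enc (x.ac i).1)).app d (ta i))) cf z m rfl
  rw [appT_map, appF_map, Function.update_self, Function.update_idem] at h2
  exact Run.seq' h1 h2 le_rfl

/-- One step of `A`. -/
noncomputable def stepP : Prog M F α := .seq E.fetch (seqL ((tapes A).map E.doTape))

theorem run_stepP {x : CallMem A} {q : A.State} {a : A.Tape → A.Sym × Move}
    {ta : A.Tape → Zip α} (cf : CFile → Zip α) (z : F → Zip α) (m : M)
    (h : A.step x.st (E.rd fun i => (ta i).peek) = some (q, a)) :
    Run d E.stepP (E.St x ta cf z m) ((tapes A).length * 2 + 2)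
      (E.St ⟨q, a⟩ (fun i => actZ E.enc d (a i) (ta i)) cf z m) := by
  have h1 := E.run_primT (fun x rt _ => (match A.step x.st (E.rd rt) with
    | none => x
    | some (q, a) => ⟨q, a⟩, none)) x ta cf z m rfl
  simp only [h] at h1
  have h2 := E.run_allTapes (x := ⟨q, a⟩) (f := fun i => actZ E.enc d (a i))
    (fun i ta => E.run_doTape i ⟨q, a⟩ ta cf z m) ta
  exact Run.seq' h1 h2 (by omega)

/-- Advance the clock. -/
def tick : Prog M F α :=
  .seq (E.primT fun x _ _ => (x, some (.inr .clk, .write E.mark)))
    (E.primT fun x _ _ => (x, some (.inr .clk, .right)))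

theorem run_tick (u : List α) (x : CallMem A) (ta : A.Tape → Zip α) (X Y R : Zip α)
    (z : F → Zip α) (m : M) :
    Run d E.tick (E.St x ta (cfs X Y ⟨u, []⟩ R) z m) 2
      (E.St x ta (cfs X Y ⟨E.mark :: u, []⟩ R) z m) := by
  have h1 := E.run_file .clk (.write E.mark) x ta (cfs X Y ⟨u, []⟩ R) z m
  simp only [cfs_clk, update_cfs_clk, app_write_nil] at h1
  have h2 := E.run_file .clk .right x ta (cfs X Y ⟨u, [E.mark]⟩ R) z m
  simp only [cfs_clk, update_cfs_clk, app_right_cons] at h2
  exact Run.seq' h1 h2 le_rfl

/-- The condition of the simulation loop. -/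
def simCond : M → (F → Option α) → Bool :=
  E.cond fun x rt _ => (A.step x.st (E.rd rt)).isSome

/-- The simulation loop. -/
noncomputable def simLoop : Prog M F α := .loop E.simCond (.seq E.stepP E.tick)

theorem run_simLoop (X Y R : Zip α) (z : F → Zip α)
    (m : M) (k : ℕ) (c : A.Conf) (ta : A.Tape → Zip α) (u : List α)
    (ac : A.Tape → A.Sym × Move)
    (hr : ∀ i, Rep A E.dec (c.tape i) (c.head i) (ta i))
    (hk : ∀ j < k, ¬ A.Halted (A.next^[j] c)) (hh : A.Halted (A.next^[k] c)) :
    ∃ ta' ac', (∀ i, Rep A E.dec ((A.next^[k] c).tape i) ((A.next^[k] c).head i) (ta' i)) ∧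
      Run d E.simLoop (E.St ⟨c.state, ac⟩ ta (cfs X Y ⟨u, []⟩ R) z m)
        (k * ((tapes A).length * 2 + 5) + 1)
        (E.St ⟨(A.next^[k] c).state, ac'⟩ ta'
          (cfs X Y ⟨List.replicate k E.mark ++ u, []⟩ R) z m) := by
  have hrd : ∀ (c : A.Conf) (ta : A.Tape → Zip α),
      (∀ i, Rep A E.dec (c.tape i) (c.head i) (ta i)) →
      (E.rd fun i => (ta i).peek) = fun i => c.tape i (c.head i) := by
    intro c ta hr
    funext i
    exact (hr i).peek
  induction k generalizing c ta u ac with
  | zero =>
    refine ⟨ta, ac, hr, ?_⟩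
    simp only [Function.iterate_zero, id_eq, List.replicate_zero, List.nil_append, Nat.zero_mul,
      Nat.zero_add] at *
    apply Run.loopF
    rw [simCond, E.cond_eq, hrd c ta hr]
    have : A.step c.state (fun i => c.tape i (c.head i)) = none := hh
    simp [this]
  | succ k ih =>
    have h0 : ¬ A.Halted c := hk 0 (by omega)
    obtain ⟨⟨q, a⟩, hqa⟩ : ∃ qa, A.act c = some qa := Option.ne_none_iff_exists'.mp h0
    have hn : A.next c = { state := q
                           tape := fun i => Function.update (c.tape i) (c.head i) (a i).1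
                           head := fun i => (a i).2.app (c.head i) } := by
      rw [MTM.next, hqa]
    have hqa' : A.step c.state (E.rd fun i => (ta i).peek) = some (q, a) := by
      rw [hrd c ta hr]; exact hqa
    have hr' : ∀ i, Rep A E.dec ((A.next c).tape i) ((A.next c).head i)
        (actZ E.enc d (a i) (ta i)) := by
      intro i
      rw [hn]
      exact (hr i).actZ E.dec_enc E.dec_d (a i)
    obtain ⟨ta', ac', hr2, hrun⟩ := ih (A.next c) (fun i => actZ E.enc d (a i) (ta i))
      (E.mark :: u) a hr'
      (fun j hj => by simpa [Function.iterate_succ_apply] using hk (j + 1) (by omega))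
      (by simpa [Function.iterate_succ_apply] using hh)
    refine ⟨ta', ac', by simpa [Function.iterate_succ_apply] using hr2, ?_⟩
    have hstep := E.run_stepP (x := ⟨c.state, ac⟩) (ta := ta)
      (cfs X Y ⟨u, []⟩ R) z m hqa'
    have htick := E.run_tick u ⟨q, a⟩
      (fun i => actZ E.enc d (a i) (ta i)) X Y R z m
    have hbody := Run.seq hstep htick
    have hst : (A.next c).state = q := by rw [hn]
    rw [hst] at hrun
    have hcond : E.simCond (E.St ⟨c.state, ac⟩ ta (cfs X Y ⟨u, []⟩ R) z m).m
        (E.St ⟨c.state, ac⟩ ta (cfs X Y ⟨u, []⟩ R) z m).reads = true := by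
      rw [simCond, E.cond_eq]
      simp [hqa']
    have := Run.loopT hcond hbody hrun
    rw [Function.iterate_succ_apply]
    have e : List.replicate (k + 1) E.mark ++ u = List.replicate k E.mark ++ E.mark :: u := by
      rw [List.replicate_succ']
      simp
    rw [e]
    refine this.mono ?_
    ring_nf
    omega

end CallEnv

end Vale.Agent.P338.R2.H968
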