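import Vale.Agent.P338.R2.H968.Counters
import Vale.Agent.P338.R2.H778.Bits

/-!
P338: words as binary numbers (most significant bit first): increment.
-/

namespace Vale.Agent.P338.R2.H968

open Vale.Agent.P338.R2.H898
open Vale.Agent.P338.R2.H784
open Vale.Agent.P338.R2.H778 (bits)
open Function (update)

set_option linter.unusedSectionVars false

theorem bits_succ_split {W v : ℕ} (h : v + 1 < 2 ^ W) :
    ∃ (pre : List Bool) (k : ℕ), bits W v = pre ++ false :: List.replicate k true ∧
      bits W (v + 1) = pre ++ true :: List.replicate k false := by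
  induction W generalizing v with
  | zero => simp at h
  | succ W ih =>
    rw [bits, bits]
    rcases Nat.mod_two_eq_zero_or_one v with h0 | h1
    · refine ⟨bits W (v / 2), 0, ?_, ?_⟩
      · simp [h0]
      · have e1 : (v + 1) / 2 = v / 2 := by omega
        have e2 : (v + 1) % 2 = 1 := by omega
        simp [e1, e2]
    · have e1 : (v + 1) / 2 = v / 2 + 1 := by omega
      have e2 : (v + 1) % 2 = 0 := by omega
      obtain ⟨pre, k, h3, h4⟩ := ih (v := v / 2) (by rw [pow_succ] at h; omega)
      refine ⟨pre, k + 1, ?_, ?_⟩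
      · rw [h3, h1]
        simp [List.replicate_succ']
      · rw [e1, h4, e2]
        simp [List.replicate_succ']

variable {M F α : Type} [DecidableEq F] {d u : α} {m : M} {z : F → Zip α}

/-- A ruler. -/
def rz (u : α) (i j : ℕ) : Zip α := ⟨List.replicate i u, List.replicate j u⟩

theorem eq_upd {f : F} {s : Store M F α} {x : Zip α} (h1 : s.z f = x)
    (h2 : Keep [f] ⟨m, z⟩ s) : s = ⟨m, update z f x⟩ := by
  rcases s with ⟨m', z'⟩
  obtain ⟨h3, h4⟩ := h2
  simp only at h3
  subst h3
  simp only [Store.mk.injEq, true_and]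
  funext g
  by_cases hg : g = f
  · subst hg
    rw [Function.update_self]
    exact h1
  · rw [Function.update_of_ne hg]
    exact h4 g (by simpa using hg)

theorem runz_of_tri1 {f : F} {p : Prog M F α} {c i j : ℕ}
    (h : Tri d p ⟨m, z⟩ c (fun s' => Len u i j (s'.z f) ∧ Keep [f] ⟨m, z⟩ s')) :
    Prog.Run d p ⟨m, z⟩ c ⟨m, update z f (rz u i j)⟩ := by
  obtain ⟨s', h1, h2, h3⟩ := h
  rw [← eq_upd (show s'.z f = rz u i j from h2) h3]
  exact h1

theorem runz_isSome {f : F} {i j : ℕ} (h : z f = rz u i j) :
    (((⟨m, z⟩ : Store M F α).reads f).isSome) = decide (0 < j) := by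
  simp only [Store.reads, h, rz, Zip.peek]
  rcases j with _ | j <;> simp [List.replicate_succ]

theorem runz_right {f : F} {i j : ℕ} (h : z f = rz u i (j + 1)) :
    Prog.Run d (op f .right) ⟨m, z⟩ 1 ⟨m, update z f (rz u (i + 1) j)⟩ :=
  runz_of_tri1 (tri_right h)

theorem runz_put {f : F} {i : ℕ} (h : z f = rz u i 0) :
    Prog.Run d (put f u) ⟨m, z⟩ 2 ⟨m, update z f (rz u (i + 1) 0)⟩ :=
  runz_of_tri1 (tri_put h)

theorem runz_rew {f : F} {i j : ℕ} (h : z f = rz u i j) :
    Prog.Run d (op f .rew) ⟨m, z⟩ 1 ⟨m, update z f (rz u 0 (i + j))⟩ :=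
  runz_of_tri1 (tri_rew h)

theorem runz_clr {f : F} :
    Prog.Run d (clr f) ⟨m, z⟩ 2 ⟨m, update z f (rz u 0 0)⟩ :=
  runz_of_tri1 ((tri_clr f _).post fun _ ⟨h1, h2⟩ => ⟨h1, h2⟩)

theorem runz_mv {a b : F} (hab : a ≠ b) {i j k : ℕ} (ha : z a = rz u i j) (hb : z b = rz u k 0) :
    Prog.Run d (mvU a b u) ⟨m, z⟩ (4 * j + 1)
      ⟨m, update (update z a (rz u (i + j) 0)) b (rz u (k + j) 0)⟩ := by
  obtain ⟨s', h3, h4, h5, h6⟩ := tri_mvU (d := d) (s := ⟨m, z⟩) hab ha hb
  have h7 : s' = ⟨m, update (update z a (rz u (i + j) 0)) b (rz u (k + j) 0)⟩ := by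
    rcases s' with ⟨m', z'⟩
    obtain ⟨h8, h9⟩ := h6
    simp only at h8
    subst h8
    simp only [Store.mk.injEq, true_and]
    funext g
    by_cases hg : g = b
    · subst hg
      rw [Function.update_self]
      exact h5
    · rw [Function.update_of_ne hg]
      by_cases hg2 : g = a
      · subst hg2
        rw [Function.update_self]
        exact h4
      · rw [Function.update_of_ne hg2]
        exact h9 g (by simp [hg, hg2])
  rw [← h7]
  exact h3

/-- Loops over a ruler. -/
theorem runz_for {f : F} {p : Prog M F α} {n t : ℕ} (Z : ℕ → F → Zip α)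
    (h : ∀ i < n, Prog.Run d p ⟨m, update (Z i) f (rz u i (n - i))⟩ t
      ⟨m, update (Z (i + 1)) f (rz u i (n - i))⟩) :
    Prog.Run d (forU f p) ⟨m, update (Z 0) f (rz u 0 n)⟩ (n * (t + 2) + 2)
      ⟨m, update (Z n) f (rz u 0 n)⟩ := by
  have h1 := Prog.Run.loop_const (d := d) (c := fun _ r => (r f).isSome)
    (p := .seq p (op f .right)) n (fun i => (⟨m, update (Z i) f (rz u i (n - i))⟩ : Store M F α))
    (t + 1) ?_ ?_ ?_
  · have h2 := runz_rew (d := d) (u := u) (m := m) (z := update (Z n) f (rz u n (n - n))) (f := f)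
      (i := n) (j := n - n) (by rw [Function.update_self])
    have h3 := h1.seq h2
    simp only [Nat.sub_zero, Nat.sub_self, Nat.add_zero, Function.update_idem] at h3
    exact h3.mono (by ring_nf; omega)
  · intro i hi
    rw [runz_isSome (u := u) (i := i) (j := n - i) (by rw [Function.update_self])]
    simpa using hi
  · rw [runz_isSome (u := u) (i := n) (j := n - n) (by rw [Function.update_self])]
    simp
  · intro i hi
    obtain ⟨j, hj⟩ : ∃ j, n - i = j + 1 := ⟨n - i - 1, by omega⟩
    have h2 := runz_right (d := d) (u := u) (m := m) (z := update (Z (i + 1)) f (rz u i (n - i)))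
      (f := f) (i := i) (j := j) (by rw [Function.update_self, hj])
    rw [Function.update_idem] at h2
    have e : n - (i + 1) = j := by omega
    rw [e]
    exact (h i hi).seq h2

theorem runz_congr {p : Prog M F α} {z' w w' : F → Zip α} {t t' : ℕ}
    (h : Prog.Run d p ⟨m, z⟩ t ⟨m, w⟩) (hz : z' = z) (hw : w = w') (ht : t ≤ t') :
    Prog.Run d p ⟨m, z'⟩ t' ⟨m, w'⟩ := by
  subst hz hw
  exact h.mono ht

/-- Go to the end of a file. -/
def goEnd (f : F) : Prog M F α := .loop (fun _ r => (r f).isSome) (op f .right)

theorem run_goEnd {f : F} {l : List α} (h : z f = ⟨[], l⟩) :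
    Prog.Run d (goEnd f) ⟨m, z⟩ (2 * l.length + 1) ⟨m, update z f ⟨l.reverse, []⟩⟩ := by
  have key : ∀ (r l' : List α) (z : F → Zip α), z f = ⟨l', r⟩ →
      Prog.Run d (goEnd f) ⟨m, z⟩ (2 * r.length + 1) ⟨m, update z f ⟨r.reverse ++ l', []⟩⟩ := by
    intro r
    induction r with
    | nil =>
      intro l' z hz
      have e : update z f ⟨([] : List α).reverse ++ l', []⟩ = z := by
        rw [List.reverse_nil, List.nil_append, ← hz, Function.update_eq_self]
      rw [e]
      exact (Prog.Run.loopF (by simp [Store.reads, hz, Zip.peek])).mono (by simp)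
    | cons a r ih =>
      intro l' z hz
      have h1 := run_right (d := d) (m := m) hz
      have h2 := ih (a :: l') (update z f ⟨a :: l', r⟩) (by rw [Function.update_self])
      rw [Function.update_idem] at h2
      have e : (a :: r).reverse ++ l' = r.reverse ++ a :: l' := by simp
      rw [e]
      refine (Prog.Run.loopT (by simp [Store.reads, hz, Zip.peek]) h1 h2).mono ?_
      simp only [List.length_cons]
      omega
  have := key l [] z h
  simpa using this

variable [DecidableEq α] {bit : Bool → α}

/-- Increment of a word. -/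
def incW (f : F) (bit : Bool → α) : Prog M F α :=
  .seq (goEnd f) (.seq (op f .left) (.seq
    (.loop (fun _ r => decide (r f = some (bit true)))
      (.seq (op f (.write (bit false))) (op f .left)))
    (.seq (op f (.write (bit true))) (op f .rew))))

theorem run_incW {f : F} (hbit : Function.Injective bit) {W v : ℕ} (hv : v + 1 < 2 ^ W)
    (hf : z f = ⟨[], (bits W v).map bit⟩) :
    Prog.Run d (incW f bit) ⟨m, z⟩ (5 * W + 5)
      ⟨m, update z f ⟨[], (bits W (v + 1)).map bit⟩⟩ := by
  obtain ⟨pre, k, h1, h2⟩ := bits_succ_split hv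
  have hlen : pre.length + 1 + k = W := by
    have := congrArg List.length h1
    simp at this
    omega
  have g1 := run_goEnd (d := d) (m := m) hf
  set S : ℕ → Zip α := fun i => Op.app d .left
    ⟨List.replicate (k - i) (bit true) ++ bit false :: (pre.map bit).reverse,
      List.replicate i (bit false)⟩ with hS
  have e1 : ((bits W v).map bit).reverse =
      List.replicate k (bit true) ++ bit false :: (pre.map bit).reverse := by
    rw [h1]
    simp
  rw [e1] at g1
  have g2 := run_op (d := d) f .left m (update z f
    ⟨List.replicate k (bit true) ++ bit false :: (pre.map bit).reverse, []⟩)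
  rw [Function.update_self, Function.update_idem] at g2
  have e2 : Op.app d .left
    ⟨List.replicate k (bit true) ++ bit false :: (pre.map bit).reverse, []⟩ = S 0 := by
    simp [hS]
  rw [e2] at g2
  have hS1 : ∀ i < k, S i = ⟨List.replicate (k - (i + 1)) (bit true) ++
      bit false :: (pre.map bit).reverse, bit true :: List.replicate i (bit false)⟩ := by
    intro i hi
    obtain ⟨j, hj⟩ : ∃ j, k - i = j + 1 := ⟨k - i - 1, by omega⟩
    have e : k - (i + 1) = j := by omega
    simp only [hS, hj, e]
    rfl
  have hS2 : S k = ⟨(pre.map bit).reverse, bit false :: List.replicate k (bit false)⟩ := by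
    simp [hS, Op.app]
  have g3 := Prog.Run.loop_const (d := d) (c := fun _ r => decide (r f = some (bit true)))
    (p := .seq (op f (.write (bit false))) (op f .left)) k
    (fun i => (⟨m, update z f (S i)⟩ : Store M F α)) 2 ?_ ?_ ?_
  · have g4 := run_op (d := d) f (.write (bit true)) m (update z f (S k))
    rw [Function.update_self, Function.update_idem, hS2] at g4
    have e3 : Op.app d (.write (bit true))
        (⟨(pre.map bit).reverse, bit false :: List.replicate k (bit false)⟩ : Zip α) =
        ⟨(pre.map bit).reverse, bit true :: List.replicate k (bit false)⟩ := rfl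
    rw [e3] at g4
    have g5 := run_rew (d := d) f m (update z f
      ⟨(pre.map bit).reverse, bit true :: List.replicate k (bit false)⟩)
    rw [Function.update_self, Function.update_idem] at g5
    have e4 : (⟨(pre.map bit).reverse, bit true :: List.replicate k (bit false)⟩ : Zip α).full =
        (bits W (v + 1)).map bit := by
      rw [h2]
      simp [Zip.full]
    rw [e4] at g5
    rw [← hS2] at g4
    refine (g1.seq (g2.seq (g3.seq (g4.seq g5)))).mono ?_
    simp only [List.length_map, H778.length_bits]
    omega
  · intro i hi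
    simp [Store.reads, hS1 i hi, Zip.peek]
  · have : bit false ≠ bit true := fun h => by simpa using hbit h
    simp [Store.reads, hS2, Zip.peek, this]
  · intro i hi
    have g4 := run_op (d := d) f (.write (bit false)) m (update z f (S i))
    have g5 := run_op (d := d) f .left m
      (update (update z f (S i)) f (Op.app d (.write (bit false)) (S i)))
    rw [Function.update_self] at g4
    rw [Function.update_self, Function.update_idem, Function.update_idem] at g5
    rw [Function.update_idem] at g4
    have e3 : Op.app d .left (Op.app d (.write (bit false)) (S i)) = S (i + 1) := by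
      rw [hS1 i hi]
      simp only [hS]
      rfl
    rw [e3] at g5
    exact (g4.seq g5)

end Vale.Agent.P338.R2.H968
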